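import Vale.Agent.P092RG.Quo
import Mathlib.Topology.Maps.Proper.CompactlyGenerated
import Mathlib.GroupTheory.Solvable

/-!
P092, rank one (helper76): the big cell of the boundary, dynamics, properness on triples,
generation.
-/

set_option linter.all false

open Filter Topology

namespace Vale.Agent.P092RG

open Vale.Agent.P092.H793.Re

variable {n : ℕ} {G : Type} [Group G] [TopologicalSpace G]
variable {ρ : G →* SLn n} {w : Fin n → ℝ}

namespace R1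

variable (h : R1 ρ w)
include h

/-- the base point of the boundary -/
def y0 (h : R1 ρ w) : h.Y := ((1 : G) : h.Y)

/-- the opposite point of the boundary -/
noncomputable def y1 (h : R1 ρ w) : h.Y := ((h.w0 : G) : h.Y)

/-- the base point of the cone -/
def z0 (h : R1 ρ w) : h.Z := ((1 : G) : h.Z)

theorem smul_y0 (g : G) : g • h.y0 = (g : h.Y) := by unfold y0; rw [h.smul_mkY, mul_one]

theorem smul_z0 (g : G) : g • h.z0 = (g : h.Z) := by unfold z0; rw [h.smul_mkZ, mul_one]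

theorem mk_eq_y0 {g : G} : (g : h.Y) = h.y0 ↔ g ∈ h.P := by
  unfold y0; rw [eq_comm, QuotientGroup.eq, inv_one, one_mul]

theorem mk_eq_z0 {g : G} : (g : h.Z) = h.z0 ↔ g ∈ h.MN := by
  unfold z0; rw [eq_comm, QuotientGroup.eq, inv_one, one_mul]

theorem smul_y0_eq {g : G} : g • h.y0 = h.y0 ↔ g ∈ h.P := by rw [h.smul_y0, h.mk_eq_y0]

theorem smul_z0_eq {g : G} : g • h.z0 = h.z0 ↔ g ∈ h.MN := by rw [h.smul_z0, h.mk_eq_z0]

theorem y1_ne : h.y1 ≠ h.y0 := fun e => h.w0_not_mem (h.mk_eq_y0.1 e)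

theorem dir_z0 : h.dir h.z0 = h.y0 := rfl

theorem ht_z0 : h.ht h.z0 = 0 := h.hs_one

theorem sec_y0 : h.sec h.y0 = h.z0 := h.sec_K h.K.one_mem

theorem a_smul_z0 (s : ℝ) : h.a s • h.z0 = h.dl s h.z0 := by
  rw [h.smul_z0]; unfold z0; rw [h.dl_mk, one_mul]

theorem dd_z0 (g : G) : h.dd h.z0 (g : h.Z) = h.bd g := by
  unfold z0; rw [h.dd_mk, inv_one, one_mul]

theorem dv_y0 (g : G) : h.dv h.y0 (g : h.Y) = Real.exp (-h.hs g) * h.bd g := by
  have := h.bd_iwa 1 g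
  rw [one_mul, one_mul] at this
  unfold y0
  rw [h.dv_mk, h.ik_K h.K.one_mem, inv_one, one_mul, this, ← mul_assoc, ← Real.exp_add,
    neg_add_cancel, Real.exp_zero, one_mul]

theorem dv_y1 (g : G) : h.dv h.y1 (g : h.Y) = Real.exp (-h.hs g) * h.bd (h.w0 * g) := by
  unfold y1
  rw [h.dv_mk, h.ik_K h.w0_mem, h.bd_w0_inv_mul, h.bd_iwa h.w0 g, ← mul_assoc, ← Real.exp_add,
    neg_add_cancel, Real.exp_zero, one_mul]

theorem L_smul_y1 {g : G} (hg : g ∈ h.L) : g • h.y1 = h.y1 := by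
  unfold y1
  rw [h.smul_mkY, eq_comm, QuotientGroup.eq]
  have e : h.w0⁻¹ * (g * h.w0) = (h.w0 * h.w0)⁻¹ * (h.w0 * g * h.w0) := by group
  rw [e]
  exact h.L_le_P (h.L.mul_mem (h.L.inv_mem h.w0_sq.2) (h.L_conj_w0 hg))

theorem w0_smul_y0 : h.w0 • h.y0 = h.y1 := h.smul_y0 _

theorem w0_smul_y1 : h.w0 • h.y1 = h.y0 := h.mk_eq_y0.2 (h.M_le_P h.w0_sq)

/-- the chart of the big cell -/
noncomputable def cell (p : h.EN) : h.Y := ((h.nE p * h.w0 : G) : h.Y)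

theorem cell_eq (p : h.EN) : h.cell p = h.nE p • h.y1 := rfl

theorem cell_zero : h.cell 0 = h.y1 := by rw [h.cell_eq, h.nE_zero, one_smul]

theorem continuous_cell : Continuous h.cell := by
  have := h.continuous_nE
  simp only [funext h.cell_eq]
  fun_prop

theorem bd_nE_w0 (p : h.EN) : h.bd (h.nE p * h.w0) = 1 := by rw [h.bd_N_mul (h.nE_mem p), h.bd_w0]

theorem cell_ne (p : h.EN) : h.cell p ≠ h.y0 := fun e => by
  have := h.bd_P (h.mk_eq_y0.1 e)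
  rw [h.bd_nE_w0] at this
  exact one_ne_zero this

theorem exists_cell {y : h.Y} (hy : y ≠ h.y0) : ∃ p, h.cell p = y := by
  obtain ⟨g, rfl⟩ := QuotientGroup.mk_surjective y
  rcases h.bruhat g with h1 | ⟨u, hu, p, hp, rfl⟩
  · exact absurd (h.mk_eq_y0.2 h1) hy
  · exact ⟨h.nC u, by unfold cell; rw [h.nE_nC hu, h.mkY_mul hp]⟩

theorem range_cell : Set.range h.cell = {h.y0}ᶜ :=
  Set.ext fun y => ⟨fun ⟨p, hp⟩ => hp ▸ h.cell_ne p, fun hy => h.exists_cell hy⟩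

theorem nE_smul_cell (p q : h.EN) : h.nE p • h.cell q = h.cell (h.mulE p q) := by
  rw [h.cell_eq, h.cell_eq, ← mul_smul, h.nE_mul]

theorem a_smul_cell (s : ℝ) (p : h.EN) : h.a s • h.cell p = h.cell (h.dil s p) := by
  rw [h.cell_eq, h.cell_eq, ← mul_smul, h.a_mul_nE, mul_smul, h.L_smul_y1 (h.a_mem_L s)]

theorem L_smul_cell {m : G} (hm : m ∈ h.L) (p : h.EN) : m • h.cell p = h.cell (h.rot m p) := by
  rw [h.cell_eq, h.cell_eq, ← h.conj_nE hm, mul_smul, mul_smul, h.L_smul_y1 (h.L.inv_mem hm)]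

theorem eq_one_of_smul_y1 {u : G} (hu : u ∈ h.N) (e : u • h.y1 = h.y1) : u = 1 := by
  obtain ⟨c, C, hc, -, h1⟩ := h.bd_gau
  have h2 := (h1 (h.nC u)).1
  have h3 : h.w0⁻¹ * (u * h.w0) ∈ h.P := QuotientGroup.eq.1 e.symm
  rw [h.nE_nC hu, ← h.bd_w0_inv_mul, h.bd_P h3] at h2
  have h4 : h.gau (h.nC u) ^ 2 = 0 := le_antisymm (by
    by_contra h5
    exact absurd h2 (not_le.2 (mul_pos hc (not_le.1 h5)))) (sq_nonneg _)
  rw [← h.nE_nC hu, h.gau_eq_zero.1 (pow_eq_zero_iff two_ne_zero |>.1 h4), h.nE_zero]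

theorem cell_inj : Function.Injective h.cell := fun p q e => by
  rw [h.cell_eq, h.cell_eq] at e
  have h1 := h.eq_one_of_smul_y1 (h.N.mul_mem (h.N.inv_mem (h.nE_mem q)) (h.nE_mem p))
    (by rw [mul_smul, e, inv_smul_smul])
  exact h.nE_inj (inv_mul_eq_one.1 h1).symm

theorem dv_y0_cell (p : h.EN) : h.dv h.y0 (h.cell p) = Real.exp (-h.hs (h.nE p * h.w0)) := by
  unfold cell; rw [h.dv_y0, h.bd_nE_w0, mul_one]

/-- the height on the big cell -/
theorem hs_cell : ∃ c C : ℝ, 0 < c ∧ 0 < C ∧ ∀ p, c * (1 + h.gau p ^ 2) ≤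
    Real.exp (h.hs (h.nE p * h.w0)) ∧ Real.exp (h.hs (h.nE p * h.w0)) ≤ C * (1 + h.gau p ^ 2) := by
  obtain ⟨c, C, hc, hC, h1⟩ := h.bd_gau
  obtain ⟨c', hc', h2⟩ := h.two_corner
  refine ⟨min c 1 / 2, max C 1 / c', by positivity, by positivity, fun p => ⟨?_, ?_⟩⟩
  · have h3 := h.bd_le_hs (h.nE p * h.w0)
    have h4 := h.bd_le_hs (h.w0 * (h.nE p * h.w0))
    rw [h.bd_nE_w0] at h3
    rw [h.hs_K_mul h.w0_mem] at h4
    have h5 := (h1 p).1
    have h6 := mul_le_mul_of_nonneg_right (min_le_left c 1) (sq_nonneg (h.gau p))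
    have h7 := min_le_right c 1
    linarith
  · have h3 := h2 (h.nE p * h.w0)
    rw [h.bd_nE_w0] at h3
    have h5 := (h1 p).2
    have h6 := mul_le_mul_of_nonneg_right (le_max_left C 1) (sq_nonneg (h.gau p))
    have h7 := le_max_right C 1
    rw [div_mul_eq_mul_div, le_div_iff₀' hc']
    linarith

theorem isOpenEmbedding_cell : IsOpenEmbedding h.cell := by
  obtain ⟨c, C, hc, -, h1⟩ := h.hs_cell
  have hO : IsOpen ({h.y0}ᶜ : Set h.Y) := isOpen_compl_singleton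
  haveI := hO.locallyCompactSpace
  let φ : h.EN → ({h.y0}ᶜ : Set h.Y) := fun p => ⟨h.cell p, h.cell_ne p⟩
  have hφ : Continuous φ := h.continuous_cell.subtype_mk _
  have h2 : IsProperMap φ := by
    refine isProperMap_iff_isCompact_preimage.2 ⟨hφ, fun S hS => ?_⟩
    rcases S.eq_empty_or_nonempty with rfl | hne
    · exact isCompact_empty
    have hd : Continuous fun y : ({h.y0}ᶜ : Set h.Y) => h.dv h.y0 y :=
      h.continuous_dv.comp (f := fun y : ({h.y0}ᶜ : Set h.Y) => (h.y0, (y : h.Y))) (by fun_prop)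
    obtain ⟨y, -, hmin⟩ := hS.exists_isMinOn hne hd.continuousOn
    have h3 : 0 < h.dv h.y0 y := h.dv_pos (Ne.symm y.2)
    refine (h.isCompact_gau (Real.sqrt ((c * h.dv h.y0 y)⁻¹))).of_isClosed_subset
      (hS.isClosed.preimage hφ) fun p hp => ?_
    have h4 : h.dv h.y0 y ≤ h.dv h.y0 (h.cell p) := hmin hp
    rw [h.dv_y0_cell, Real.exp_neg, le_inv_comm₀ h3 (Real.exp_pos _)] at h4
    have h5 := (h1 p).1.trans h4
    refine Real.le_sqrt_of_sq_le ?_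
    rw [mul_inv, ← div_eq_inv_mul, le_div_iff₀' hc]
    nlinarith
  have h3 : IsClosedEmbedding φ := IsClosedEmbedding.of_continuous_injective_isClosedMap hφ
    (fun p q e => h.cell_inj (congrArg Subtype.val e)) h2.isClosedMap
  exact ⟨IsEmbedding.subtypeVal.comp h3.isEmbedding, h.range_cell ▸ hO⟩

/-- the coordinates on the big cell -/
noncomputable def lc (y : h.Y) : h.EN := Function.invFun h.cell y

theorem lc_cell (p : h.EN) : h.lc (h.cell p) = p := Function.leftInverse_invFun h.cell_inj p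

theorem cell_lc {y : h.Y} (hy : y ≠ h.y0) : h.cell (h.lc y) = y :=
  Function.invFun_eq (h.exists_cell hy)

theorem continuousOn_lc : ContinuousOn h.lc {h.y0}ᶜ := by
  intro y hy
  obtain ⟨p, rfl⟩ := h.exists_cell hy
  refine ContinuousAt.continuousWithinAt ?_
  rw [← h.isOpenEmbedding_cell.continuousAt_iff]
  have : h.lc ∘ h.cell = id := funext h.lc_cell
  rw [this]
  exact continuousAt_id

theorem measurable_lc [MeasurableSpace G] [BorelSpace G] : Measurable h.lc :=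
  measurable_of_continuousOn_compl_singleton _ h.continuousOn_lc

theorem tendsto_cell : Tendsto h.cell (cocompact h.EN) (𝓝 h.y0) := by
  refine tendsto_def.2 fun U hU => ?_
  obtain ⟨V, hV, hV1, hV2⟩ := mem_nhds_iff.1 hU
  refine mem_cocompact.2 ⟨h.cell ⁻¹' Vᶜ, ?_, fun p hp => hV (not_not.1 hp)⟩
  refine h.isOpenEmbedding_cell.isInducing.isCompact_preimage' hV1.isClosed_compl.isCompact ?_
  rw [h.range_cell]
  exact fun y hy e => hy (e ▸ hV2)

/-- two-transitivity -/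
theorem two_trans {y y' : h.Y} (e : y ≠ y') : ∃ g : G, g • h.y0 = y ∧ g • h.y1 = y' := by
  obtain ⟨κ, rfl⟩ := QuotientGroup.mk_surjective y
  obtain ⟨p, hp⟩ := h.exists_cell (y := κ⁻¹ • y') fun h0 => e (by
    rw [← h.smul_y0, ← h0, smul_inv_smul])
  refine ⟨κ * h.nE p, ?_, ?_⟩
  · rw [h.smul_y0, h.mkY_mul (h.N_le_P (h.nE_mem p))]
  · rw [mul_smul, ← h.cell_eq, hp, smul_inv_smul]

theorem stab_pair {g : G} (e : g • h.y0 = h.y0) (e' : g • h.y1 = h.y1) : g ∈ h.L := by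
  obtain ⟨u, hu, m, hm, s, rfl⟩ := h.P_decomp (h.smul_y0_eq.1 e)
  rw [mul_smul, mul_smul, h.L_smul_y1 (h.a_mem_L s), h.L_smul_y1 hm.2] at e'
  rw [h.eq_one_of_smul_y1 hu e', one_mul]
  exact h.L.mul_mem hm.2 (h.a_mem_L s)

/-! ### dynamics -/

theorem exp_co_a (s : ℝ) (y : h.Y) : Real.exp s * h.dv h.y1 y ≤ Real.exp (h.co (h.a s) y) := by
  obtain ⟨κ, hκ, rfl⟩ := h.exists_K y
  have h4 := h.bd_le_hs (h.w0 * (h.a s * κ))
  rw [h.hs_K_mul h.w0_mem, h.bd_w0_a_mul] at h4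
  rwa [h.dv_y1, h.co_K _ hκ, h.hs_K hκ, neg_zero, Real.exp_zero, one_mul]

theorem exp_co_a' : ∃ C : ℝ, 0 < C ∧ ∀ (s : ℝ) (y : h.Y), Real.exp (h.co (h.a s) y) ≤
    C * (Real.exp (-s) * h.dv h.y0 y + Real.exp s * h.dv h.y1 y) := by
  obtain ⟨c, hc, h1⟩ := h.two_corner
  refine ⟨c⁻¹, inv_pos.2 hc, fun s y => ?_⟩
  obtain ⟨κ, hκ, rfl⟩ := h.exists_K y
  have h2 := h1 (h.a s * κ)
  rw [h.bd_w0_a_mul, h.bd_a_mul] at h2
  rwa [h.dv_y1, h.dv_y0, h.co_K _ hκ, h.hs_K hκ, neg_zero, Real.exp_zero, one_mul, one_mul,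
    ← div_eq_inv_mul, le_div_iff₀' hc]

theorem co_a_y0 (s : ℝ) : h.co (h.a s) h.y0 = s := by
  unfold y0; rw [h.co_K _ h.K.one_mem, mul_one, h.hs_a]

theorem co_a_y1 (s : ℝ) : h.co (h.a s) h.y1 = -s := by
  have := h.w0_a (-s)
  rw [neg_neg] at this
  unfold y1; rw [h.co_K _ h.w0_mem, ← this, h.hs_K_mul h.w0_mem, h.hs_a]

theorem north_south_a (s : ℝ) (y : h.Y) :
    h.dv h.y0 (h.a s • y) * h.dv h.y1 y ≤ Real.exp (-(2 * s)) * h.dv h.y0 y := by
  have h1 := h.dv_smul (h.a s) h.y0 y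
  rw [h.smul_y0_eq.2 (h.a_mem_P s), h.co_a_y0] at h1
  have h2 := h.exp_co_a s y
  have h3 := h.dv_nonneg h.y0 y
  have h4 : Real.exp (-(2 * s)) = Real.exp (-(s + h.co (h.a s) y)) *
      (Real.exp (-s) * Real.exp (h.co (h.a s) y)) := by
    rw [← Real.exp_add, ← Real.exp_add]; congr 1; ring
  have h5 : h.dv h.y1 y ≤ Real.exp (-s) * Real.exp (h.co (h.a s) y) := by
    rw [Real.exp_neg, ← div_eq_inv_mul, le_div_iff₀' (Real.exp_pos s)]; exact h2
  rw [h1, h4, mul_right_comm]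
  exact mul_le_mul_of_nonneg_right (mul_le_mul_of_nonneg_left h5 (Real.exp_pos _).le) h3

theorem co_kak {κ κ' : G} (hκ : κ ∈ h.K) (hκ' : κ' ∈ h.K) (s : ℝ) (y : h.Y) :
    h.co (κ * h.a s * κ') y = h.co (h.a s) (κ' • y) := by
  rw [h.co_mul, h.co_mul, h.co_of_K hκ, h.co_of_K hκ', zero_add, add_zero]

/-- north-south dynamics -/
theorem north_south {κ κ' : G} (hκ : κ ∈ h.K) (hκ' : κ' ∈ h.K) (s : ℝ) (y : h.Y) :
    h.dv (κ • h.y0) ((κ * h.a s * κ') • y) * h.dv (κ'⁻¹ • h.y1) y ≤ Real.exp (-(2 * s)) := by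
  have h1 := h.north_south_a s (κ' • y)
  rw [mul_smul, mul_smul, h.dv_K_smul hκ, ← h.dv_K_smul hκ' (κ'⁻¹ • h.y1), smul_inv_smul]
  exact h1.trans (mul_le_of_le_one_right (Real.exp_pos _).le (h.dv_le_one _ _))

theorem rr_le_co : ∃ C : ℝ, 0 < C ∧ ∀ (g : G) (y y' : h.Y), Real.exp (h.rr g) * h.dv y y' ≤
    C * (Real.exp (h.co g y) + Real.exp (h.co g y')) := by
  obtain ⟨C, hC, h1⟩ := h.dv_tri
  refine ⟨C, hC, fun g y y' => ?_⟩
  obtain ⟨κ, hκ, κ', hκ', s, hs, rfl⟩ := h.kak g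
  rw [h.rr_kak hκ hκ' hs, h.co_kak hκ hκ', h.co_kak hκ hκ', ← h.dv_K_smul hκ' y y']
  have h2 := h1 (κ' • y) h.y1 (κ' • y')
  rw [h.dv_comm _ h.y1] at h2
  have h3 := h.exp_co_a s (κ' • y)
  have h4 := h.exp_co_a s (κ' • y')
  calc _ ≤ Real.exp s * (C * (h.dv h.y1 (κ' • y) + h.dv h.y1 (κ' • y'))) :=
        mul_le_mul_of_nonneg_left h2 (Real.exp_pos s).le
    _ = C * (Real.exp s * h.dv h.y1 (κ' • y) + Real.exp s * h.dv h.y1 (κ' • y')) := by ring
    _ ≤ _ := mul_le_mul_of_nonneg_left (add_le_add h3 h4) hC.le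

/-- the action on distinct triples is proper -/
theorem proper_triples {δ : ℝ} (hδ : 0 < δ) : ∃ R : ℝ, ∀ (g : G) (y y' y'' : h.Y),
    δ ≤ h.dv y y' → δ ≤ h.dv y y'' → δ ≤ h.dv y' y'' → δ ≤ h.dv (g • y) (g • y') →
    δ ≤ h.dv (g • y) (g • y'') → δ ≤ h.dv (g • y') (g • y'') → h.rr g ≤ R := by
  obtain ⟨C, hC, h1⟩ := h.rr_le_co
  have h2 : ∀ (g : G) (y y' : h.Y), δ ≤ h.dv y y' → δ ≤ h.dv (g • y) (g • y') →
      |h.co g y + h.co g y'| ≤ -Real.log δ := by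
    intro g y y' a b
    have e := h.dv_smul g y y'
    have a' := h.dv_le_one y y'
    have b' := h.dv_le_one (g • y) (g • y')
    have c1 := Real.exp_pos (-(h.co g y + h.co g y'))
    rw [abs_le, neg_neg]
    constructor
    · rw [Real.log_le_iff_le_exp hδ]
      have c2 : Real.exp (h.co g y + h.co g y') * Real.exp (-(h.co g y + h.co g y')) = 1 := by
        rw [← Real.exp_add, add_neg_cancel, Real.exp_zero]
      have c3 := Real.exp_pos (h.co g y + h.co g y')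
      nlinarith
    · rw [le_neg, Real.log_le_iff_le_exp hδ]
      nlinarith
  refine ⟨Real.log (C * (2 * Real.exp (-2 * Real.log δ)) / δ), fun g y y' y'' a b c a' b' c' => ?_⟩
  have d1 := abs_le.1 (h2 g y y' a a')
  have d2 := abs_le.1 (h2 g y y'' b b')
  have d3 := abs_le.1 (h2 g y' y'' c c')
  have d4 : h.co g y ≤ -2 * Real.log δ := by linarith [d1.1, d1.2, d2.1, d2.2, d3.1, d3.2]
  have d5 : h.co g y' ≤ -2 * Real.log δ := by linarith [d1.1, d1.2, d2.1, d2.2, d3.1, d3.2]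
  rw [Real.le_log_iff_exp_le (by positivity), le_div_iff₀ hδ]
  refine (mul_le_mul_of_nonneg_left a (Real.exp_pos _).le).trans ((h1 g y y').trans ?_)
  refine mul_le_mul_of_nonneg_left ?_ hC.le
  linarith [Real.exp_le_exp.2 d4, Real.exp_le_exp.2 d5]

/-! ### generation, properness -/

/-- the opposite unipotent group -/
noncomputable def Nb : Subgroup G := h.N.map (MulAut.conj h.w0).toMonoidHom

theorem mem_Nb {g : G} : g ∈ h.Nb ↔ h.w0⁻¹ * g * h.w0 ∈ h.N := by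
  constructor
  · rintro ⟨u, hu, rfl⟩
    simpa [mul_assoc] using hu
  · intro hg
    exact ⟨_, hg, by simp [mul_assoc]⟩

theorem conj_mem_Nb {u : G} (hu : u ∈ h.N) : h.w0 * u * h.w0⁻¹ ∈ h.Nb := ⟨u, hu, rfl⟩

theorem exists_N_ne : ∃ u ∈ h.N, u ≠ 1 := by
  haveI : Nontrivial (Vale.Agent.P092RK.Eu h.m1) := Module.nontrivial_of_finrank_pos (R := ℝ) (by
    rw [finrank_euclideanSpace_fin]; exact h.m1_pos)
  obtain ⟨p, hp⟩ := exists_ne (0 : h.EN)
  exact ⟨_, h.nE_mem p, fun e => hp (h.nE_inj (e.trans h.nE_zero.symm))⟩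

theorem gen_N_Nb : h.N ⊔ h.Nb = ⊤ := by
  have hw : ∀ x ∈ h.N ⊔ h.Nb, ∀ g : G, (∀ u ∈ h.N, g * u * g⁻¹ ∈ h.N ⊔ h.Nb) →
      (∀ u ∈ h.Nb, g * u * g⁻¹ ∈ h.N ⊔ h.Nb) → g * x * g⁻¹ ∈ h.N ⊔ h.Nb := by
    intro x hx g h1 h2
    have : h.N ⊔ h.Nb ≤ (h.N ⊔ h.Nb).comap (MulAut.conj g).toMonoidHom := sup_le h1 h2
    exact this hx
  have hL : ∀ g ∈ h.L, ∀ x ∈ h.N ⊔ h.Nb, g * x * g⁻¹ ∈ h.N ⊔ h.Nb := fun g hg x hx => by
    refine hw x hx g (fun u hu => Subgroup.mem_sup_left (h.conj_N (h.L_le_P hg) hu))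
      fun u hu => Subgroup.mem_sup_right ?_
    rw [h.mem_Nb] at hu ⊢
    have h1 := h.L.mul_mem (h.L.inv_mem h.w0_sq.2) (h.L_conj_w0 hg)
    have h2 := h.conj_N (h.L_le_P h1) hu
    have e : h.w0⁻¹ * (g * u * g⁻¹) * h.w0 = (h.w0 * h.w0)⁻¹ * (h.w0 * g * h.w0) *
      (h.w0⁻¹ * u * h.w0) * ((h.w0 * h.w0)⁻¹ * (h.w0 * g * h.w0))⁻¹ := by group
    rwa [e]
  have hN : ∀ g ∈ h.N, ∀ x ∈ h.N ⊔ h.Nb, g * x * g⁻¹ ∈ h.N ⊔ h.Nb := fun g hg x hx =>
    Subgroup.mul_mem _ (Subgroup.mul_mem _ (Subgroup.mem_sup_left hg) hx)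
      (Subgroup.mem_sup_left (h.N.inv_mem hg))
  have hP : ∀ g ∈ h.P, ∀ x ∈ h.N ⊔ h.Nb, g * x * g⁻¹ ∈ h.N ⊔ h.Nb := fun g hg x hx => by
    obtain ⟨u, hu, m, hm, s, rfl⟩ := h.P_decomp hg
    have := hN u hu _ (hL m hm.2 _ (hL _ (h.a_mem_L s) x hx))
    simpa only [_root_.mul_inv_rev, mul_assoc] using this
  have hW : ∀ x ∈ h.N ⊔ h.Nb, h.w0 * x * h.w0⁻¹ ∈ h.N ⊔ h.Nb := fun x hx => by
    refine hw x hx _ (fun u hu => Subgroup.mem_sup_right (h.conj_mem_Nb hu))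
      fun u hu => Subgroup.mem_sup_left ?_
    have h2 := h.conj_N (h.M_le_P h.w0_sq) (h.mem_Nb.1 hu)
    have e : h.w0 * u * h.w0⁻¹ = h.w0 * h.w0 * (h.w0⁻¹ * u * h.w0) * (h.w0 * h.w0)⁻¹ := by group
    rwa [e]
  have hn : (h.N ⊔ h.Nb).Normal := ⟨fun x hx g => by
    rcases h.bruhat g with h1 | ⟨u, hu, p, hp, rfl⟩
    · exact hP g h1 x hx
    · have := hN u hu _ (hW _ (hP p hp x hx))
      simpa only [_root_.mul_inv_rev, mul_assoc] using this⟩
  refine (h.rs.simple _ hn).resolve_left fun h0 => ?_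
  obtain ⟨u, hu, hu'⟩ := h.exists_N_ne
  exact hu' (h.eq_one_of_K_N (ort_center h.rs (h0 (Subgroup.mem_sup_left hu))) hu)

theorem ker_Y {g : G} (hg : ∀ y : h.Y, g • y = y) : g ∈ Subgroup.center G := by
  rcases h.rs.simple (MulAction.toPermHom G h.Y).ker inferInstance with h0 | h0
  · exact h0 (Equiv.ext hg)
  · have h1 : h.w0 ∈ (MulAction.toPermHom G h.Y).ker := h0 ▸ Subgroup.mem_top _
    exact absurd (h.w0_smul_y0.symm.trans (Equiv.ext_iff.1 h1 h.y0)) h.y1_ne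

theorem tendsto_cocompact {α : Type*} {l : Filter α} {f : α → G}
    (hf : Tendsto (fun x => h.rr (f x)) l atTop) : Tendsto f l (cocompact G) := by
  refine tendsto_def.2 fun U hU => ?_
  obtain ⟨C, hC, hU⟩ := mem_cocompact.1 hU
  obtain ⟨R, hR⟩ := h.exists_ball hC
  filter_upwards [hf.eventually_gt_atTop R] with x hx
  exact hU fun h0 => absurd (hR _ h0) (not_le.2 hx)

theorem tendsto_rr : Tendsto h.rr (cocompact G) atTop :=
  tendsto_atTop.2 fun R => mem_cocompact.2 ⟨_, h.isCompact_ball R, fun g hg =>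
    (not_le.1 (show ¬ h.rr g ≤ R from hg)).le⟩

theorem tendsto_a : Tendsto h.a atTop (cocompact G) :=
  h.tendsto_cocompact (by simpa only [h.rr_a] using tendsto_abs_atTop_atTop)

theorem tendsto_a_bot : Tendsto h.a atBot (cocompact G) :=
  h.tendsto_cocompact (by simpa only [h.rr_a] using tendsto_abs_atBot_atTop)

theorem tendsto_nE : Tendsto h.nE (cocompact h.EN) (cocompact G) :=
  h.isClosedEmbedding_nE.tendsto_cocompact

theorem nC_mul {u u' : G} (hu : u ∈ h.N) (hu' : u' ∈ h.N) :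
    h.nC (u * u') = h.mulE (h.nC u) (h.nC u') := by
  conv_lhs => rw [← h.nE_nC hu, ← h.nE_nC hu', h.nE_mul, h.nC_nE]

theorem br_zero_left (x : Vale.Agent.P092RK.Eu h.m1) : h.br 0 x = 0 := by
  unfold br; rw [map_zero, Matrix.zero_mul, Matrix.mul_zero, sub_zero, map_zero]

theorem solvable_N : Group.IsSolvable h.N := by
  let f : Multiplicative (Vale.Agent.P092RK.Eu h.m2) →* h.N :=
    { toFun := fun y => ⟨h.nE (0, y.toAdd), h.nE_mem _⟩
      map_one' := Subtype.ext h.nE_zero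
      map_mul' := fun y y' => Subtype.ext (by
        show h.nE _ = h.nE _ * h.nE _
        rw [h.nE_mul]
        unfold mulE
        simp [h.br_zero_left]) }
  let g : h.N →* Multiplicative (Vale.Agent.P092RK.Eu h.m1) :=
    MonoidHom.mk' (fun u => Multiplicative.ofAdd (h.nC u).1) fun u u' => by
      show Multiplicative.ofAdd (h.nC (u * u')).1 = _
      rw [h.nC_mul u.2 u'.2]
      rfl
  refine Group.isSolvable_of_ker_le_range f g fun u hu => ⟨Multiplicative.ofAdd (h.nC u).2, ?_⟩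
  have h1 : (h.nC u).1 = 0 := hu
  refine Subtype.ext ?_
  show h.nE (0, (h.nC u).2) = u
  rw [← h1, h.nE_nC u.2]

theorem solvable_B : Group.IsSolvable h.B := by
  haveI := h.solvable_N
  let g : h.B →* Multiplicative ℝ :=
    MonoidHom.mk' (fun b => Multiplicative.ofAdd (h.hs b)) fun b b' => by
      show Multiplicative.ofAdd (h.hs (b * b')) = _
      rw [h.hs_mul_P _ (h.B_le_P b'.2)]
      rfl
  refine Group.isSolvable_of_ker_le_range (Subgroup.inclusion h.N_le_B) g fun b hb => ?_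
  have h1 : h.hs b = 0 := hb
  obtain ⟨s, u, hu, e⟩ := h.mem_B.1 b.2
  rw [e, h.hs_mul_N _ hu, h.hs_a] at h1
  exact ⟨⟨u, hu⟩, Subtype.ext (by rw [e, h1, h.a_zero, one_mul]; rfl)⟩

end R1

end Vale.Agent.P092RG
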