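import Vale.Agent.P092RG.Haar

/-!
P092, rank one (helper76): volumes of shadows, shells and balls; the Haar measure in Cartan
coordinates.
-/

set_option linter.all false

open MeasureTheory Measure Filter Topology
open scoped ENNReal NNReal

namespace Vale.Agent.P092RG

open Vale.Agent.P092.H793.Re

variable {n : ℕ} {G : Type} [Group G] [TopologicalSpace G]
variable {ρ : G →* SLn n} {w : Fin n → ℝ}

theorem eo_mul_neg (x : ℝ) : eo x * eo (-x) = 1 := by rw [← eo_add, add_neg_cancel, eo_zero]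

theorem le_mul_eo {a b : ℝ≥0∞} {x : ℝ} (h : a * eo x ≤ b) : a ≤ b * eo (-x) := by
  calc a = a * eo x * eo (-x) := by rw [mul_assoc, eo_mul_neg, mul_one]
    _ ≤ _ := mul_le_mul_left h _

theorem mul_eo_le {a b : ℝ≥0∞} {x : ℝ} (h : a ≤ b * eo x) : a * eo (-x) ≤ b := by
  calc a * eo (-x) ≤ b * eo x * eo (-x) := mul_le_mul_left h _
    _ = b := by rw [mul_assoc, eo_mul_neg, mul_one]

theorem exists_eo_le {a : ℝ≥0∞} (ha : a ≠ 0) : ∃ x, eo x ≤ a := by
  rcases eq_or_ne a ⊤ with rfl | h1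
  · exact ⟨0, le_top⟩
  · refine ⟨Real.log a.toReal, le_of_eq ?_⟩
    unfold eo
    rw [Real.exp_log (ENNReal.toReal_pos ha h1), ENNReal.ofReal_toReal h1]

theorem exists_le_eo {a : ℝ≥0∞} (ha : a ≠ ⊤) : ∃ x, a ≤ eo x := by
  refine ⟨a.toReal, ?_⟩
  unfold eo
  conv_lhs => rw [← ENNReal.ofReal_toReal ha]
  exact ENNReal.ofReal_le_ofReal (by linarith [Real.add_one_le_exp a.toReal])

theorem eq_zero_of_eo {a : ℝ≥0∞} {q C : ℝ} (hq : 0 < q) (h : ∀ t, 0 ≤ t → a ≤ eo (C - q * t)) :
    a = 0 := by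
  by_contra h0
  obtain ⟨x, hx⟩ := exists_eo_le h0
  have h1 := hx.trans (h ((|C - x| + 1) / q) (by positivity))
  unfold eo at h1
  rw [ENNReal.ofReal_le_ofReal_iff (Real.exp_pos _).le, Real.exp_le_exp,
    mul_div_cancel₀ _ hq.ne'] at h1
  linarith [le_abs_self (C - x)]

namespace R1

variable (h : R1 ρ w)
include h

theorem Q_pos' : (0 : ℝ) < h.Q := Nat.cast_pos.2 h.Q_pos

theorem one_le_Q : (1 : ℝ) ≤ h.Q := Nat.one_le_cast.2 h.Q_pos

theorem isClosed_shadow (x : ℝ) : IsClosed {k | h.bd k ≤ x} :=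
  isClosed_le h.continuous_bd continuous_const

variable [IsTopologicalGroup G] [SecondCountableTopology G] [MeasurableSpace G] [BorelSpace G]

theorem poisson (g : G) : ∫⁻ k, eo (-(h.Q * h.hs (g * k))) ∂h.νK = 1 := by
  have := h.conformal g⁻¹ (F := fun _ => 1) measurable_const
  simp only [inv_inv, one_mul, lintegral_const, measure_univ] at this
  exact this.symm

/-- upper bound for shadows -/
theorem shadow_le : ∃ C : ℝ, ∀ t : ℝ,
    h.νK {k | h.bd k ≤ Real.exp (-(2 * t))} ≤ eo (C - h.Q * t) := by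
  obtain ⟨R, hR, h1⟩ := h.near
  have hQ := h.Q_pos'
  refine ⟨h.Q * R, fun t => ?_⟩
  rcases le_total t 0 with ht | ht
  · refine prob_le_one.trans ?_
    rw [← eo_zero]
    exact eo_mono (by nlinarith)
  have hm := (h.isClosed_shadow (Real.exp (-(2 * t)))).measurableSet
  have h2 : h.νK {k | h.bd k ≤ Real.exp (-(2 * t))} * eo (h.Q * t - h.Q * R) ≤ 1 := by
    rw [← h.poisson (h.a (-t)), mul_comm, ← lintegral_indicator_const hm]
    refine lintegral_mono_ae ?_
    filter_upwards [h.hpK.ae] with k hk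
    by_cases hk' : k ∈ {k | h.bd k ≤ Real.exp (-(2 * t))}
    · rw [Set.indicator_of_mem hk']
      have h3 := (h.hs_le_rr _).trans (h1 k hk t ht hk')
      rw [h.hs_mul_a] at h3
      exact eo_mono (by nlinarith)
    · rw [Set.indicator_of_notMem hk']
      exact zero_le
  have h3 := le_mul_eo h2
  rwa [one_mul, neg_sub] at h3

/-- lower bound for shadows -/
theorem le_shadow : ∃ C : ℝ, ∀ t : ℝ, 0 ≤ t →
    eo (-C - h.Q * t) ≤ h.νK {k | h.bd k ≤ Real.exp (-(2 * t))} := by
  have hQ := h.Q_pos'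
  have hb := h.continuous_bd
  have hO : IsOpen {k | h.bd k < h.bd (h.w0 * k)} := isOpen_lt hb (by fun_prop)
  obtain ⟨x, hx⟩ := exists_eo_le (h.hpK.pos _ hO ⟨1, by
    show h.bd 1 < h.bd (h.w0 * 1)
    rw [mul_one, h.bd_w0, h.bd_P h.P.one_mem]; exact one_pos, h.K.one_mem⟩).ne'
  refine ⟨-x, fun t ht => ?_⟩
  have hm := (h.isClosed_shadow (Real.exp (-(2 * t)))).measurableSet
  have h1 := h.conformal (h.a t) (measurable_one.indicator hm)
  have h2 : eo x ≤ h.νK {k | h.bd k ≤ Real.exp (-(2 * t))} * eo (h.Q * t) := by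
    refine hx.trans ?_
    rw [← lintegral_indicator_one hO.measurableSet, mul_comm, ← lintegral_indicator_const hm]
    refine le_trans (lintegral_mono fun k => ?_) (h1.le.trans (lintegral_mono_ae ?_))
    · by_cases hk : k ∈ {k | h.bd k < h.bd (h.w0 * k)}
      · rw [Set.indicator_of_mem hk, Set.indicator_of_mem]
        · exact le_rfl
        have h3 := h.bd_iwa 1 (h.a t * k)
        rw [one_mul, one_mul, h.bd_a_mul] at h3
        have h4 := h.bd_le_hs (h.w0 * (h.a t * k))
        rw [h.hs_K_mul h.w0_mem, h.bd_w0_a_mul] at h4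
        have h5 : h.bd k < h.bd (h.w0 * k) := hk
        have h6 := h.bd_nonneg k
        have h7 := h.bd_nonneg (h.ik (h.a t * k))
        have h8 : Real.exp (-t) = Real.exp t * Real.exp (-(2 * t)) := by
          rw [← Real.exp_add]; congr 1; ring
        show h.bd _ ≤ _
        refine le_of_mul_le_mul_left (a := Real.exp t * h.bd (h.w0 * k)) ?_
          (mul_pos (Real.exp_pos _) (by linarith))
        calc _ ≤ Real.exp (h.hs (h.a t * k)) * h.bd (h.ik (h.a t * k)) :=
              mul_le_mul_of_nonneg_right h4 h7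
          _ = Real.exp (-t) * h.bd k := h3.symm
          _ ≤ Real.exp (-t) * h.bd (h.w0 * k) :=
              mul_le_mul_of_nonneg_left h5.le (Real.exp_pos _).le
          _ = _ := by rw [h8]; ring
      · rw [Set.indicator_of_notMem hk]
        exact zero_le
    · filter_upwards [h.hpK.ae] with k hk
      by_cases hk' : k ∈ {k | h.bd k ≤ Real.exp (-(2 * t))}
      · rw [Set.indicator_of_mem hk', Set.indicator_of_mem hk', Pi.one_apply, one_mul]
        have h3 := (abs_le.1 (h.abs_hs_mul_sub (h.a t)⁻¹ k)).1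
        rw [h.rr_inv, h.rr_a, abs_of_nonneg ht, h.hs_K hk] at h3
        exact eo_mono (by nlinarith)
      · rw [Set.indicator_of_notMem hk', Set.indicator_of_notMem hk', zero_mul]
  have h3 := mul_eo_le h2
  rwa [← eo_add, ← sub_eq_add_neg, ← neg_neg x] at h3

theorem νK_P : h.νK (h.P : Set G) = 0 := by
  obtain ⟨C, hC⟩ := h.shadow_le
  refine eq_zero_of_eo h.Q_pos' fun t _ => le_trans (measure_mono fun p hp => ?_) (hC t)
  show h.bd p ≤ _
  rw [h.bd_P hp]
  exact (Real.exp_pos _).le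

theorem ae_bd_pos (g : G) : ∀ᵐ k ∂h.νK, 0 < h.bd (g * k) := by
  have h1 : ∀ᵐ k ∂h.νK, k ∉ h.P := measure_eq_zero_iff_ae_notMem.1 h.νK_P
  have h2 := (h.hpK.mp_left (h.K.inv_mem (h.ik_mem g⁻¹))).quasiMeasurePreserving.ae h1
  filter_upwards [h2, h.hpK.ae] with k hk hk'
  have h3 := h.bd_inv_mul g⁻¹ k
  rw [inv_inv, h.ik_K hk'] at h3
  rw [h3]
  exact mul_pos (Real.exp_pos _) (h.bd_pos hk)

variable [LocallyCompactSpace G] (μ : Measure G) [μ.IsHaarMeasure]

theorem haar_right : μ.IsMulRightInvariant := right_inv_of_perfect h.perfect μ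

theorem haar_P : μ (h.P : Set G) = 0 := by
  obtain ⟨c, -, e⟩ := h.kan_eq μ
  have hm := h.isClosed_P.measurableSet
  rw [e, Measure.smul_apply, ← lintegral_indicator_one hm,
    h.lintegral_kan (measurable_one.indicator hm), lintegral_congr_ae (g := fun _ => 0),
    lintegral_zero, smul_zero]
  filter_upwards [measure_eq_zero_iff_ae_notMem.1 h.νK_P] with k hk
  rw [lintegral_congr_ae (g := fun _ => 0), lintegral_zero]
  filter_upwards [h.β_ae] with b hb
  exact Set.indicator_of_notMem (fun h0 => hk ((h.P.mul_mem_cancel_right (h.B_le_P hb)).1 h0)) _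

theorem ae_haar_bd (g g' : G) : ∀ᵐ x ∂μ, 0 < h.bd (g * x * g') := by
  haveI := h.haar_right μ
  have h1 : ∀ᵐ x ∂μ, x ∉ h.P := measure_eq_zero_iff_ae_notMem.1 (h.haar_P μ)
  have h2 := ((measurePreserving_mul_right μ g').comp
    (measurePreserving_mul_left μ g)).quasiMeasurePreserving.ae h1
  filter_upwards [h2] with x hx using h.bd_pos hx

theorem dense_cell : Dense ((h.P : Set G)ᶜ) :=
  Measure.dense_of_ae (μ := (haar : Measure G)) (measure_eq_zero_iff_ae_notMem.1 (h.haar_P haar))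

/-- the Haar measure in Cartan coordinates -/
theorem haar_kak {F : G → ℝ≥0∞} (hF : Measurable F) : ∫⁻ g, F g ∂μ =
    ∫⁻ r, ∫⁻ k, ∫⁻ k', F (k * h.a r * k') ∂h.νK ∂h.νK ∂(map h.rr μ) := by
  haveI := h.haar_right μ
  have ha := h.measurable_a
  have h1 : Measurable fun q : (G × G) × G => F (q.1.2 * q.1.1 * q.2) := hF.comp (by fun_prop)
  have h2 : Measurable fun q : G × G => ∫⁻ k', F (q.2 * q.1 * k') ∂h.νK := h1.lintegral_prod_right'
  have h3 : Measurable fun g => ∫⁻ k, ∫⁻ k', F (k * g * k') ∂h.νK ∂h.νK := h2.lintegral_prod_right'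
  have h4 : Measurable fun r => ∫⁻ k, ∫⁻ k', F (k * h.a r * k') ∂h.νK ∂h.νK := h3.comp ha
  rw [lintegral_map h4 h.measurable_rr]
  have h5 : ∀ g, ∫⁻ k, ∫⁻ k', F (k * h.a (h.rr g) * k') ∂h.νK ∂h.νK =
      ∫⁻ k, ∫⁻ k', F (k * g * k') ∂h.νK ∂h.νK := by
    intro g
    obtain ⟨κ, hκ, κ', hκ', e⟩ := h.kak_rr g
    have h6 : Measurable fun k => ∫⁻ k', F (k * h.a (h.rr g) * k') ∂h.νK :=
      h2.comp (f := fun k => (h.a (h.rr g), k)) (by fun_prop)
    rw [← (h.hpK.mp_right hκ).lintegral_comp h6]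
    refine lintegral_congr fun k => ?_
    have h7 : Measurable fun k' => F (k * κ * h.a (h.rr g) * k') := hF.comp (by fun_prop)
    rw [← (h.hpK.mp_left hκ').lintegral_comp h7]
    refine lintegral_congr fun k' => ?_
    conv_rhs => rw [e]
    simp only [mul_assoc]
  simp only [h5]
  rw [lintegral_lintegral_swap h2.aemeasurable, eq_comm,
    lintegral_congr (g := fun _ => ∫⁻ g, F g ∂μ), lintegral_const, measure_univ, mul_one]
  intro k
  have h6 : Measurable fun q : G × G => F (k * q.1 * q.2) := hF.comp (by fun_prop)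
  rw [lintegral_lintegral_swap h6.aemeasurable, lintegral_congr (g := fun _ => ∫⁻ g, F g ∂μ),
    lintegral_const, measure_univ, mul_one]
  intro k'
  rw [← lintegral_mul_right_eq_self F k', ← lintegral_mul_left_eq_self (fun g => F (g * k')) k]

theorem shell_aux {A : Set G} (hA : MeasurableSet A) (t R : ℝ) :
    ∫⁻ k, μ (A ∩ {g | h.rr (h.a (-t) * k⁻¹ * g) ≤ R}) ∂h.νK =
      ∫⁻ g in A, h.νK {k | h.rr (h.a (-t) * k⁻¹ * g) ≤ R} ∂μ := by
  have hr := h.continuous_rr
  have h0 : MeasurableSet {q : G × G | h.rr (h.a (-t) * q.1⁻¹ * q.2) ≤ R} :=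
    (isClosed_le (by fun_prop) continuous_const).measurableSet
  have h1 := prod_apply (μ := h.νK) (ν := μ.restrict A) h0
  rw [prod_apply_symm h0] at h1
  refine Eq.trans (lintegral_congr fun k => ?_) h1.symm
  rw [restrict_apply (measurable_prodMk_left h0), Set.inter_comm]
  rfl

theorem measure_aux (k : G) (t R : ℝ) :
    μ {g | h.rr (h.a (-t) * k⁻¹ * g) ≤ R} = μ {g | h.rr g ≤ R} :=
  measure_preimage_mul μ (h.a (-t) * k⁻¹) {g | h.rr g ≤ R}

theorem νK_shift {κ : G} (hκ : κ ∈ h.K) {S : Set G} (hS : MeasurableSet S) :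
    h.νK {k | k⁻¹ * κ ∈ S} = h.νK S :=
  ((h.hpK.mp_right hκ).comp h.hpK.mp_inv).measure_preimage hS.nullMeasurableSet

theorem measurableSet_shell (t : ℝ) : MeasurableSet {g | |h.rr g - t| ≤ 1} := by
  have hr := h.continuous_rr
  exact (isClosed_le (by fun_prop) continuous_const).measurableSet

/-- upper bound for shells -/
theorem shell_le : ∃ C : ℝ, ∀ t : ℝ, 0 ≤ t → μ {g | |h.rr g - t| ≤ 1} ≤ eo (C + h.Q * t) := by
  obtain ⟨R, hR, h1⟩ := h.near
  obtain ⟨C, hC⟩ := h.le_shadow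
  obtain ⟨x, hx⟩ := exists_le_eo ((h.isCompact_ball (R + 1)).measure_lt_top (μ := μ)).ne
  refine ⟨x + C, fun t ht => ?_⟩
  have h2 : μ {g | |h.rr g - t| ≤ 1} * eo (-C - h.Q * t) ≤ eo x := by
    rw [mul_comm, ← setLIntegral_const]
    refine le_trans (setLIntegral_mono' (h.measurableSet_shell t) fun g hg => ?_)
      ((h.shell_aux μ (h.measurableSet_shell t) t (R + 1)).symm.le.trans ?_)
    · obtain ⟨κ, hκ, κ', hκ', e⟩ := h.kak_rr g
      refine (hC t ht).trans ?_
      rw [← h.νK_shift hκ (h.isClosed_shadow _).measurableSet]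
      refine measure_mono_ae ?_
      filter_upwards [h.hpK.ae] with k hk hk'
      have h3 := h1 _ (h.K.mul_mem (h.K.inv_mem hk) hκ) t ht hk'
      have h4 := h.rr_mul_le (h.a (-t) * (k⁻¹ * κ) * h.a t) (h.a (h.rr g - t))
      have h5 : h.a (-t) * k⁻¹ * g = h.a (-t) * (k⁻¹ * κ) * h.a t * h.a (h.rr g - t) * κ' := by
        conv_lhs => rw [e]
        rw [mul_assoc _ (h.a t), ← h.a_add, add_sub_cancel]
        simp only [mul_assoc]
      show h.rr _ ≤ _
      rw [h5, h.rr_mul_K _ hκ']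
      rw [h.rr_a] at h4
      have h6 : |h.rr g - t| ≤ 1 := hg
      linarith
    · refine (lintegral_mono fun k => measure_mono Set.inter_subset_right).trans ?_
      simp only [h.measure_aux μ]
      rw [lintegral_const, measure_univ, mul_one]
      exact hx
  have h3 := le_mul_eo h2
  rw [← eo_add] at h3
  exact h3.trans_eq (by congr 1; ring)

/-- lower bound for shells -/
theorem le_shell : ∃ C : ℝ, ∀ t : ℝ, 0 ≤ t → eo (-C + h.Q * t) ≤ μ {g | |h.rr g - t| ≤ 1} := by
  obtain ⟨C, hC⟩ := h.shadow_le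
  obtain ⟨x, hx⟩ := exists_eo_le (a := μ {g | h.rr g ≤ 1}) fun h0 =>
    (isOpen_lt h.continuous_rr continuous_const).measure_ne_zero μ
      (show {g | h.rr g < 1}.Nonempty from ⟨1, by simp [h.rr_one]⟩)
      (measure_mono_null (fun g hg => le_of_lt (α := ℝ) hg) h0)
  refine ⟨C + h.Q - x, fun t ht => ?_⟩
  have h2 : eo x ≤ μ {g | |h.rr g - t| ≤ 1} * eo (C - h.Q * (t - 1)) := by
    rw [mul_comm, ← setLIntegral_const]
    refine le_trans ?_ ((h.shell_aux μ (h.measurableSet_shell t) t 1).le.trans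
      (setLIntegral_mono' (h.measurableSet_shell t) fun g hg => ?_))
    · refine hx.trans ?_
      rw [← mul_one (μ _), ← measure_univ (μ := h.νK), ← lintegral_const]
      refine lintegral_mono_ae ?_
      filter_upwards [h.hpK.ae] with k hk
      rw [← h.measure_aux μ k t]
      refine measure_mono fun g hg => ⟨?_, hg⟩
      have h3 := h.abs_rr_mul_sub' (k * h.a t) (h.a (-t) * k⁻¹ * g)
      have h4 : k * h.a t * (h.a (-t) * k⁻¹ * g) = g := by rw [h.a_neg]; group
      rw [h4, h.rr_K_mul hk, h.rr_a, abs_of_nonneg ht] at h3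
      exact h3.trans hg
    · obtain ⟨κ, hκ, κ', hκ', e⟩ := h.kak_rr g
      refine le_trans ?_ (hC (t - 1))
      rw [← h.νK_shift hκ (h.isClosed_shadow _).measurableSet]
      refine measure_mono fun k hk => ?_
      have h3 := h.cosines_ge (k⁻¹ * κ) t (h.rr g)
      have h5 : h.a (-t) * k⁻¹ * g = h.a (-t) * (k⁻¹ * κ) * h.a (h.rr g) * κ' := by
        conv_lhs => rw [e]
        simp only [mul_assoc]
      have h6 : h.rr (h.a (-t) * k⁻¹ * g) ≤ 1 := hk
      rw [h5, h.rr_mul_K _ hκ'] at h6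
      have h7 := (abs_le.1 (show |h.rr g - t| ≤ 1 from hg)).1
      show h.bd _ ≤ _
      refine le_of_mul_le_mul_left (h3.trans ?_) (Real.exp_pos _)
      rw [← Real.exp_add, Real.exp_le_exp]
      linarith
  have h3 := mul_eo_le h2
  rw [← eo_add] at h3
  exact le_of_eq_of_le (by congr 1; ring) h3

/-- upper bound for balls -/
theorem ball_le : ∃ C : ℝ, ∀ t : ℝ, 0 ≤ t → μ {g | h.rr g ≤ t} ≤ eo (C + h.Q * t) := by
  obtain ⟨C, hC⟩ := h.shell_le μ
  have hQ := h.one_le_Q
  have h1 : ∀ j : ℕ, μ {g | h.rr g ≤ j} ≤ eo (C + h.Q * j) := by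
    intro j
    induction j with
    | zero =>
      refine le_trans (measure_mono fun g hg => ?_) (hC _ (Nat.cast_nonneg 0))
      have h2 : h.rr g ≤ (0 : ℕ) := hg
      have h3 := h.rr_nonneg g
      show |h.rr g - (0 : ℕ)| ≤ 1
      rw [abs_le]
      push_cast at h2 ⊢
      constructor <;> linarith
    | succ j ih =>
      have h2 : {g | h.rr g ≤ (j + 1 : ℕ)} ⊆ {g | h.rr g ≤ j} ∪ {g | |h.rr g - j| ≤ 1} := by
        intro g hg
        have h3 : h.rr g ≤ (j + 1 : ℕ) := hg
        push_cast at h3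
        rcases le_total (h.rr g) j with h4 | h4
        · exact Or.inl h4
        · exact Or.inr (show |h.rr g - j| ≤ 1 from abs_le.2 ⟨by linarith, by linarith⟩)
      refine (measure_mono h2).trans ((measure_union_le _ _).trans
        ((add_le_add ih (hC j (Nat.cast_nonneg j))).trans ?_))
      unfold eo
      rw [← ENNReal.ofReal_add (Real.exp_pos _).le (Real.exp_pos _).le]
      refine ENNReal.ofReal_le_ofReal ?_
      push_cast
      rw [mul_add, ← add_assoc, Real.exp_add _ (h.Q * 1)]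
      have h3 := Real.add_one_le_exp (h.Q * 1)
      nlinarith [Real.exp_pos (C + h.Q * j)]
  refine ⟨C + h.Q, fun t ht => le_trans (measure_mono fun g hg => ?_) ((h1 ⌈t⌉₊).trans
    (eo_mono ?_))⟩
  · exact le_trans (α := ℝ) hg (Nat.le_ceil t)
  · have := Nat.ceil_lt_add_one ht
    nlinarith

end R1

end Vale.Agent.P092RG
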