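import Mathlib.MeasureTheory.Measure.Haar.Unique
import Mathlib.MeasureTheory.Group.ModularCharacter
import Mathlib.GroupTheory.Abelianization.Defs

/-!
P092, rank one (helper76): Haar probability measures of compact subgroups; uniqueness of measures
invariant on the left and on the right under two complementary subgroups.
-/

set_option linter.all false

open MeasureTheory Measure Filter Topology Set
open scoped ENNReal NNReal

namespace Vale.Agent.P092RG

variable {G : Type} [Group G] [TopologicalSpace G] [IsTopologicalGroup G]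
  [SecondCountableTopology G] [MeasurableSpace G] [BorelSpace G]

/-- `ν` is the Haar probability measure of the subgroup `H`, as a measure on `G` -/
structure IsHp (H : Subgroup G) (ν : Measure G) : Prop where
  prob : IsProbabilityMeasure ν
  ae : ∀ᵐ g ∂ν, g ∈ H
  left : ∀ k ∈ H, map (fun g => k * g) ν = ν
  right : ∀ k ∈ H, map (fun g => g * k) ν = ν
  inv : map (fun g => g⁻¹) ν = ν
  pos : ∀ U, IsOpen U → (U ∩ H).Nonempty → 0 < ν U

theorem hp_unique {H : Subgroup G} {ν ν' : Measure G} [IsProbabilityMeasure ν]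
    [IsProbabilityMeasure ν'] (a : ∀ᵐ g ∂ν, g ∈ H) (a' : ∀ᵐ g ∂ν', g ∈ H)
    (l : ∀ k ∈ H, map (fun g => k * g) ν = ν) (r : ∀ k ∈ H, map (fun g => g * k) ν' = ν') :
    ν = ν' := by
  ext s hs
  have h0 : MeasurableSet {q : G × G | q.1 * q.2 ∈ s} := measurable_mul hs
  have h1 : (ν'.prod ν) {q : G × G | q.1 * q.2 ∈ s} = ν s := by
    rw [prod_apply h0, lintegral_congr_ae (g := fun _ => ν s), lintegral_const, measure_univ,
      mul_one]
    filter_upwards [a'] with x hx
    conv_rhs => rw [← l x hx, map_apply (measurable_const_mul x) hs]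
    rfl
  have h2 : (ν'.prod ν) {q : G × G | q.1 * q.2 ∈ s} = ν' s := by
    rw [prod_apply_symm h0, lintegral_congr_ae (g := fun _ => ν' s), lintegral_const, measure_univ,
      mul_one]
    filter_upwards [a] with x hx
    conv_rhs => rw [← r x hx, map_apply (measurable_mul_const x) hs]
    rfl
  rw [← h1, h2]

theorem exists_hp [T2Space G] {H : Subgroup G} (hH : IsCompact (H : Set G)) : ∃ ν, IsHp H ν := by
  haveI : CompactSpace H := isCompact_iff_compactSpace.1 hH
  haveI : BorelSpace H := Subtype.borelSpace (H : Set G)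
  let ν0 : Measure H := haarMeasure ⊤
  haveI : IsProbabilityMeasure ν0 := ⟨haarMeasure_self⟩
  have hv : Measurable (Subtype.val : H → G) := measurable_subtype_coe
  obtain ⟨ν, hν⟩ : ∃ ν : Measure G, ν = map Subtype.val ν0 := ⟨_, rfl⟩
  haveI : IsProbabilityMeasure ν := hν ▸ isProbabilityMeasure_map hv.aemeasurable
  have hm : MeasurableSet (H : Set G) := hH.isClosed.measurableSet
  have a : ∀ᵐ g ∂ν, g ∈ H := by
    rw [hν]
    exact (ae_map_iff hv.aemeasurable hm).2 (Eventually.of_forall fun x => x.2)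
  have l : ∀ k ∈ H, map (fun g => k * g) ν = ν := by
    intro k hk
    rw [hν, map_map (measurable_const_mul k) hv]
    conv_rhs => rw [← map_mul_left_eq_self ν0 ⟨k, hk⟩, map_map hv (measurable_const_mul _)]
    rfl
  haveI : IsProbabilityMeasure (map (fun g : G => g⁻¹) ν) :=
    isProbabilityMeasure_map measurable_inv.aemeasurable
  have r : ∀ k ∈ H, map (fun g => g * k) (map (fun g : G => g⁻¹) ν) = map (fun g : G => g⁻¹) ν := by
    intro k hk
    rw [map_map (measurable_mul_const k) measurable_inv]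
    conv_rhs => rw [← l k⁻¹ (H.inv_mem hk), map_map measurable_inv (measurable_const_mul _)]
    congr 1
    funext g
    simp
  have e : ν = map (fun g : G => g⁻¹) ν := by
    refine hp_unique a ?_ l r
    refine (ae_map_iff measurable_inv.aemeasurable hm).2 ?_
    filter_upwards [a] with x hx using H.inv_mem hx
  refine ⟨ν, inferInstance, a, l, fun k hk => ?_, e.symm, fun U hU ⟨x, hx, hx'⟩ => ?_⟩
  · rw [e]; exact r k hk
  · rw [hν, map_apply hv hU.measurableSet]
    exact (hU.preimage continuous_subtype_val).measure_pos ν0 ⟨⟨x, hx'⟩, hx⟩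

theorem IsHp.unique {H : Subgroup G} {ν ν' : Measure G} (h : IsHp H ν) [IsProbabilityMeasure ν']
    (a : ∀ᵐ g ∂ν', g ∈ H) (l : ∀ k ∈ H, map (fun g => k * g) ν' = ν') : ν' = ν := by
  haveI := h.prob
  exact hp_unique a h.ae l h.right

theorem IsHp.mp_left {H : Subgroup G} {ν : Measure G} (h : IsHp H ν) {k : G} (hk : k ∈ H) :
    MeasurePreserving (fun g => k * g) ν ν := ⟨measurable_const_mul k, h.left k hk⟩

theorem IsHp.mp_right {H : Subgroup G} {ν : Measure G} (h : IsHp H ν) {k : G} (hk : k ∈ H) :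
    MeasurePreserving (fun g => g * k) ν ν := ⟨measurable_mul_const k, h.right k hk⟩

theorem IsHp.mp_inv {H : Subgroup G} {ν : Measure G} (h : IsHp H ν) :
    MeasurePreserving (fun g => g⁻¹) ν ν := ⟨measurable_inv, h.inv⟩

variable [LocallyCompactSpace G]

theorem right_inv_of_perfect (hp : commutator G = ⊤) (μ : Measure G) [IsHaarMeasure μ] :
    μ.IsMulRightInvariant := by
  refine ⟨fun g => ?_⟩
  have h1 : commutator G ≤ (MonoidHom.toHomUnits (modularCharacter (G := G))).ker :=
    Abelianization.commutator_subset_ker _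
  have h2 : g ∈ (MonoidHom.toHomUnits (modularCharacter (G := G))).ker :=
    h1 (hp ▸ Subgroup.mem_top g)
  have h3 : modularCharacterFun g = 1 :=
    congrArg (fun u : ℝ≥0ˣ => (u : ℝ≥0)) (MonoidHom.mem_ker.1 h2)
  rw [map_right_mul_eq_modularCharacterFun_smul μ g, h3, one_smul]

theorem uniq (H₁ H₂ : Subgroup G) (c₁ : IsClosed (H₁ : Set G)) (c₂ : IsClosed (H₂ : Set G)) (x₀ : G)
    (hΨ : IsOpenEmbedding fun q : H₁ × H₂ => (q.1 : G) * x₀ * (q.2 : G)⁻¹)
    (μ : Measure G) [μ.IsHaarMeasure] [μ.IsMulRightInvariant] (m : Measure G)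
    (hl : ∀ k ∈ H₁, map (fun g => k * g) m = m) (hr : ∀ b ∈ H₂, map (fun g => g * b) m = m)
    (hf : ∀ C, IsCompact C → C ⊆ range (fun q : H₁ × H₂ => (q.1 : G) * x₀ * (q.2 : G)⁻¹) →
      m C < ⊤) :
    ∃ c : ℝ≥0, m.restrict (range fun q : H₁ × H₂ => (q.1 : G) * x₀ * (q.2 : G)⁻¹) =
      c • μ.restrict (range fun q : H₁ × H₂ => (q.1 : G) * x₀ * (q.2 : G)⁻¹) := by
  haveI : BorelSpace H₁ := Subtype.borelSpace (H₁ : Set G)
  haveI : BorelSpace H₂ := Subtype.borelSpace (H₂ : Set G)
  haveI : SecondCountableTopology H₁ := TopologicalSpace.Subtype.secondCountableTopology _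
  haveI : SecondCountableTopology H₂ := TopologicalSpace.Subtype.secondCountableTopology _
  haveI : BorelSpace (H₁ × H₂) := Prod.borelSpace
  haveI : LocallyCompactSpace H₁ := c₁.locallyCompactSpace
  haveI : LocallyCompactSpace H₂ := c₂.locallyCompactSpace
  obtain ⟨Ψ, e⟩ : ∃ Ψ, Ψ = fun q : H₁ × H₂ => (q.1 : G) * x₀ * (q.2 : G)⁻¹ := ⟨_, rfl⟩
  rw [← e] at hΨ hf ⊢
  have hm := hΨ.measurableEmbedding
  have h1 : ∀ m : Measure G, (∀ k ∈ H₁, map (fun g => k * g) m = m) →
      (∀ b ∈ H₂, map (fun g => g * b) m = m) → (comap Ψ m).IsMulLeftInvariant := by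
    intro m hl hr
    refine ⟨fun q => ?_⟩
    ext s hs
    rw [map_apply (measurable_const_mul q) hs, hm.comap_apply, hm.comap_apply]
    conv_rhs => rw [← hr _ (H₂.inv_mem q.2.2), ← hl _ q.1.2,
      map_map (measurable_mul_const _) (measurable_const_mul _),
      map_apply ((measurable_mul_const _).comp (measurable_const_mul _))
        (hm.measurableSet_image.2 hs)]
    congr 1
    have h2 : ∀ x, Ψ (q * x) = q.1 * Ψ x * (q.2 : G)⁻¹ := fun x => by
      simp only [e, Prod.fst_mul, Prod.snd_mul, Subgroup.coe_mul, _root_.mul_inv_rev, mul_assoc]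
    ext g
    constructor
    · rintro ⟨x, hx, rfl⟩
      exact ⟨q * x, hx, h2 x⟩
    · rintro ⟨y, hy, hg⟩
      refine ⟨q⁻¹ * y, by simpa using hy, ?_⟩
      have h3 := h2 (q⁻¹ * y)
      rw [mul_inv_cancel_left, hg] at h3
      exact (mul_left_cancel (mul_right_cancel h3)).symm
  haveI := h1 m hl hr
  haveI := h1 μ (fun k _ => map_mul_left_eq_self μ k) fun b _ => map_mul_right_eq_self μ b
  haveI : IsFiniteMeasureOnCompacts (comap Ψ m) := ⟨fun C hC => by
    rw [hm.comap_apply]
    exact hf _ (hC.image hΨ.continuous) (image_subset_range _ _)⟩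
  haveI : IsFiniteMeasureOnCompacts (comap Ψ μ) := ⟨fun C hC => by
    rw [hm.comap_apply]
    exact (hC.image hΨ.continuous).measure_lt_top⟩
  haveI : IsOpenPosMeasure (comap Ψ μ) := ⟨fun U hU hne => by
    rw [hm.comap_apply]
    exact (hΨ.isOpenMap U hU).measure_ne_zero μ (hne.image _)⟩
  haveI : IsHaarMeasure (comap Ψ μ) := {}
  refine ⟨haarScalarFactor (comap Ψ m) (comap Ψ μ), ?_⟩
  rw [← hm.map_comap, ← hm.map_comap, ← Measure.map_smul, ← isMulLeftInvariant_eq_smul]

end Vale.Agent.P092RG
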