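import Vale.Agent.P092RG.Crd
import Vale.Agent.P092RG.Uniq
import Mathlib.MeasureTheory.Integral.Prod

/-!
P092, rank one (helper76): the Haar measure in Iwasawa coordinates, the conformal density.
-/

set_option linter.all false

open MeasureTheory Measure Filter Topology
open scoped ENNReal NNReal

namespace Vale.Agent.P092RG

open Vale.Agent.P092.H793.Re

variable {n : ℕ} {G : Type} [Group G] [TopologicalSpace G]
variable {ρ : G →* SLn n} {w : Fin n → ℝ}

/-- the weight `e^x` -/
noncomputable def eo (x : ℝ) : ℝ≥0∞ := ENNReal.ofReal (Real.exp x)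

theorem eo_add (x y : ℝ) : eo (x + y) = eo x * eo y := by
  unfold eo; rw [Real.exp_add, ENNReal.ofReal_mul (Real.exp_pos x).le]

theorem eo_zero : eo 0 = 1 := by unfold eo; rw [Real.exp_zero, ENNReal.ofReal_one]

theorem eo_ne_top (x : ℝ) : eo x ≠ ⊤ := ENNReal.ofReal_ne_top

theorem eo_ne_zero (x : ℝ) : eo x ≠ 0 := (ENNReal.ofReal_pos.2 (Real.exp_pos x)).ne'

theorem eo_mono {x y : ℝ} (h : x ≤ y) : eo x ≤ eo y :=
  ENNReal.ofReal_le_ofReal (Real.exp_le_exp.2 h)

theorem continuous_eo : Continuous eo := ENNReal.continuous_ofReal.comp Real.continuous_exp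

theorem measurable_eo : Measurable eo := continuous_eo.measurable

theorem measurable_eoq (q : ℝ) : Measurable fun s => eo (q * s) :=
  measurable_eo.comp (measurable_const_mul q)

/-- the measure `e^(q s) ds` -/
noncomputable def eμ (q : ℝ) : Measure ℝ := volume.withDensity fun s => eo (q * s)

instance (q : ℝ) : IsLocallyFiniteMeasure (eμ q) :=
  IsLocallyFiniteMeasure.withDensity_ofReal (f := fun s => Real.exp (q * s)) (by fun_prop)

theorem lintegral_eμ (q : ℝ) {F : ℝ → ℝ≥0∞} (hF : Measurable F) :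
    ∫⁻ s, F s ∂eμ q = ∫⁻ s, F s * eo (q * s) := by
  unfold eμ
  rw [lintegral_withDensity_eq_lintegral_mul _ (measurable_eoq q) hF]
  exact lintegral_congr fun s => mul_comm _ _

theorem map_eμ (q t : ℝ) : map (fun s => s + t) (eμ q) = eo (-(q * t)) • eμ q := by
  ext s hs
  rw [map_apply (measurable_add_const t) hs, Measure.smul_apply, smul_eq_mul, ← lintegral_indicator_one hs,
    ← lintegral_indicator_one (measurable_add_const t hs),
    lintegral_eμ q (measurable_one.indicator hs),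
    lintegral_eμ q (measurable_one.indicator (measurable_add_const t hs)),
    ← lintegral_const_mul' _ _ (eo_ne_top _),
    ← lintegral_add_right_eq_self (fun x => eo (-(q * t)) * (s.indicator 1 x * eo (q * x))) t]
  refine lintegral_congr fun x => ?_
  rw [mul_left_comm, ← eo_add, show -(q * t) + q * (x + t) = q * x by ring]
  rfl

theorem eμ_pos (q : ℝ) {U : Set ℝ} (hU : IsOpen U) (hne : U.Nonempty) : eμ q U ≠ 0 := by
  intro h0
  unfold eμ at h0
  rw [withDensity_apply_eq_zero (measurable_eoq q)] at h0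
  refine hU.measure_ne_zero volume hne ?_
  convert h0 using 2
  ext s
  simp [eo_ne_zero]

instance (q : ℝ) : IsOpenPosMeasure (eμ q) := ⟨fun U hU hne => eμ_pos q hU hne⟩

namespace R1

variable (h : R1 ρ w)
include h

theorem perfect : commutator G = ⊤ := Vale.Agent.P092.H793.Re.perfect h.rs.nab h.rs.simple

/-- the solvable group `A N` -/
def B : Subgroup G where
  carrier := {g | h.ik g = 1}
  one_mem' := h.ik_K h.K.one_mem
  mul_mem' := fun {g g'} h1 h2 => by
    show h.ik (g * g') = 1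
    rw [← h.ik_mul_ik, show h.ik g' = 1 from h2, mul_one]
    exact h1
  inv_mem' := fun {g} h1 => by
    show h.ik g⁻¹ = 1
    have := h.ik_mul_ik g⁻¹ g
    rw [show h.ik g = 1 from h1, mul_one, inv_mul_cancel] at this
    rw [this, h.ik_K h.K.one_mem]

theorem mem_B {g : G} : g ∈ h.B ↔ ∃ s : ℝ, ∃ u ∈ h.N, g = h.a s * u := by
  constructor
  · intro hg
    refine ⟨h.hs g, h.iu g, h.iu_mem g, ?_⟩
    conv_lhs => rw [← h.iwa_eq g, show h.ik g = 1 from hg, one_mul]
  · rintro ⟨s, u, hu, rfl⟩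
    have := h.ik_kan h.K.one_mem s hu
    rwa [one_mul] at this

theorem a_mem_B (s : ℝ) : h.a s ∈ h.B := h.mem_B.2 ⟨s, 1, h.N.one_mem, (mul_one _).symm⟩

theorem N_le_B : h.N ≤ h.B := fun u hu => h.mem_B.2 ⟨0, u, hu, by rw [h.a_zero, one_mul]⟩

theorem B_le_P : h.B ≤ h.P := fun g hg => by
  obtain ⟨s, u, hu, rfl⟩ := h.mem_B.1 hg
  exact h.P.mul_mem (h.a_mem_P s) (h.N_le_P hu)

theorem isClosed_B : IsClosed (h.B : Set G) := by
  haveI := t2 h.rs.emb
  exact isClosed_eq h.continuous_ik continuous_const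

theorem ik_mul_B (g : G) {b : G} (hb : b ∈ h.B) : h.ik (g * b) = h.ik g := by
  rw [← h.ik_mul_ik, show h.ik b = 1 from hb, mul_one]

theorem ik_inv_mul (g : G) : (h.ik g)⁻¹ * g ∈ h.B := by
  show h.ik _ = 1
  rw [h.ik_K_mul (h.K.inv_mem (h.ik_mem g)), inv_mul_cancel]

variable [IsTopologicalGroup G] [SecondCountableTopology G] [MeasurableSpace G] [BorelSpace G]

theorem exists_νK : ∃ ν, IsHp h.K ν := by
  haveI := t2 h.rs.emb
  exact exists_hp h.isCompact_K

theorem exists_νM : ∃ ν, IsHp h.M ν := by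
  haveI := t2 h.rs.emb
  exact exists_hp h.isCompact_M

/-- the Haar probability measure of `K` -/
noncomputable def νK : Measure G := h.exists_νK.choose

/-- the Haar probability measure of `M` -/
noncomputable def νM : Measure G := h.exists_νM.choose

theorem hpK : IsHp h.K h.νK := h.exists_νK.choose_spec

theorem hpM : IsHp h.M h.νM := h.exists_νM.choose_spec

instance : IsProbabilityMeasure h.νK := h.hpK.prob

instance : IsProbabilityMeasure h.νM := h.hpM.prob

theorem measurable_a : Measurable h.a := h.continuous_a.measurable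

theorem measurable_nE : Measurable h.nE := h.continuous_nE.measurable

theorem measurable_hs : Measurable h.hs := h.continuous_hs.measurable

theorem measurable_ik : Measurable h.ik := h.continuous_ik.measurable

theorem measurable_bd : Measurable h.bd := h.continuous_bd.measurable

theorem measurable_rr : Measurable h.rr := h.continuous_rr.measurable

/-- the parametrisation of `A N` -/
noncomputable def an (q : ℝ × h.EN) : G := h.a q.1 * h.nE q.2

theorem continuous_an : Continuous h.an :=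
  (h.continuous_a.comp continuous_fst).mul (h.continuous_nE.comp continuous_snd)

theorem an_mem (q : ℝ × h.EN) : h.an q ∈ h.B := h.mem_B.2 ⟨_, _, h.nE_mem _, rfl⟩

/-- the right invariant measure of `A N` -/
noncomputable def β : Measure G := map h.an ((eμ h.Q).prod volume)

instance : SFinite h.β := by unfold β; infer_instance

theorem lintegral_β {F : G → ℝ≥0∞} (hF : Measurable F) :
    ∫⁻ b, F b ∂h.β = ∫⁻ s, (∫⁻ p, F (h.a s * h.nE p)) * eo (h.Q * s) := by
  have h1 : Measurable fun q => F (h.an q) := hF.comp h.continuous_an.measurable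
  unfold β
  rw [lintegral_map hF h.continuous_an.measurable, lintegral_prod _ h1.aemeasurable,
    lintegral_eμ _ h1.lintegral_prod_right']
  rfl

theorem β_ae : ∀ᵐ b ∂h.β, b ∈ h.B :=
  (ae_map_iff h.continuous_an.measurable.aemeasurable h.isClosed_B.measurableSet).2
    (Eventually.of_forall h.an_mem)

theorem β_aux {f : G → G} (hf : Measurable f) {φ : ℝ × h.EN → ℝ × h.EN} (hφ : Measurable φ)
    (e : ∀ q, f (h.an q) = h.an (φ q)) {c : ℝ≥0∞}
    (hc : map φ ((eμ h.Q).prod volume) = c • (eμ h.Q).prod volume) : map f h.β = c • h.β := by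
  have hm := h.continuous_an.measurable
  unfold β
  rw [map_map hf hm, ← Measure.map_smul, ← hc, map_map hm hφ]
  congr 1
  funext q
  exact e q

theorem β_right_N {u : G} (hu : u ∈ h.N) : map (fun g => g * u) h.β = h.β := by
  have h1 := (MeasurePreserving.id (eμ h.Q)).prod (h.mp_mulE_right (h.nC u))
  rw [h.β_aux (measurable_mul_const u) h1.measurable (c := 1) (fun q => ?_)
    (by rw [h1.map_eq, one_smul]), one_smul]
  show h.a q.1 * h.nE q.2 * u = h.a q.1 * h.nE (h.mulE q.2 (h.nC u))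
  rw [← h.nE_mul, h.nE_nC hu, mul_assoc]

theorem measurable_dil (s : ℝ) : Measurable (h.dil s) :=
  (h.continuous_dil.comp (f := fun p => (s, p)) (by fun_prop)).measurable

theorem β_right_a (t : ℝ) : map (fun g => g * h.a t) h.β = h.β := by
  rw [h.β_aux (measurable_mul_const _) (φ := Prod.map (fun s => s + t) (h.dil (-t)))
    ((measurable_add_const t).prodMap (h.measurable_dil _)) (c := 1) (fun q => by
      show h.a q.1 * h.nE q.2 * h.a t = h.a (q.1 + t) * h.nE (h.dil (-t) q.2)
      rw [mul_assoc, h.nE_mul_a, h.a_add, mul_assoc]) ?_, one_smul]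
  · rw [← map_prod_map _ _ (measurable_add_const t) (h.measurable_dil _), map_eμ, h.map_dil,
      prod_smul_left, prod_smul_right, smul_smul]
    congr 1
    rw [← eo_zero, show (0 : ℝ) = -(h.Q * t) + -(h.Q * -t) by ring, eo_add]
    rfl

theorem β_right {b : G} (hb : b ∈ h.B) : map (fun g => g * b) h.β = h.β := by
  obtain ⟨s, u, hu, rfl⟩ := h.mem_B.1 hb
  conv_rhs => rw [← h.β_right_N hu, ← h.β_right_a s,
    map_map (measurable_mul_const _) (measurable_mul_const _)]
  congr 1
  funext g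
  exact (mul_assoc _ _ _).symm

theorem β_left_a (t : ℝ) : map (fun g => h.a t * g) h.β = eo (-(h.Q * t)) • h.β := by
  refine h.β_aux (measurable_const_mul _) (φ := Prod.map (fun s => s + t) id)
    ((measurable_add_const t).prodMap measurable_id) (fun q => ?_) ?_
  · show h.a t * (h.a q.1 * h.nE q.2) = h.a (q.1 + t) * h.nE q.2
    rw [add_comm, h.a_add, mul_assoc]
  · rw [← map_prod_map _ _ (measurable_add_const t) measurable_id, map_eμ, Measure.map_id,
      prod_smul_left]

theorem β_left_N {u : G} (hu : u ∈ h.N) : map (fun g => u * g) h.β = h.β := by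
  have h0 : Continuous fun q : ℝ × h.EN => h.mulE (h.dil (-q.1) (h.nC u)) q.2 :=
    h.continuous_mulE.comp (f := fun q : ℝ × h.EN => (h.dil (-q.1) (h.nC u), q.2))
      ((h.continuous_dil.comp (f := fun q : ℝ × h.EN => (-q.1, h.nC u)) (by fun_prop)).prodMk
        continuous_snd)
  have h1 := (MeasurePreserving.id (eμ h.Q)).skew_product
    (g := fun s p => h.mulE (h.dil (-s) (h.nC u)) p) h0.measurable
    (Eventually.of_forall fun s => (h.mp_mulE_left _).map_eq)
  rw [h.β_aux (measurable_const_mul u) h1.measurable (c := 1) (fun q => ?_)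
    (by rw [h1.map_eq, one_smul]), one_smul]
  show u * (h.a q.1 * h.nE q.2) = h.a q.1 * h.nE (h.mulE (h.dil (-q.1) (h.nC u)) q.2)
  rw [← h.nE_mul, ← mul_assoc, ← mul_assoc, ← h.nE_mul_a, h.nE_nC hu]

theorem β_left {b : G} (hb : b ∈ h.B) :
    map (fun g => b * g) h.β = eo (-(h.Q * h.hs b)) • h.β := by
  obtain ⟨s, u, hu, rfl⟩ := h.mem_B.1 hb
  rw [h.hs_mul_N _ hu, h.hs_a, ← h.β_left_a s]
  conv_rhs => rw [← h.β_left_N hu, map_map (measurable_const_mul _) (measurable_const_mul _)]
  congr 1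
  funext g
  exact mul_assoc _ _ _

theorem β_conj_M {m : G} (hm : m ∈ h.M) : map (fun g => m * g * m⁻¹) h.β = h.β := by
  have h1 := (MeasurePreserving.id (eμ h.Q)).prod (h.mp_rot hm)
  rw [h.β_aux ((measurable_const_mul m).mul_const _) h1.measurable (c := 1) (fun q => ?_)
    (by rw [h1.map_eq, one_smul]), one_smul]
  show m * (h.a q.1 * h.nE q.2) * m⁻¹ = h.a q.1 * h.nE (h.rot m q.2)
  rw [← h.conj_nE hm.2, ← mul_assoc, h.L_comm_a hm.2]
  simp only [mul_assoc]

theorem β_compact {C : Set G} (hC : IsCompact C) : h.β C < ⊤ := by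
  haveI := t2 h.rs.emb
  unfold β
  rw [map_apply h.continuous_an.measurable hC.measurableSet]
  refine lt_of_le_of_lt (measure_mono (t := (h.hs '' C) ×ˢ ((fun g => h.nC (h.iu g)) '' C))
    fun q hq => ⟨⟨_, hq, ?_⟩, ⟨_, hq, ?_⟩⟩) ?_
  · unfold an; rw [h.hs_mul_N _ (h.nE_mem _), h.hs_a]
  · have := h.iu_kan h.K.one_mem q.1 (h.nE_mem q.2)
    rw [one_mul] at this
    show h.nC (h.iu (h.a q.1 * h.nE q.2)) = q.2
    rw [this, h.nC_nE]
  · exact ((hC.image h.continuous_hs).prod
      (hC.image (h.continuous_nC.comp h.continuous_iu))).measure_lt_top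

theorem β_pos {U : Set G} (hU : IsOpen U) (hne : (U ∩ h.B).Nonempty) : h.β U ≠ 0 := by
  obtain ⟨b, hb, hb'⟩ := hne
  obtain ⟨s, u, hu, rfl⟩ := h.mem_B.1 hb'
  unfold β
  rw [map_apply h.continuous_an.measurable hU.measurableSet]
  refine (hU.preimage h.continuous_an).measure_ne_zero _ ⟨(s, h.nC u), ?_⟩
  show h.a s * h.nE (h.nC u) ∈ U
  rwa [h.nE_nC hu]

/-- the Haar measure in Iwasawa coordinates -/
noncomputable def kan : Measure G := map (fun q : G × G => q.1 * q.2) (h.νK.prod h.β)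

theorem lintegral_kan {F : G → ℝ≥0∞} (hF : Measurable F) :
    ∫⁻ g, F g ∂h.kan = ∫⁻ k, ∫⁻ b, F (k * b) ∂h.β ∂h.νK := by
  unfold kan
  have h1 : Measurable fun q : G × G => F (q.1 * q.2) := hF.comp measurable_mul
  rw [lintegral_map hF measurable_mul, lintegral_prod _ h1.aemeasurable]

theorem kan_eq [LocallyCompactSpace G] (μ : Measure G) [μ.IsHaarMeasure] :
    ∃ c : ℝ≥0, c ≠ 0 ∧ μ = c • h.kan := by
  haveI := t2 h.rs.emb
  haveI := right_inv_of_perfect h.perfect μ
  let Φ : h.K × h.B ≃ₜ G :=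
    { toFun := fun q => (q.1 : G) * 1 * (q.2 : G)⁻¹
      invFun := fun g => (⟨h.ik g, h.ik_mem g⟩, ⟨_, h.B.inv_mem (h.ik_inv_mul g)⟩)
      left_inv := fun q => by
        have : h.ik ((q.1 : G) * 1 * (q.2 : G)⁻¹) = q.1 := by
          rw [mul_one, h.ik_mul_B _ (h.B.inv_mem q.2.2), h.ik_K q.1.2]
        refine Prod.ext (Subtype.ext this) (Subtype.ext ?_)
        show ((h.ik _)⁻¹ * _)⁻¹ = _
        rw [this]; group
      right_inv := fun g => by
        show h.ik g * 1 * ((h.ik g)⁻¹ * g)⁻¹⁻¹ = g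
        group
      continuous_toFun := by fun_prop
      continuous_invFun := (h.continuous_ik.subtype_mk _).prodMk
        ((h.continuous_ik.inv.mul continuous_id).inv.subtype_mk _) }
  obtain ⟨c, hc⟩ := uniq h.K h.B h.isCompact_K.isClosed h.isClosed_B 1 Φ.isOpenEmbedding μ h.kan
    (fun k hk => by
      unfold kan
      rw [map_map (measurable_const_mul k) measurable_mul]
      have h1 := (h.hpK.mp_left hk).prod (MeasurePreserving.id h.β)
      conv_rhs => rw [← h1.map_eq, map_map measurable_mul h1.measurable]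
      congr 1
      funext q
      exact (mul_assoc _ _ _).symm)
    (fun b hb => by
      unfold kan
      rw [map_map (measurable_mul_const b) measurable_mul]
      have h1 := (MeasurePreserving.id h.νK).prod ⟨measurable_mul_const b, h.β_right hb⟩
      conv_rhs => rw [← h1.map_eq, map_map measurable_mul h1.measurable]
      congr 1
      funext q
      exact mul_assoc _ _ _)
    (fun C hC _ => by
      have h1 := (h.isCompact_K.prod hC).image (f := fun q : G × G => q.1⁻¹ * q.2) (by fun_prop)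
      unfold kan
      rw [map_apply measurable_mul hC.measurableSet]
      refine lt_of_le_of_lt (measure_mono_ae (t := Set.univ ×ˢ
        ((fun q : G × G => q.1⁻¹ * q.2) '' ((h.K : Set G) ×ˢ C))) ?_) ?_
      · filter_upwards [quasiMeasurePreserving_fst.ae h.hpK.ae] with q hq hq'
        exact ⟨trivial, (q.1, q.1 * q.2), ⟨hq, hq'⟩, inv_mul_cancel_left _ _⟩
      · rw [prod_prod, measure_univ, one_mul]
        exact h.β_compact h1)
  have h1 : Set.range (fun q : h.K × h.B => (q.1 : G) * 1 * (q.2 : G)⁻¹) = Set.univ :=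
    Φ.surjective.range_eq
  rw [h1, restrict_univ, restrict_univ] at hc
  have h2 : c ≠ 0 := by
    rintro rfl
    have h3 := congrArg (fun m : Measure G => m Set.univ) hc
    unfold kan at h3
    simp only [zero_smul, coe_zero, Pi.zero_apply] at h3
    rw [map_apply measurable_mul MeasurableSet.univ, Set.preimage_univ, ← Set.univ_prod_univ,
      prod_prod, measure_univ, one_mul] at h3
    exact h.β_pos isOpen_univ ⟨1, trivial, h.B.one_mem⟩ h3
  exact ⟨c⁻¹, inv_ne_zero h2, by rw [hc, smul_smul, inv_mul_cancel₀ h2, one_smul]⟩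

/-- **the Haar measure in Iwasawa coordinates** -/
theorem haar_kan [LocallyCompactSpace G] (μ : Measure G) [μ.IsHaarMeasure] :
    ∃ c : ℝ≥0, c ≠ 0 ∧ ∀ F : G → ℝ≥0∞, Measurable F → ∫⁻ g, F g ∂μ =
      c * ∫⁻ k, ∫⁻ s, (∫⁻ p, F (k * (h.a s * h.nE p))) * eo (h.Q * s) ∂volume ∂h.νK := by
  obtain ⟨c, hc, e⟩ := h.kan_eq μ
  refine ⟨c, hc, fun F hF => ?_⟩
  conv_lhs => rw [e]
  rw [lintegral_smul_measure, h.lintegral_kan hF]
  congr 1
  exact lintegral_congr fun k => h.lintegral_β (hF.comp (measurable_const_mul k))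

theorem kan_left (g : G) : map (fun x => g * x) h.kan = h.kan := by
  haveI := locComp h.rs.emb
  obtain ⟨c, hc, e⟩ := h.kan_eq haar
  have h1 := map_mul_left_eq_self (haar : Measure G) g
  rw [e, Measure.map_smul] at h1
  have h2 := congrArg (fun m => c⁻¹ • m) h1
  simpa only [smul_smul, inv_mul_cancel₀ hc, one_smul] using h2

theorem hs_inv_mul_ik (g x : G) : h.hs (g⁻¹ * h.ik (g * x)) = h.hs x - h.hs (g * x) := by
  have := h.hs_mul g⁻¹ (g * x)
  rw [inv_mul_cancel_left] at this
  linarith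

/-- **the conformal density** -/
theorem conformal (g : G) {F : G → ℝ≥0∞} (hF : Measurable F) :
    ∫⁻ k, F (h.ik (g * k)) ∂h.νK = ∫⁻ k, F k * eo (-(h.Q * h.hs (g⁻¹ * k))) ∂h.νK := by
  haveI := t2 h.rs.emb
  obtain ⟨U, hU⟩ : ∃ U, U = {x | h.rr x ≤ 1} := ⟨_, rfl⟩
  have hU1 : IsCompact U := hU ▸ h.isCompact_ball 1
  have hU2 : h.β U ≠ 0 := fun h0 => h.β_pos (U := {x | h.rr x < 1})
    (isOpen_lt h.continuous_rr continuous_const) ⟨1, by simp [h.rr_one], h.B.one_mem⟩
    (measure_mono_null (fun x hx => by rw [hU]; exact le_of_lt (α := ℝ) hx) h0)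
  have hU3 : ∀ k ∈ h.K, ∀ x, U.indicator (1 : G → ℝ≥0∞) (k * x) = U.indicator 1 x := by
    intro k hk x
    have : k * x ∈ U ↔ x ∈ U := by rw [hU, Set.mem_setOf_eq, Set.mem_setOf_eq, h.rr_K_mul hk]
    by_cases hx : x ∈ U
    · rw [Set.indicator_of_mem hx, Set.indicator_of_mem (this.2 hx)]; rfl
    · rw [Set.indicator_of_notMem hx, Set.indicator_of_notMem fun h0 => hx (this.1 h0)]
  have hχ : Measurable (U.indicator (1 : G → ℝ≥0∞)) := measurable_one.indicator hU1.measurableSet
  have h1 : ∀ x, ∫⁻ b, U.indicator 1 (x * b) ∂h.β = eo (-(h.Q * h.hs x)) * h.β U := by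
    intro x
    have e : ∀ b, U.indicator (1 : G → ℝ≥0∞) (x * b) = U.indicator 1 ((h.ik x)⁻¹ * x * b) := by
      intro b
      rw [mul_assoc, hU3 _ (h.K.inv_mem (h.ik_mem x))]
    simp only [e]
    rw [← lintegral_map hχ (measurable_const_mul _), h.β_left (h.ik_inv_mul x),
      lintegral_smul_measure, lintegral_indicator_one hU1.measurableSet,
      h.hs_K_mul (h.K.inv_mem (h.ik_mem x)), smul_eq_mul]
  have hm1 : Measurable fun y => F (h.ik y) * U.indicator 1 (g⁻¹ * y) :=
    (hF.comp h.measurable_ik).mul (hχ.comp (measurable_const_mul _))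
  have h2 := lintegral_map (μ := h.kan) hm1 (measurable_const_mul g)
  have hm2 : Measurable fun y => F (h.ik (g * y)) * U.indicator 1 (g⁻¹ * (g * y)) :=
    hm1.comp (measurable_const_mul g)
  rw [h.kan_left, h.lintegral_kan hm1, h.lintegral_kan hm2] at h2
  have h3 : ∫⁻ k, ∫⁻ b, F (h.ik (k * b)) * U.indicator 1 (g⁻¹ * (k * b)) ∂h.β ∂h.νK =
      (∫⁻ k, F k * eo (-(h.Q * h.hs (g⁻¹ * k))) ∂h.νK) * h.β U := by
    rw [← lintegral_mul_const' _ _ (h.β_compact hU1).ne]
    refine lintegral_congr_ae ?_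
    filter_upwards [h.hpK.ae] with k hk
    have hm3 : Measurable fun b => U.indicator (1 : G → ℝ≥0∞) (g⁻¹ * k * b) :=
      hχ.comp (measurable_const_mul _)
    rw [mul_assoc, ← h1, ← lintegral_const_mul _ hm3]
    refine lintegral_congr_ae ?_
    filter_upwards [h.β_ae] with b hb
    rw [h.ik_mul_B _ hb, h.ik_K hk, mul_assoc]
  have h4 : ∫⁻ k, ∫⁻ b, F (h.ik (g * (k * b))) * U.indicator 1 (g⁻¹ * (g * (k * b))) ∂h.β ∂h.νK =
      (∫⁻ k, F (h.ik (g * k)) ∂h.νK) * h.β U := by
    rw [← lintegral_mul_const' _ _ (h.β_compact hU1).ne]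
    refine lintegral_congr_ae ?_
    filter_upwards [h.hpK.ae] with k hk
    rw [← lintegral_indicator_one hU1.measurableSet, ← lintegral_const_mul _ hχ]
    refine lintegral_congr_ae ?_
    filter_upwards [h.β_ae] with b hb
    rw [inv_mul_cancel_left, hU3 k hk, ← mul_assoc, h.ik_mul_B _ hb]
  exact (ENNReal.mul_left_inj hU2 (h.β_compact hU1).ne).1 (by rw [← h3, ← h4]; exact h2.symm)

/-- the measure `dk e^(Q s) ds` on the cone is invariant -/
theorem cone_inv (g : G) {F : G → ℝ≥0∞} (hF : Measurable F) (hN : ∀ x, ∀ u ∈ h.N, F (x * u) = F x) :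
    ∫⁻ k, ∫⁻ s, F (g * (k * h.a s)) ∂eμ h.Q ∂h.νK = ∫⁻ k, ∫⁻ s, F (k * h.a s) ∂eμ h.Q ∂h.νK := by
  have h0 : Measurable fun q : G × ℝ => F (q.1 * h.a q.2) :=
    hF.comp (measurable_fst.mul (h.measurable_a.comp measurable_snd))
  have h1 : Measurable fun k => ∫⁻ s, F (k * h.a s) ∂eμ h.Q := h0.lintegral_prod_right'
  have h2 : Measurable fun k => eo (h.Q * h.hs (g⁻¹ * k)) :=
    measurable_eo.comp ((h.measurable_hs.comp (measurable_const_mul _)).const_mul _)
  have h3 := h.conformal g (F := fun k => (∫⁻ s, F (k * h.a s) ∂eμ h.Q) *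
    eo (h.Q * h.hs (g⁻¹ * k))) (h1.mul h2)
  have h4 : ∀ k, (∫⁻ s, F (k * h.a s) ∂eμ h.Q) * eo (h.Q * h.hs (g⁻¹ * k)) *
      eo (-(h.Q * h.hs (g⁻¹ * k))) = ∫⁻ s, F (k * h.a s) ∂eμ h.Q := fun k => by
    rw [mul_assoc, ← eo_add, add_neg_cancel, eo_zero, mul_one]
  simp only [h4] at h3
  rw [← h3]
  refine lintegral_congr_ae ?_
  filter_upwards [h.hpK.ae] with k hk
  have hm : Measurable fun s => F (h.ik (g * k) * h.a s) :=
    hF.comp (h.measurable_a.const_mul _)
  rw [h.hs_inv_mul_ik, h.hs_K hk, zero_sub, mul_neg, mul_comm, ← smul_eq_mul,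
    ← lintegral_smul_measure, ← map_eμ, lintegral_map hm (measurable_add_const _)]
  refine lintegral_congr fun s => ?_
  have e : g * (k * h.a s) = h.ik (g * k) * h.a (s + h.hs (g * k)) *
      ((h.a s)⁻¹ * h.iu (g * k) * h.a s) := by
    conv_lhs => rw [← mul_assoc, ← h.iwa_eq (g * k)]
    rw [add_comm, h.a_add]; group
  rw [e, hN _ _ (h.conj_N' (h.a_mem_P s) (h.iu_mem _))]

end R1

end Vale.Agent.P092RG
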