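import Vale.Agent.P092RG.Hts

/-!
P092, rank one (helper76): the radius, the corner inequalities, the law of cosines.
-/

set_option linter.all false

open Matrix Filter Topology

namespace Vale.Agent.P092RG

open Vale.Agent.P092.H793.Re

variable {n : ℕ} {G : Type} [Group G] [TopologicalSpace G]
variable {ρ : G →* SLn n} {w : Fin n → ℝ}

theorem ip_diag_le {x : Fin n → ℝ} {c : ℝ} (hx : ∀ a, x a * x a ≤ c) (B : Mat n) :
    ip (diagonal x * B) (diagonal x * B) ≤ c * ip B B := by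
  rw [ip_eq, ip_eq, Finset.mul_sum]
  refine Finset.sum_le_sum fun a _ => ?_
  rw [Finset.mul_sum]
  refine Finset.sum_le_sum fun b _ => ?_
  rw [diagonal_mul]
  nlinarith [hx a, mul_self_nonneg (B a b)]

namespace R1

variable (h : R1 ρ w)
include h

theorem le_of_exp {x y : ℝ} (e : Real.exp (2 * h.lam * x) * h.dt ≤
    Real.exp (2 * h.lam * y) * h.dt) : x ≤ y := by
  have h1 := Real.exp_le_exp.1 (le_of_mul_le_mul_right e h.dt_pos)
  have := h.lam_pos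
  exact le_of_mul_le_mul_left h1 (by positivity)

theorem hs_a_mul_le (s : ℝ) (g : G) : h.hs (h.a s * g) ≤ |s| + h.hs g := by
  refine h.le_of_exp ?_
  rw [← h.ip_val_Pt, vmul, Matrix.mul_assoc, h.a_val, mul_add, Real.exp_add, mul_assoc,
    ← h.ip_val_Pt]
  refine ip_diag_le (fun a => ?_) _
  rw [← Real.exp_add, Real.exp_le_exp]
  have h1 : s * w a ≤ |s| * h.lam := by
    refine (le_abs_self _).trans ?_
    rw [abs_mul]
    exact mul_le_mul_of_nonneg_left (abs_le.2 ⟨h.neg_lam_le a, h.le_lam a⟩) (abs_nonneg s)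
  linarith

theorem bd_le_hs (g : G) : h.bd g ≤ Real.exp (h.hs g) := by
  have h1 := h.lam_pos
  have h2 : h.bd g ^ (2 * h.lam) * h.dt ≤ Real.exp (h.hs g) ^ (2 * h.lam) * h.dt := by
    rw [h.bd_rpow, ← Real.exp_mul, mul_comm (h.hs g), ← h.ip_val_Pt, Matrix.mul_assoc]
    unfold Pb pj
    refine (ip_diag_le (c := 1) (fun a => ?_) _).trans_eq (one_mul _)
    split_ifs <;> norm_num
  exact (Real.rpow_le_rpow_iff (h.bd_nonneg g) (Real.exp_pos _).le (by positivity)).1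
    (le_of_mul_le_mul_right h2 h.dt_pos)

theorem bd_K_le {κ : G} (hκ : κ ∈ h.K) : h.bd κ ≤ 1 := by
  have := h.bd_le_hs κ
  rwa [h.hs_K hκ, Real.exp_zero] at this

theorem bd_inv_mul_le (g g' : G) : h.bd (g⁻¹ * g') ≤ Real.exp (h.hs g + h.hs g') := by
  rw [h.bd_iwa, ← h.bd_inv, _root_.mul_inv_rev, inv_inv, h.bd_iwa, Real.exp_add, mul_comm]
  refine mul_le_mul_of_nonneg_right ?_ (Real.exp_pos _).le
  exact mul_le_of_le_one_right (Real.exp_pos _).le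
    (h.bd_K_le (h.K.mul_mem (h.K.inv_mem (h.ik_mem _)) (h.ik_mem _)))

theorem bd_inv_mul (g g' : G) : h.bd (g⁻¹ * g') =
    Real.exp (h.hs g + h.hs g') * h.bd ((h.ik g)⁻¹ * h.ik g') := by
  rw [h.bd_iwa, ← h.bd_inv, _root_.mul_inv_rev, inv_inv, h.bd_iwa, Real.exp_add, ← h.bd_inv,
    _root_.mul_inv_rev, inv_inv]
  ring

/-- the radius: `rr (κ a_s κ') = |s|` -/
noncomputable def rr (g : G) : ℝ := sSup ((fun κ => h.hs (g * κ)) '' (h.K : Set G))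

theorem continuous_rr : Continuous h.rr := by
  haveI := topGroup h.rs.emb
  exact h.isCompact_K.continuous_sSup (f := fun g κ => h.hs (g * κ))
    (h.continuous_hs.comp continuous_mul)

theorem rr_kak {κ κ' : G} (hκ : κ ∈ h.K) (hκ' : κ' ∈ h.K) {s : ℝ} (hs : 0 ≤ s) :
    h.rr (κ * h.a s * κ') = s := by
  refine IsGreatest.csSup_eq ⟨⟨κ'⁻¹, h.K.inv_mem hκ', ?_⟩, ?_⟩
  · show h.hs _ = s
    rw [mul_inv_cancel_right, h.hs_K_mul hκ, h.hs_a]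
  · rintro _ ⟨κ'', hκ'', rfl⟩
    show h.hs _ ≤ s
    rw [mul_assoc, mul_assoc, h.hs_K_mul hκ]
    have := h.hs_a_mul_le s (κ' * κ'')
    rwa [h.hs_K (h.K.mul_mem hκ' hκ''), abs_of_nonneg hs, add_zero] at this

theorem kak_rr (g : G) : ∃ κ ∈ h.K, ∃ κ' ∈ h.K, g = κ * h.a (h.rr g) * κ' := by
  obtain ⟨κ, hκ, κ', hκ', s, hs, e⟩ := h.kak g
  exact ⟨κ, hκ, κ', hκ', by rw [e, h.rr_kak hκ hκ' hs]⟩

theorem rr_nonneg (g : G) : 0 ≤ h.rr g := by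
  obtain ⟨κ, hκ, κ', hκ', s, hs, e⟩ := h.kak g
  rw [e, h.rr_kak hκ hκ' hs]; exact hs

theorem rr_K_mul {κ : G} (hκ : κ ∈ h.K) (g : G) : h.rr (κ * g) = h.rr g := by
  obtain ⟨κ1, hκ1, κ', hκ', s, hs, rfl⟩ := h.kak g
  rw [← mul_assoc, ← mul_assoc, h.rr_kak (h.K.mul_mem hκ hκ1) hκ' hs, h.rr_kak hκ1 hκ' hs]

theorem rr_mul_K (g : G) {κ : G} (hκ : κ ∈ h.K) : h.rr (g * κ) = h.rr g := by
  obtain ⟨κ1, hκ1, κ', hκ', s, hs, rfl⟩ := h.kak g
  rw [mul_assoc, h.rr_kak hκ1 (h.K.mul_mem hκ' hκ) hs, h.rr_kak hκ1 hκ' hs]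

theorem a_neg_eq (s : ℝ) : h.a (-s) = h.w0 * h.a s * h.w0⁻¹ := by
  rw [h.w0_a, mul_inv_cancel_right]

theorem rr_a (s : ℝ) : h.rr (h.a s) = |s| := by
  rcases le_total 0 s with hs | hs
  · have := h.rr_kak h.K.one_mem h.K.one_mem hs
    rw [one_mul, mul_one] at this
    rw [this, abs_of_nonneg hs]
  · have := h.rr_kak h.w0_mem (h.K.inv_mem h.w0_mem) (neg_nonneg.2 hs)
    rw [← h.a_neg_eq, neg_neg] at this
    rw [this, abs_of_nonpos hs]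

theorem rr_kak' {κ κ' : G} (hκ : κ ∈ h.K) (hκ' : κ' ∈ h.K) (s : ℝ) :
    h.rr (κ * h.a s * κ') = |s| := by rw [h.rr_mul_K _ hκ', h.rr_K_mul hκ, h.rr_a]

theorem rr_K {κ : G} (hκ : κ ∈ h.K) : h.rr κ = 0 := by
  have := h.rr_kak hκ h.K.one_mem le_rfl
  rwa [h.a_zero, mul_one, mul_one] at this

theorem rr_one : h.rr 1 = 0 := h.rr_K h.K.one_mem

theorem rr_eq_zero {g : G} : h.rr g = 0 ↔ g ∈ h.K := by
  refine ⟨fun h0 => ?_, h.rr_K⟩
  obtain ⟨κ, hκ, κ', hκ', e⟩ := h.kak_rr g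
  rw [e, h0, h.a_zero, mul_one]
  exact h.K.mul_mem hκ hκ'

theorem rr_inv (g : G) : h.rr g⁻¹ = h.rr g := by
  obtain ⟨κ, hκ, κ', hκ', s, hs, rfl⟩ := h.kak g
  rw [h.rr_kak hκ hκ' hs, _root_.mul_inv_rev, _root_.mul_inv_rev, ← h.a_neg, ← mul_assoc,
    h.rr_kak' (h.K.inv_mem hκ') (h.K.inv_mem hκ), abs_neg, abs_of_nonneg hs]

theorem hs_mul_le (g g' : G) : h.hs (g * g') ≤ h.rr g + h.hs g' := by
  obtain ⟨κ, hκ, κ', hκ', s, hs, rfl⟩ := h.kak g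
  rw [h.rr_kak hκ hκ' hs, mul_assoc, mul_assoc, h.hs_K_mul hκ]
  have := h.hs_a_mul_le s (κ' * g')
  rwa [h.hs_K_mul hκ', abs_of_nonneg hs] at this

theorem abs_hs_mul_sub (g g' : G) : |h.hs (g * g') - h.hs g'| ≤ h.rr g := by
  have h1 := h.hs_mul_le g g'
  have h2 := h.hs_mul_le g⁻¹ (g * g')
  rw [inv_mul_cancel_left, h.rr_inv] at h2
  rw [abs_le]
  constructor <;> linarith

theorem abs_hs_le (g : G) : |h.hs g| ≤ h.rr g := by
  have := h.abs_hs_mul_sub g 1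
  rwa [mul_one, h.hs_one, sub_zero] at this

theorem hs_le_rr (g : G) : h.hs g ≤ h.rr g := (le_abs_self _).trans (h.abs_hs_le g)

theorem bd_le_rr (g : G) : h.bd g ≤ Real.exp (h.rr g) :=
  (h.bd_le_hs g).trans (Real.exp_le_exp.2 (h.hs_le_rr g))

theorem exists_hs_eq_rr (g : G) : ∃ κ ∈ h.K, h.hs (g * κ) = h.rr g := by
  obtain ⟨κ, hκ, κ', hκ', s, hs, rfl⟩ := h.kak g
  exact ⟨κ'⁻¹, h.K.inv_mem hκ', by
    rw [h.rr_kak hκ hκ' hs, mul_inv_cancel_right, h.hs_K_mul hκ, h.hs_a]⟩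

theorem rr_mul_le (g g' : G) : h.rr (g * g') ≤ h.rr g + h.rr g' := by
  obtain ⟨κ, hκ, e⟩ := h.exists_hs_eq_rr (g * g')
  rw [← e, mul_assoc]
  have h1 := h.hs_mul_le g (g' * κ)
  have h2 := h.hs_le_rr (g' * κ)
  rw [h.rr_mul_K _ hκ] at h2
  linarith

theorem abs_rr_mul_sub (g g' : G) : |h.rr (g * g') - h.rr g'| ≤ h.rr g := by
  have h1 := h.rr_mul_le g g'
  have h2 := h.rr_mul_le g⁻¹ (g * g')
  rw [inv_mul_cancel_left, h.rr_inv] at h2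
  rw [abs_le]
  constructor <;> linarith

theorem abs_rr_mul_sub' (g g' : G) : |h.rr (g * g') - h.rr g| ≤ h.rr g' := by
  have := h.abs_rr_mul_sub g'⁻¹ g⁻¹
  rwa [← _root_.mul_inv_rev, h.rr_inv, h.rr_inv, h.rr_inv] at this

theorem isCompact_ball (R : ℝ) : IsCompact {g | h.rr g ≤ R} := by
  haveI := topGroup h.rs.emb
  have h1 := h.continuous_a
  have h2 := ((h.isCompact_K.prod (isCompact_Icc (a := (0 : ℝ)) (b := R))).prod
    h.isCompact_K).image (f := fun q : (G × ℝ) × G => q.1.1 * h.a q.1.2 * q.2) (by fun_prop)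
  convert h2 using 1
  ext g
  constructor
  · intro hg
    obtain ⟨κ, hκ, κ', hκ', e⟩ := h.kak_rr g
    exact ⟨((κ, h.rr g), κ'), ⟨⟨hκ, h.rr_nonneg g, hg⟩, hκ'⟩, e.symm⟩
  · rintro ⟨⟨⟨κ, s⟩, κ'⟩, ⟨⟨hκ, hs, hR⟩, hκ'⟩, rfl⟩
    show h.rr (κ * h.a s * κ') ≤ R
    rw [h.rr_kak hκ hκ' hs]; exact hR

theorem exists_ball {C : Set G} (hC : IsCompact C) : ∃ R, ∀ g ∈ C, h.rr g ≤ R := by
  obtain ⟨R, hR⟩ := (hC.image h.continuous_rr).bddAbove
  exact ⟨R, fun g hg => hR ⟨g, hg, rfl⟩⟩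

/-- two corners control the height -/
theorem two_corner : ∃ c : ℝ, 0 < c ∧ ∀ g,
    c * Real.exp (h.hs g) ≤ h.bd g + h.bd (h.w0 * g) := by
  haveI := topGroup h.rs.emb
  have h1 := h.continuous_bd
  obtain ⟨κ, hκ, hmin⟩ := h.isCompact_K.exists_isMinOn ⟨1, h.K.one_mem⟩
    (f := fun g => h.bd g + h.bd (h.w0 * g)) (Continuous.continuousOn (by fun_prop))
  refine ⟨h.bd κ + h.bd (h.w0 * κ), ?_, fun g => ?_⟩
  · by_contra h2
    have h3 := h.bd_nonneg κ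
    have h4 := h.bd_nonneg (h.w0 * κ)
    have h5 := h.bd_eq_zero.1 (show h.bd κ = 0 by linarith)
    have h6 := h.bd_eq_zero.1 (show h.bd (h.w0 * κ) = 0 by linarith)
    exact h.w0_not_mem ((h.P.mul_mem_cancel_right h5).1 h6)
  · have h2 : h.bd κ + h.bd (h.w0 * κ) ≤ h.bd (h.ik g) + h.bd (h.w0 * h.ik g) :=
      hmin (h.ik_mem g)
    have h3 := h.bd_iwa 1 g
    rw [one_mul, one_mul] at h3
    rw [h3, h.bd_iwa h.w0 g, ← mul_add, mul_comm]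
    exact mul_le_mul_of_nonneg_left h2 (Real.exp_pos _).le

theorem bd_mul_w0_inv (g : G) : h.bd (g * h.w0⁻¹) = h.bd (g * h.w0) := by
  have e : g * h.w0⁻¹ = g * h.w0 * (h.w0 * h.w0)⁻¹ := by group
  rw [e, h.bd_mul_M _ (h.M.inv_mem h.w0_sq)]

theorem bd_w0_inv_mul (g : G) : h.bd (h.w0⁻¹ * g) = h.bd (h.w0 * g) := by
  have e : h.w0⁻¹ * g = (h.w0 * h.w0)⁻¹ * (h.w0 * g) := by group
  rw [e, h.bd_M_mul (h.M.inv_mem h.w0_sq)]

theorem bd_w0_a_mul (s : ℝ) (g : G) :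
    h.bd (h.w0 * (h.a s * g)) = Real.exp s * h.bd (h.w0 * g) := by
  rw [← mul_assoc, h.w0_a, mul_assoc, h.bd_a_mul, neg_neg]

theorem bd_mul_a_w0 (g : G) (s : ℝ) :
    h.bd (g * h.a s * h.w0) = Real.exp (-s) * h.bd (g * h.w0) := by
  have := h.w0_a (-s)
  rw [neg_neg] at this
  rw [mul_assoc, ← this, ← mul_assoc, h.bd_mul_a]

/-- two heights control the radius -/
theorem two_height : ∃ c : ℝ, 0 < c ∧ ∀ g,
    c * Real.exp (h.rr g) ≤ Real.exp (h.hs g) + Real.exp (h.hs (g * h.w0)) := by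
  obtain ⟨c, hc, h1⟩ := h.two_corner
  refine ⟨c, hc, fun g => ?_⟩
  obtain ⟨κ, hκ, κ', hκ', s, hs, rfl⟩ := h.kak g
  rw [h.rr_kak hκ hκ' hs, mul_assoc, mul_assoc, h.hs_K_mul hκ, h.hs_K_mul hκ, mul_assoc]
  have h2 : ∀ x, Real.exp s * h.bd (h.w0 * x) ≤ Real.exp (h.hs (h.a s * x)) := fun x => by
    rw [← h.bd_w0_a_mul, ← h.hs_K_mul h.w0_mem]
    exact h.bd_le_hs _
  have h3 := h1 (h.w0 * κ')⁻¹
  have e : h.w0 * (h.w0 * κ')⁻¹ = (h.w0 * κ' * h.w0⁻¹)⁻¹ := by group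
  rw [h.hs_K (h.K.inv_mem (h.K.mul_mem h.w0_mem hκ')), Real.exp_zero, mul_one, h.bd_inv, e,
    h.bd_inv, h.bd_mul_w0_inv, mul_assoc] at h3
  have h4 := h2 κ'
  have h5 := h2 (κ' * h.w0)
  have h6 := mul_le_mul_of_nonneg_left h3 (Real.exp_pos s).le
  linarith

/-- four corners control the radius -/
theorem four_corner : ∃ c : ℝ, 0 < c ∧ ∀ g, c * Real.exp (h.rr g) ≤
    h.bd g + h.bd (h.w0 * g) + h.bd (g * h.w0) + h.bd (h.w0 * (g * h.w0)) := by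
  obtain ⟨c, hc, h1⟩ := h.two_corner
  obtain ⟨c', hc', h2⟩ := h.two_height
  refine ⟨c * c', by positivity, fun g => ?_⟩
  have h3 := mul_le_mul_of_nonneg_left (h2 g) hc.le
  have h4 := h1 g
  have h5 := h1 (g * h.w0)
  rw [mul_assoc]
  linarith

/-- the law of cosines, up to a constant -/
theorem cosines : ∃ C : ℝ, 0 < C ∧ ∀ κ ∈ h.K, ∀ s t : ℝ,
    Real.exp (h.rr (h.a (-s) * κ * h.a t)) ≤ C * (Real.exp (s + t) * h.bd κ + Real.exp (t - s) +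
      Real.exp (s - t) + Real.exp (-s - t)) := by
  obtain ⟨c, hc, h1⟩ := h.four_corner
  refine ⟨c⁻¹, inv_pos.2 hc, fun κ hκ s t => ?_⟩
  rw [← div_eq_inv_mul, le_div_iff₀' hc]
  refine (h1 _).trans ?_
  have hw := h.w0_mem
  have e1 : h.bd (h.a (-s) * κ * h.a t) = Real.exp (s + t) * h.bd κ := by
    rw [h.bd_mul_a, h.bd_a_mul, neg_neg, Real.exp_add]; ring
  have e2 : h.bd (h.w0 * (h.a (-s) * κ * h.a t)) ≤ Real.exp (t - s) := by
    rw [mul_assoc, h.bd_w0_a_mul, ← mul_assoc, h.bd_mul_a, ← mul_assoc, ← Real.exp_add,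
      neg_add_eq_sub]
    exact mul_le_of_le_one_right (Real.exp_pos _).le (h.bd_K_le (h.K.mul_mem hw hκ))
  have e3 : h.bd (h.a (-s) * κ * h.a t * h.w0) ≤ Real.exp (s - t) := by
    rw [h.bd_mul_a_w0, mul_assoc, h.bd_a_mul, ← mul_assoc, ← Real.exp_add, neg_neg,
      neg_add_eq_sub]
    exact mul_le_of_le_one_right (Real.exp_pos _).le (h.bd_K_le (h.K.mul_mem hκ hw))
  have e4 : h.bd (h.w0 * (h.a (-s) * κ * h.a t * h.w0)) ≤ Real.exp (-s - t) := by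
    rw [mul_assoc, mul_assoc, h.bd_w0_a_mul, ← mul_assoc, ← mul_assoc, h.bd_mul_a_w0,
      ← mul_assoc, ← Real.exp_add, ← sub_eq_add_neg]
    exact mul_le_of_le_one_right (Real.exp_pos _).le
      (h.bd_K_le (h.K.mul_mem (h.K.mul_mem hw hκ) hw))
  linarith

theorem cosines_ge (g : G) (s t : ℝ) :
    Real.exp (s + t) * h.bd g ≤ Real.exp (h.rr (h.a (-s) * g * h.a t)) := by
  have := h.bd_le_rr (h.a (-s) * g * h.a t)
  rw [h.bd_mul_a, h.bd_a_mul, neg_neg, ← mul_assoc, ← Real.exp_add, add_comm t] at this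
  exact this

/-- elements of `K` close to `M` almost commute with the torus -/
theorem near : ∃ R : ℝ, 0 ≤ R ∧ ∀ κ ∈ h.K, ∀ t : ℝ, 0 ≤ t → h.bd κ ≤ Real.exp (-(2 * t)) →
    h.rr (h.a (-t) * κ * h.a t) ≤ R := by
  obtain ⟨C, hC, h1⟩ := h.cosines
  refine ⟨|Real.log (4 * C)|, abs_nonneg _, fun κ hκ t ht h2 => le_trans ?_ (le_abs_self _)⟩
  rw [Real.le_log_iff_exp_le (by positivity)]
  refine (h1 κ hκ t t).trans ?_
  have h3 : Real.exp (t + t) * h.bd κ ≤ 1 := by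
    refine (mul_le_mul_of_nonneg_left h2 (Real.exp_pos _).le).trans_eq ?_
    rw [← Real.exp_add, ← Real.exp_zero]
    congr 1
    ring
  have h4 : Real.exp (-t - t) ≤ 1 := Real.exp_le_one_iff.2 (by linarith)
  rw [sub_self, Real.exp_zero, mul_comm 4]
  exact mul_le_mul_of_nonneg_left (by linarith) hC.le

/-- the quasi triangle inequality on the boundary -/
theorem bd_tri : ∃ C : ℝ, 0 < C ∧ ∀ κ ∈ h.K, ∀ κ' ∈ h.K,
    h.bd (κ * κ') ≤ C * (h.bd κ + h.bd κ') := by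
  obtain ⟨R, hR, h1⟩ := h.near
  refine ⟨Real.exp (2 * R), Real.exp_pos _, fun κ hκ κ' hκ' => ?_⟩
  have a1 := h.bd_nonneg κ
  have a2 := h.bd_nonneg κ'
  obtain ⟨ε, hε⟩ : ∃ ε, ε = max (h.bd κ) (h.bd κ') := ⟨_, rfl⟩
  have b1 : h.bd κ ≤ ε := hε ▸ le_max_left _ _
  have b2 : h.bd κ' ≤ ε := hε ▸ le_max_right _ _
  have b3 : ε ≤ 1 := hε ▸ max_le (h.bd_K_le hκ) (h.bd_K_le hκ')
  have b4 : ε ≤ h.bd κ + h.bd κ' := hε ▸ max_le (by linarith) (by linarith)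
  rcases (a1.trans b1).eq_or_lt with h0 | h0
  · rw [h.bd_P (h.P.mul_mem (h.bd_eq_zero.1 (by linarith)) (h.bd_eq_zero.1 (by linarith)))]
    positivity
  obtain ⟨t, ht⟩ : ∃ t, t = -Real.log ε / 2 := ⟨_, rfl⟩
  have c1 : 0 ≤ t := by
    have := Real.log_nonpos h0.le b3
    rw [ht]; linarith
  have c2 : Real.exp (-(2 * t)) = ε := by
    rw [ht, ← Real.exp_log h0, Real.log_exp]
    congr 1
    ring
  have d1 := h1 κ hκ t c1 (c2 ▸ b1)
  have d2 := h1 κ' hκ' t c1 (c2 ▸ b2)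
  have d3 := h.rr_mul_le (h.a (-t) * κ * h.a t) (h.a (-t) * κ' * h.a t)
  have e : h.a (-t) * κ * h.a t * (h.a (-t) * κ' * h.a t) = h.a (-t) * (κ * κ') * h.a t := by
    rw [h.a_neg]; group
  rw [e] at d3
  have d4 := (h.cosines_ge (κ * κ') t t).trans (Real.exp_le_exp.2 (show _ ≤ 2 * R by linarith))
  have d5 : h.bd (κ * κ') = Real.exp (t + t) * h.bd (κ * κ') * ε := by
    rw [← c2, mul_right_comm, ← Real.exp_add, show t + t + -(2 * t) = 0 by ring, Real.exp_zero,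
      one_mul]
  rw [d5]
  exact mul_le_mul d4 b4 h0.le (Real.exp_pos _).le

end R1

end Vale.Agent.P092RG
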