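import Vale.Agent.P092RG.Alg
import Vale.Agent.P092.H155.ReD

/-!
P092, rank one (helper76): the groups with one simple root are the groups `R1`.
-/

set_option linter.all false

open Matrix Filter Topology

namespace Vale.Agent.P092RG

open Vale.Agent.P092.H793.Re

variable {n : ℕ} {G : Type} [Group G] [TopologicalSpace G]
variable {ρ : G →* SLn n} {w : Fin n → ℝ}

/-- the top weight is at most two -/
theorem top_le_two (hρ : RS ρ) (hw : Lie ρ (diagonal w))
    (hc : ∀ X : Mat n, Lie ρ X → Xᵀ = X → X * diagonal w = diagonal w * X →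
      ∃ c : ℝ, X = c • diagonal w)
    {E : Mat n} (hE : Lie ρ E) (hE0 : E ≠ 0) (hE1 : Wt w 1 E) {X : Mat n} (hX : Lie ρ X)
    {a b : Fin n} (hab : X a b ≠ 0) : w a - w b ≤ 2 := by
  classical
  let S : Finset (Fin n × Fin n) :=
    Finset.univ.filter fun z => ∃ Y : Mat n, Lie ρ Y ∧ Y z.1 z.2 ≠ 0
  have hS : ∀ {Y : Mat n} {c d : Fin n}, Lie ρ Y → Y c d ≠ 0 → (c, d) ∈ S := fun hY h0 =>
    Finset.mem_filter.2 ⟨Finset.mem_univ _, _, hY, h0⟩
  obtain ⟨z, hz, hmax⟩ := S.exists_max_image (fun z => w z.1 - w z.2) ⟨_, hS hX hab⟩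
  obtain ⟨Y, hY, hY0⟩ := (Finset.mem_filter.1 hz).2
  refine (hmax _ (hS hX hab)).trans ?_
  set m := w z.1 - w z.2 with hm
  by_contra hlt
  push Not at hlt
  set A := cmp w m Y with hA
  have hAl : Lie ρ A := had hρ hw (fun v => if v = m then 1 else 0) hY
  have hAw : Wt w m A := wt_cmp m Y
  have hA0 : A ≠ 0 := by
    intro h0
    have h1 := congrFun (congrFun h0 z.1) z.2
    rw [hA, cmp_apply, if_pos hm.symm] at h1
    exact hY0 h1
  have hAt : Lie ρ Aᵀ := lie_transpose hρ.adj hAl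
  have hAE : A * E - E * A = 0 := by
    ext c d
    by_contra h0
    have h1 := hmax _ (hS (lie_bracket hρ.emb hAl hE) h0)
    have h2 := (hAw.br hE1) c d h0
    simp only at h1
    linarith
  obtain ⟨c, hc1⟩ := hc (A * Aᵀ - Aᵀ * A) (lie_bracket hρ.emb hAl hAt)
    (by simp only [transpose_sub, transpose_mul, transpose_transpose])
    (wt_zero_iff.1 ((hAw.br hAw.tr).cast (add_neg_cancel m)))
  have hH : diagonal w ≠ 0 := by
    intro h0
    have h3 := hE1.comm
    rw [h0, Matrix.zero_mul, Matrix.mul_zero, sub_zero, one_smul] at h3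
    exact hE0 h3.symm
  have hc0 : 0 < c := by
    have h2 : ip (A * Aᵀ - Aᵀ * A) (diagonal w) = m * ip A A := by
      have e : A * Aᵀ - Aᵀ * A = -(Aᵀ * A - A * Aᵀ) := by rw [neg_sub]
      rw [e, ip_neg_left, ip_br, transpose_transpose, ← ip_neg_right, neg_sub, hAw.comm,
        ip_smul_right]
    rw [hc1, ip_smul_left] at h2
    have h3 := ip_pos hH
    have h4 := ip_pos hA0
    by_contra h5
    push Not at h5
    nlinarith
  set U := Aᵀ * E - E * Aᵀ with hU
  set V := Aᵀ * U - U * Aᵀ with hV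
  have hUw : Wt w (-m + 1) U := hAw.tr.br hE1
  have jac : ∀ T : Mat n, A * (Aᵀ * T - T * Aᵀ) - (Aᵀ * T - T * Aᵀ) * A =
      ((A * Aᵀ - Aᵀ * A) * T - T * (A * Aᵀ - Aᵀ * A)) +
        (Aᵀ * (A * T - T * A) - (A * T - T * A) * Aᵀ) := by
    intro T
    simp only [Matrix.mul_sub, Matrix.sub_mul, Matrix.mul_assoc]
    abel
  have hAU : A * U - U * A = c • E := by
    rw [hU, jac, hAE, hc1, Matrix.mul_zero, Matrix.zero_mul, sub_zero, add_zero, Matrix.smul_mul,
      Matrix.mul_smul, ← smul_sub, hE1.comm, one_smul]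
  have hAV : A * V - V * A = (c * (2 - m)) • U := by
    rw [hV, jac, hAU, hc1, Matrix.smul_mul, Matrix.mul_smul, ← smul_sub, hUw.comm,
      Matrix.smul_mul, Matrix.mul_smul, ← smul_sub, ← hU, smul_smul, ← add_smul]
    congr 1
    ring
  have h1 : ip V V = c * (2 - m) * ip U U := by
    conv_lhs => rw [hV, ip_br, transpose_transpose, ← hV, hAV, ip_smul_right]
  have h2 : ip U U = 0 := by
    have h3 := ip_nonneg V
    have h4 := ip_nonneg U
    have h5 : 0 < c * (m - 2) := mul_pos hc0 (by linarith)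
    nlinarith
  rw [eq_zero_of_ip h2, Matrix.mul_zero, Matrix.zero_mul, sub_zero] at hAU
  exact hE0 ((smul_eq_zero.1 hAU.symm).resolve_left hc0.ne')

/-- **One simple root.** -/
theorem r1_of_sr (hρ : RS ρ) {hh : Fin n → ℝ} (hD : Dg ρ hh) {p q : Fin 1 → Fin n}
    {w : Fin 1 → Fin n → ℝ} {E : Fin 1 → Mat n} (hS : Sr ρ hh p q w E) : R1 ρ (w 0) := by
  have hw : w 0 (p 0) - w 0 (q 0) = 1 := by rw [hS.dual, if_pos rfl]
  have hsp : ∀ x : Fin n → ℝ, Lie ρ (diagonal x) → x = (x (p 0) - x (q 0)) • w 0 := by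
    intro x hx
    have := hS.span x hx
    rwa [Fin.sum_univ_one] at this
  have hh1 := hsp hh hD.lie
  have hc0 : 0 < hh (p 0) - hh (q 0) := sub_pos.2 (hS.hpq 0)
  set c := hh (p 0) - hh (q 0) with hc
  have hcent : ∀ X : Mat n, Lie ρ X → Xᵀ = X → X * diagonal (w 0) = diagonal (w 0) * X →
      ∃ c : ℝ, X = c • diagonal (w 0) := by
    intro X hX hs hcm
    obtain ⟨x, rfl⟩ := hD.cent X hX hs (by
      rw [hh1, diagonal_smul, Matrix.mul_smul, Matrix.smul_mul, hcm])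
    exact ⟨_, by rw [← diagonal_smul, ← hsp x hX]⟩
  have hE1 : Wt (w 0) 1 (E 0) := by
    rw [wt_iff, hS.Ew 0 _ (hS.wl 0), hw]
  have key : ∀ X : Mat n, Lie ρ X → ∀ a b, X a b ≠ 0 → w 0 b < w 0 a →
      w 0 a - w 0 b = 1 ∨ w 0 a - w 0 b = 2 := by
    intro X hX a b h0 hlt
    have h1 : hh b < hh a := by
      have ha := congrFun hh1 a
      have hb := congrFun hh1 b
      rw [Pi.smul_apply, smul_eq_mul] at ha hb
      rw [ha, hb]
      exact mul_lt_mul_of_pos_left hlt hc0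
    obtain ⟨m, hm⟩ := hS.root X hX a b h0 h1
    have h2 := hm _ (hS.wl 0)
    rw [Fin.sum_univ_one, hw, mul_one] at h2
    have h3 := top_le_two hρ (hS.wl 0) hcent (hS.El 0) (hS.En 0) hE1 hX h0
    rw [h2] at h3 ⊢
    have h4 : (0 : ℝ) < m 0 := by rw [← h2]; linarith
    have h5 : m 0 ≤ 2 := by exact_mod_cast h3
    have h6 : 0 < m 0 := by exact_mod_cast h4
    have h7 : m 0 = 1 ∨ m 0 = 2 := by omega
    rcases h7 with e | e <;> rw [e] <;> norm_num
  refine ⟨hρ, hS.wl 0, hcent, fun X hX a b h0 => ?_, E 0, hS.El 0, hS.En 0, hE1⟩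
  rcases lt_trichotomy (w 0 a) (w 0 b) with h1 | h1 | h1
  · rcases key Xᵀ (lie_transpose hρ.adj hX) b a h0 h1 with e | e
    · right; left; linarith
    · left; linarith
  · right; right; left; linarith
  · rcases key X hX a b h0 h1 with e | e
    · right; right; right; left; exact e
    · right; right; right; right; exact e

/-- **Rank one or higher rank.** -/
theorem r1_or (ρ : G →* SLn n) (hρ : RS ρ) : (∃ (ρ' : G →* SLn n) (w : Fin n → ℝ), R1 ρ' w) ∨
    ∃ (ρ' : G →* SLn n) (hh : Fin n → ℝ) (r : ℕ) (p q : Fin r → Fin n) (w : Fin r → Fin n → ℝ)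
      (E : Fin r → Mat n), 2 ≤ r ∧ RS ρ' ∧ Dg ρ' hh ∧ Sr ρ' hh p q w E := by
  obtain ⟨ρ', hh, hρ', hD⟩ := P092.H155.Re.exDg ρ hρ
  obtain ⟨r, p, q, w, E, hS⟩ := exSr ρ' hh hρ' hD
  by_cases hr : 2 ≤ r
  · exact Or.inr ⟨ρ', hh, r, p, q, w, E, hr, hρ', hD, hS⟩
  · have h1 : r = 1 := by have := hS.pos; omega
    subst h1
    exact Or.inl ⟨ρ', w 0, r1_of_sr hρ' hD hS⟩

end Vale.Agent.P092RG
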