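import Vale.Agent.P092RG.Quo
import Mathlib.MeasureTheory.Measure.GiryMonad

/-!
P092, rank one (helper76): the measures on the boundary and on the cone.
-/

set_option linter.all false

open MeasureTheory Measure Filter Topology
open scoped ENNReal NNReal

namespace Vale.Agent.P092RG

open Vale.Agent.P092.H793.Re

variable {n : ℕ} {G : Type} [Group G] [TopologicalSpace G]
variable {ρ : G →* SLn n} {w : Fin n → ℝ}

theorem ext_lintegral {α : Type*} [MeasurableSpace α] {m m' : Measure α}
    (e : ∀ F : α → ℝ≥0∞, Measurable F → ∫⁻ x, F x ∂m = ∫⁻ x, F x ∂m') : m = m' := by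
  ext s hs
  rw [← lintegral_indicator_one hs, ← lintegral_indicator_one hs]
  exact e _ (measurable_one.indicator hs)

namespace R1

variable (h : R1 ρ w)
include h

variable [IsTopologicalGroup G] [SecondCountableTopology G] [MeasurableSpace G] [BorelSpace G]

theorem measurable_mkY : Measurable fun g : G => (g : h.Y) := QuotientGroup.measurable_coe

theorem measurable_mkZ : Measurable fun g : G => (g : h.Z) := QuotientGroup.measurable_coe

theorem measurable_smulY (g : G) : Measurable fun y : h.Y => g • y :=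
  (continuous_const_smul g).measurable

theorem measurable_smulZ (g : G) : Measurable fun z : h.Z => g • z :=
  (continuous_const_smul g).measurable

theorem measurable_co (g : G) : Measurable (h.co g) :=
  (h.continuous_co.comp (f := fun y => (g, y)) (by fun_prop)).measurable

/-- the `K`-invariant probability measure on the boundary -/
noncomputable def νY : Measure h.Y := map (fun g : G => (g : h.Y)) h.νK

instance : IsProbabilityMeasure h.νY := isProbabilityMeasure_map h.measurable_mkY.aemeasurable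

theorem lintegral_νY {F : h.Y → ℝ≥0∞} (hF : Measurable F) :
    ∫⁻ y, F y ∂h.νY = ∫⁻ k, F (k : h.Y) ∂h.νK := lintegral_map hF h.measurable_mkY

theorem νY_apply {S : Set h.Y} (hS : MeasurableSet S) : h.νY S = h.νK {k | (k : h.Y) ∈ S} :=
  map_apply h.measurable_mkY hS

/-- the conformal density on the boundary -/
theorem conformalY (g : G) {F : h.Y → ℝ≥0∞} (hF : Measurable F) :
    ∫⁻ y, F (g • y) ∂h.νY = ∫⁻ y, F y * eo (-(h.Q * h.co g⁻¹ y)) ∂h.νY := by
  have h1 : Measurable fun y => F (g • y) := hF.comp (h.measurable_smulY g)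
  have h2 : Measurable fun y => F y * eo (-(h.Q * h.co g⁻¹ y)) :=
    hF.mul (measurable_eo.comp ((h.measurable_co _).const_mul _).neg)
  have h3 := h.conformal g (F := fun k => F (k : h.Y)) (hF.comp h.measurable_mkY)
  simp only [h.mkY_ik] at h3
  rw [h.lintegral_νY h1, h.lintegral_νY h2]
  refine h3.trans (lintegral_congr_ae ?_)
  filter_upwards [h.hpK.ae] with k hk
  rw [h.co_K _ hk]

theorem νY_smul (g : G) :
    map (fun y => g • y) h.νY = h.νY.withDensity fun y => eo (-(h.Q * h.co g⁻¹ y)) := by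
  refine ext_lintegral fun F hF => ?_
  have h2 : Measurable fun y => eo (-(h.Q * h.co g⁻¹ y)) :=
    measurable_eo.comp ((h.measurable_co _).const_mul _).neg
  rw [lintegral_map hF (h.measurable_smulY g), h.conformalY g hF,
    lintegral_withDensity_eq_lintegral_mul _ h2 hF]
  exact lintegral_congr fun y => mul_comm _ _

theorem νY_K {κ : G} (hκ : κ ∈ h.K) : map (fun y => κ • y) h.νY = h.νY := by
  rw [h.νY_smul]
  simp only [h.co_of_K (h.K.inv_mem hκ), mul_zero, neg_zero, eo_zero]
  exact withDensity_one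

theorem qmp_smulY (g : G) : QuasiMeasurePreserving (fun y : h.Y => g • y) h.νY h.νY :=
  ⟨h.measurable_smulY g, h.νY_smul g ▸ withDensity_absolutelyContinuous _ _⟩

instance : IsOpenPosMeasure h.νY := ⟨fun U hU ⟨y, hy⟩ => by
  obtain ⟨κ, hκ, rfl⟩ := h.exists_K y
  rw [h.νY_apply hU.measurableSet]
  exact (h.hpK.pos _ (hU.preimage QuotientGroup.continuous_mk) ⟨κ, hy, hκ⟩).ne'⟩

theorem νY_ball (y : h.Y) (x : ℝ) : h.νY {y' | h.dv y y' ≤ x} = h.νK {k | h.bd k ≤ x} := by
  obtain ⟨κ, hκ, rfl⟩ := h.exists_K y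
  have hc : Continuous fun y' => h.dv (κ : h.Y) y' :=
    h.continuous_dv.comp (f := fun y' => ((κ : h.Y), y')) (by fun_prop)
  rw [h.νY_apply (isClosed_le hc continuous_const).measurableSet,
    ← (h.hpK.mp_left (h.K.inv_mem hκ)).measure_preimage
      (h.isClosed_shadow x).measurableSet.nullMeasurableSet]
  refine measure_congr ?_
  filter_upwards [h.hpK.ae] with k hk
  show (h.dv (κ : h.Y) (k : h.Y) ≤ x) = (h.bd (κ⁻¹ * k) ≤ x)
  rw [h.dv_K hκ hk]

theorem νY_ball_le : ∃ C : ℝ, ∀ (y : h.Y) (t : ℝ),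
    h.νY {y' | h.dv y y' ≤ Real.exp (-(2 * t))} ≤ eo (C - h.Q * t) := by
  simp only [h.νY_ball]
  exact h.shadow_le.imp fun C hC _ => hC

theorem le_νY_ball : ∃ C : ℝ, ∀ (y : h.Y) (t : ℝ), 0 ≤ t →
    eo (-C - h.Q * t) ≤ h.νY {y' | h.dv y y' ≤ Real.exp (-(2 * t))} := by
  simp only [h.νY_ball]
  exact h.le_shadow.imp fun C hC _ => hC

theorem νY_singleton (y : h.Y) : h.νY {y} = 0 := by
  obtain ⟨C, hC⟩ := h.νY_ball_le
  refine eq_zero_of_eo h.Q_pos' fun t _ => le_trans (measure_mono ?_) (hC y t)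
  rintro _ rfl
  show h.dv _ _ ≤ _
  rw [h.dv_self]
  exact (Real.exp_pos _).le

instance : NullSingletonClass h.νY := ⟨h.νY_singleton⟩

/-- uniqueness of the `K`-invariant probability measure -/
theorem νY_unique (m : Measure h.Y) [SFinite m] (hm : ∀ κ ∈ h.K, map (fun y => κ • y) m = m) :
    m = m Set.univ • h.νY := by
  refine ext_lintegral fun F hF => ?_
  have h1 : Measurable fun q : G × h.Y => F (q.1 • q.2) := hF.comp continuous_smul.measurable
  have h2 : ∫⁻ k, ∫⁻ y, F (k • y) ∂m ∂h.νK = ∫⁻ y, F y ∂m := by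
    rw [lintegral_congr_ae (g := fun _ => ∫⁻ y, F y ∂m), lintegral_const, measure_univ, mul_one]
    filter_upwards [h.hpK.ae] with k hk
    rw [← lintegral_map hF (h.measurable_smulY k), hm k hk]
  rw [← h2, lintegral_lintegral_swap h1.aemeasurable, lintegral_smul_measure,
    lintegral_congr (g := fun _ => ∫⁻ y, F y ∂h.νY), lintegral_const, smul_eq_mul, mul_comm]
  intro y
  obtain ⟨κ, hκ, rfl⟩ := h.exists_K y
  rw [h.lintegral_νY hF]
  exact (h.hpK.mp_right hκ).lintegral_comp (hF.comp h.measurable_mkY)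

/-- there is no invariant probability measure on the boundary -/
theorem no_inv (m : Measure h.Y) [IsFiniteMeasure m] (hm : ∀ g : G, map (fun y => g • y) m = m) :
    m = 0 := by
  have h1 := h.νY_unique m fun κ _ => hm κ
  by_contra h0
  have h2 : m Set.univ ≠ 0 := measure_univ_ne_zero.2 h0
  have h3 : ∀ g : G, map (fun y => g • y) h.νY = h.νY := fun g => by
    have h4 := hm g
    rw [h1, Measure.map_smul] at h4
    ext s hs
    have h5 := congrArg (fun m : Measure h.Y => m s) h4
    simp only [Measure.smul_apply, smul_eq_mul] at h5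
    exact (ENNReal.mul_right_inj h2 (measure_ne_top _ _)).1 h5
  have hc : Continuous fun y => h.co (h.a 1)⁻¹ y :=
    h.continuous_co.comp (f := fun y => ((h.a 1)⁻¹, y)) (by fun_prop)
  have hm' : Measurable fun y => eo (-(h.Q * h.co (h.a 1)⁻¹ y)) :=
    measurable_eo.comp (hc.measurable.const_mul _).neg
  have h4 := h3 (h.a 1)
  rw [h.νY_smul] at h4
  have h5 : (fun y => eo (-(h.Q * h.co (h.a 1)⁻¹ y))) =ᵐ[h.νY] fun _ => 1 := by
    rw [← withDensity_eq_iff_of_sigmaFinite hm'.aemeasurable aemeasurable_const, h4]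
    exact withDensity_one.symm
  have h6 := congrFun ((Continuous.ae_eq_iff_eq h.νY
    (continuous_eo.comp (continuous_const.mul hc).neg) continuous_const).1 h5) ((1 : G) : h.Y)
  have h7 : eo (-(h.Q * h.co (h.a 1)⁻¹ ((1 : G) : h.Y))) = eo 0 := h6.trans eo_zero.symm
  unfold eo at h7
  rw [ENNReal.ofReal_eq_ofReal_iff (Real.exp_pos _).le (Real.exp_pos _).le, Real.exp_eq_exp,
    h.co_K _ h.K.one_mem, mul_one, ← h.a_neg, h.hs_a] at h7
  linarith [h.Q_pos']

/-- the invariant measure on the cone -/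
noncomputable def νZ : Measure h.Z := map h.zH (h.νY.prod (eμ h.Q))

theorem lintegral_νZ {F : h.Z → ℝ≥0∞} (hF : Measurable F) :
    ∫⁻ z, F z ∂h.νZ = ∫⁻ y, ∫⁻ s, F (h.dl s (h.sec y)) ∂eμ h.Q ∂h.νY := by
  have h1 : Measurable fun q => F (h.zH q) := hF.comp h.zH.measurable
  unfold νZ
  rw [lintegral_map hF h.zH.measurable, lintegral_prod _ h1.aemeasurable]
  rfl

theorem lintegral_νZ' {F : h.Z → ℝ≥0∞} (hF : Measurable F) :
    ∫⁻ z, F z ∂h.νZ = ∫⁻ k, ∫⁻ s, F ((k * h.a s : G) : h.Z) ∂eμ h.Q ∂h.νK := by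
  have h1 : Measurable fun q => F (h.zH q) := hF.comp h.zH.measurable
  have h2 : Measurable fun y => ∫⁻ s, F (h.dl s (h.sec y)) ∂eμ h.Q := h1.lintegral_prod_right'
  rw [h.lintegral_νZ hF, h.lintegral_νY h2]
  refine lintegral_congr_ae ?_
  filter_upwards [h.hpK.ae] with k hk
  simp only [h.sec_K hk, h.dl_mk]

instance : IsFiniteMeasureOnCompacts h.νZ := IsFiniteMeasureOnCompacts.map _ h.zH

instance : IsLocallyFiniteMeasure h.νZ := inferInstance

instance : IsOpenPosMeasure h.νZ := h.zH.continuous.isOpenPosMeasure_map h.zH.surjective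

theorem νZ_smul (g : G) : map (fun z => g • z) h.νZ = h.νZ := by
  refine ext_lintegral fun F hF => ?_
  have h1 : Measurable fun z => F (g • z) := hF.comp (h.measurable_smulZ g)
  rw [lintegral_map hF (h.measurable_smulZ g), h.lintegral_νZ' h1, h.lintegral_νZ' hF]
  exact h.cone_inv g (F := fun x => F (x : h.Z)) (hF.comp h.measurable_mkZ)
    fun x u hu => by rw [h.mkZ_mul (h.N_le_MN hu)]

theorem mp_smulZ (g : G) : MeasurePreserving (fun z : h.Z => g • z) h.νZ h.νZ :=
  ⟨h.measurable_smulZ g, h.νZ_smul g⟩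

instance : SMulInvariantMeasure G h.Z h.νZ :=
  ⟨fun g s hs => (h.mp_smulZ g).measure_preimage hs.nullMeasurableSet⟩

theorem νZ_dl (t : ℝ) : map (h.dl t) h.νZ = eo (-(h.Q * t)) • h.νZ := by
  have h1 : map (Prod.map id fun s => s + t) (h.νY.prod (eμ h.Q)) =
      eo (-(h.Q * t)) • h.νY.prod (eμ h.Q) := by
    rw [← map_prod_map _ _ measurable_id (measurable_add_const t), map_eμ, Measure.map_id,
      prod_smul_right]
  unfold νZ
  rw [map_map (h.continuous_dl' t).measurable h.zH.measurable, ← Measure.map_smul, ← h1,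
    map_map h.zH.measurable (measurable_id.prodMap (measurable_add_const t))]
  congr 1
  funext q
  show h.dl t (h.dl q.2 _) = h.dl (q.2 + t) _
  rw [add_comm, h.dl_add]
  rfl

theorem νZ_fibre (y : h.Y) : h.νZ {z | h.dir z = y} = 0 := by
  unfold νZ
  rw [map_apply h.zH.measurable (isClosed_eq h.continuous_dir continuous_const).measurableSet]
  have : h.zH ⁻¹' {z | h.dir z = y} = {y} ×ˢ Set.univ := by
    ext q
    show h.dir (h.dl _ _) = y ↔ _
    rw [h.dir_dl, h.dir_sec]
    simp
  rw [this, prod_prod, h.νY_singleton, zero_mul]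

theorem ae_dd_pos (z : h.Z) : ∀ᵐ z' ∂h.νZ, 0 < h.dd z z' := by
  filter_upwards [measure_eq_zero_iff_ae_notMem.1 (h.νZ_fibre (h.dir z))] with z' hz'
  exact h.dd_pos fun e => hz' e.symm

/-! ### the Haar measures of `N` and `M N` -/

/-- the Haar measure of `N` -/
noncomputable def μN : Measure G := map h.nE volume

instance : SFinite h.μN := by unfold μN; infer_instance

theorem lintegral_μN {F : G → ℝ≥0∞} (hF : Measurable F) :
    ∫⁻ u, F u ∂h.μN = ∫⁻ p, F (h.nE p) := lintegral_map hF h.measurable_nE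

theorem μN_ae : ∀ᵐ u ∂h.μN, u ∈ h.N :=
  (ae_map_iff h.measurable_nE.aemeasurable h.isClosed_N.measurableSet).2
    (Eventually.of_forall h.nE_mem)

theorem μN_aux {f : G → G} (hf : Measurable f) {φ : h.EN → h.EN}
    (hφ : MeasurePreserving φ volume volume) (e : ∀ q, f (h.nE q) = h.nE (φ q)) :
    MeasurePreserving f h.μN h.μN := by
  refine ⟨hf, ?_⟩
  unfold μN
  rw [map_map hf h.measurable_nE]
  conv_rhs => rw [← hφ.map_eq, map_map h.measurable_nE hφ.measurable]
  congr 1
  funext q
  exact e q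

theorem μN_left {u : G} (hu : u ∈ h.N) : MeasurePreserving (fun g => u * g) h.μN h.μN :=
  h.μN_aux (measurable_const_mul u) (h.mp_mulE_left (h.nC u)) fun q => by
    rw [← h.nE_mul, h.nE_nC hu]

theorem μN_right {u : G} (hu : u ∈ h.N) : MeasurePreserving (fun g => g * u) h.μN h.μN :=
  h.μN_aux (measurable_mul_const u) (h.mp_mulE_right (h.nC u)) fun q => by
    rw [← h.nE_mul, h.nE_nC hu]

theorem μN_inv : MeasurePreserving (fun g => g⁻¹) h.μN h.μN :=
  h.μN_aux measurable_inv h.mp_neg fun q => (h.nE_neg q).symm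

theorem μN_conj_M {m : G} (hm : m ∈ h.M) : MeasurePreserving (fun g => m * g * m⁻¹) h.μN h.μN :=
  h.μN_aux ((measurable_const_mul m).mul_const _) (h.mp_rot hm) (h.conj_nE hm.2)

theorem μN_conj_a (s : ℝ) :
    map (fun g => h.a s * g * (h.a s)⁻¹) h.μN = eo (-(h.Q * s)) • h.μN := by
  unfold μN
  rw [map_map ((measurable_const_mul _).mul_const _) h.measurable_nE, ← Measure.map_smul]
  unfold eo
  rw [← h.map_dil, map_map h.measurable_nE (h.measurable_dil s)]
  congr 1
  funext q
  exact h.a_conj_nE s q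

instance : IsFiniteMeasureOnCompacts h.μN := ⟨fun C hC => by
  haveI := t2 h.rs.emb
  unfold μN
  rw [map_apply h.measurable_nE hC.measurableSet]
  exact (h.isClosedEmbedding_nE.isCompact_preimage hC).measure_lt_top⟩

/-- the Haar measure of `M N` -/
noncomputable def μMN : Measure G := map (fun q : G × G => q.1 * q.2) (h.μN.prod h.νM)

instance : SFinite h.μMN := by unfold μMN; infer_instance

theorem lintegral_μMN {F : G → ℝ≥0∞} (hF : Measurable F) :
    ∫⁻ x, F x ∂h.μMN = ∫⁻ u, ∫⁻ m, F (u * m) ∂h.νM ∂h.μN := by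
  have h1 : Measurable fun q : G × G => F (q.1 * q.2) := hF.comp measurable_mul
  unfold μMN
  rw [lintegral_map hF measurable_mul, lintegral_prod _ h1.aemeasurable]

theorem lintegral_μMN' {F : G → ℝ≥0∞} (hF : Measurable F) :
    ∫⁻ x, F x ∂h.μMN = ∫⁻ m, ∫⁻ u, F (m * u) ∂h.μN ∂h.νM := by
  have h1 : Measurable fun q : G × G => F (q.1 * q.2) := hF.comp measurable_mul
  rw [h.lintegral_μMN hF, lintegral_lintegral_swap h1.aemeasurable]
  refine lintegral_congr_ae ?_
  filter_upwards [h.hpM.ae] with m hm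
  have h2 : Measurable fun u => F (u * m) := hF.comp (measurable_mul_const m)
  rw [← (h.μN_conj_M hm).lintegral_comp h2]
  simp only [inv_mul_cancel_right]

theorem μMN_ae : ∀ᵐ x ∂h.μMN, x ∈ h.MN := by
  refine (ae_map_iff measurable_mul.aemeasurable h.isClosed_MN.measurableSet).2 ?_
  filter_upwards [quasiMeasurePreserving_fst.ae h.μN_ae, quasiMeasurePreserving_snd.ae h.hpM.ae]
    with q h1 h2
  exact h.MN.mul_mem (h.N_le_MN h1) (h.M_le_MN h2)

theorem μMN_left {x : G} (hx : x ∈ h.MN) : map (fun g => x * g) h.μMN = h.μMN := by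
  obtain ⟨m, hm, u, hu, rfl⟩ := h.mem_MN.1 hx
  refine ext_lintegral fun F hF => ?_
  have h1 : Measurable fun g => F (m * u * g) := hF.comp (measurable_const_mul _)
  have h2 : Measurable fun g => F (m * g) := hF.comp (measurable_const_mul _)
  have h3 : Measurable fun q : G × G => F (m * (q.1 * q.2)) := h2.comp measurable_mul
  have h4 : Measurable fun q : G × G => F (q.1 * q.2) := hF.comp measurable_mul
  rw [lintegral_map hF (measurable_const_mul _), h.lintegral_μMN h1, h.lintegral_μMN' hF,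
    ← (h.hpM.mp_left hm).lintegral_comp h4.lintegral_prod_right']
  simp only [mul_assoc]
  rw [← h.lintegral_μMN' h2, h.lintegral_μMN h2,
    ← (h.μN_left hu).lintegral_comp h3.lintegral_prod_right']
  simp only [mul_assoc]

instance : IsFiniteMeasureOnCompacts h.μMN := ⟨fun C hC => by
  haveI := t2 h.rs.emb
  have h1 := (hC.prod h.isCompact_M).image (f := fun q : G × G => q.1 * q.2⁻¹) (by fun_prop)
  unfold μMN
  rw [map_apply measurable_mul hC.measurableSet]
  refine lt_of_le_of_lt (measure_mono_ae (t :=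
    ((fun q : G × G => q.1 * q.2⁻¹) '' (C ×ˢ (h.M : Set G))) ×ˢ Set.univ) ?_) ?_
  · filter_upwards [quasiMeasurePreserving_snd.ae h.hpM.ae] with q hq hq'
    exact ⟨⟨(q.1 * q.2, q.2), ⟨hq', hq⟩, mul_inv_cancel_right _ _⟩, trivial⟩
  · rw [prod_prod, measure_univ, mul_one]
    exact h1.measure_lt_top⟩

/-- the Haar measure on the fibre over a point of the cone -/
noncomputable def fib (z : h.Z) : Measure G :=
  Quotient.liftOn' z (fun g => map (fun x => g * x) h.μMN) fun a b e => by
    obtain ⟨x, hx, rfl⟩ := rel_elim e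
    show Measure.map _ _ = Measure.map _ _
    conv_lhs => rw [← h.μMN_left hx, map_map (measurable_const_mul _) (measurable_const_mul _)]
    congr 1
    funext y
    exact (mul_assoc _ _ _).symm

theorem lintegral_fib (g : G) {F : G → ℝ≥0∞} (hF : Measurable F) :
    ∫⁻ x, F x ∂h.fib (g : h.Z) = ∫⁻ x, F (g * x) ∂h.μMN :=
  lintegral_map hF (measurable_const_mul g)

theorem measurable_fib : Measurable h.fib := by
  refine QuotientGroup.measurable_from_quotient.2 (measurable_of_measurable_coe _ fun s hs => ?_)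
  have e : (fun g : G => (h.fib ∘ fun g : G => (g : h.Z)) g s) =
      fun g => h.μMN (Prod.mk g ⁻¹' {q : G × G | q.1 * q.2 ∈ s}) :=
    funext fun g => map_apply (measurable_const_mul g) hs
  rw [e]
  exact measurable_measure_prodMk_left (measurable_mul hs)

theorem measurable_lintegral_fib {F : G → ℝ≥0∞} (hF : Measurable F) :
    Measurable fun z => ∫⁻ x, F x ∂h.fib z := (measurable_lintegral hF).comp h.measurable_fib

theorem fib_smul (g : G) (z : h.Z) {F : G → ℝ≥0∞} (hF : Measurable F) :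
    ∫⁻ x, F x ∂h.fib (g • z) = ∫⁻ x, F (g * x) ∂h.fib z := by
  induction z using QuotientGroup.induction_on
  have h1 : Measurable fun x => F (g * x) := hF.comp (measurable_const_mul g)
  rw [h.smul_mkZ, h.lintegral_fib _ hF, h.lintegral_fib _ h1]
  simp only [mul_assoc]

theorem bind_fib [LocallyCompactSpace G] (μ : Measure G) [μ.IsHaarMeasure] (m : Measure h.Z)
    [IsFiniteMeasureOnCompacts m] (hm : ∀ g : G, map (fun z => g • z) m = m) :
    ∃ c : ℝ≥0, m.bind h.fib = c • μ := by
  haveI := t2 h.rs.emb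
  haveI : (m.bind h.fib).IsMulLeftInvariant := ⟨fun g => ext_lintegral fun F hF => by
    have h1 : Measurable fun x => F (g * x) := hF.comp (measurable_const_mul g)
    rw [lintegral_map hF (measurable_const_mul g),
      lintegral_bind h.measurable_fib.aemeasurable h1.aemeasurable,
      lintegral_bind h.measurable_fib.aemeasurable hF.aemeasurable]
    conv_rhs => rw [← hm g, lintegral_map (h.measurable_lintegral_fib hF) (h.measurable_smulZ g)]
    exact lintegral_congr fun z => (h.fib_smul g z hF).symm⟩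
  haveI : IsFiniteMeasureOnCompacts (m.bind h.fib) := ⟨fun C hC => by
    have h1 := (hC.prod hC).image (f := fun q : G × G => q.1⁻¹ * q.2) (by fun_prop)
    have h2 := hC.image (QuotientGroup.continuous_mk (N := h.MN))
    rw [bind_apply hC.measurableSet h.measurable_fib.aemeasurable]
    refine lt_of_le_of_lt (lintegral_mono (g := (QuotientGroup.mk '' C).indicator fun _ =>
      h.μMN ((fun q : G × G => q.1⁻¹ * q.2) '' (C ×ˢ C))) fun z => ?_) ?_
    · by_cases hz : z ∈ QuotientGroup.mk '' C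
      · rw [Set.indicator_of_mem hz]
        obtain ⟨g, hg, rfl⟩ := hz
        show Measure.map _ _ C ≤ _
        rw [map_apply (measurable_const_mul g) hC.measurableSet]
        exact measure_mono fun x hx => ⟨(g, g * x), ⟨hg, hx⟩, inv_mul_cancel_left _ _⟩
      · rw [Set.indicator_of_notMem hz]
        induction z using QuotientGroup.induction_on with
        | H g =>
          show Measure.map _ _ C ≤ _
          rw [map_apply (measurable_const_mul g) hC.measurableSet]
          refine le_of_eq (measure_eq_zero_iff_ae_notMem.2 ?_)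
          filter_upwards [h.μMN_ae] with x hx hx'
          exact hz ⟨_, hx', h.mkZ_mul hx⟩
    · rw [lintegral_indicator_const h2.measurableSet]
      exact ENNReal.mul_lt_top h1.measure_lt_top h2.measure_lt_top⟩
  exact ⟨_, isMulLeftInvariant_eq_smul _ μ⟩

/-- a function with fibre integrals one -/
theorem exists_bruhat : ∃ φ : G → ℝ≥0∞, Measurable φ ∧ ∀ z, ∫⁻ x, φ x ∂h.fib z = 1 := by
  have hc := h.continuous_gau
  have hS : MeasurableSet {p | h.gau p ≤ 1} := (h.isCompact_gau 1).measurableSet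
  have h0 : volume {p | h.gau p ≤ 1} ≠ 0 := fun h0 =>
    (isOpen_lt hc continuous_const).measure_ne_zero volume
      (show {p | h.gau p < 1}.Nonempty from ⟨0, by simp [h.gau_eq_zero.2 rfl]⟩)
      (measure_mono_null (fun p hp => le_of_lt (α := ℝ) hp) h0)
  have h1 : volume {p | h.gau p ≤ 1} ≠ ⊤ := (h.isCompact_gau 1).measure_lt_top.ne
  obtain ⟨ψ, hψ⟩ : ∃ ψ : h.EN → ℝ≥0∞, ψ = {p | h.gau p ≤ 1}.indicator
    fun _ => (volume {p | h.gau p ≤ 1})⁻¹ := ⟨_, rfl⟩
  have h2 : Measurable ψ := hψ ▸ measurable_const.indicator hS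
  have h3 : ∫⁻ p, ψ p = 1 := by
    rw [hψ, lintegral_indicator_const hS, ENNReal.inv_mul_cancel h0 h1]
  have h4 : Measurable fun u => ψ (h.nC u) := h2.comp h.continuous_nC.measurable
  have h5 : Measurable fun g => ψ (h.nC (h.iu g)) := h4.comp h.continuous_iu.measurable
  refine ⟨_, h5, fun z => ?_⟩
  obtain ⟨κ, hκ, e⟩ := h.exists_Ka z
  have h6 : Measurable fun x => ψ (h.nC (h.iu (κ * h.a (h.ht z) * x))) :=
    h5.comp (measurable_const_mul _)
  rw [← e, h.lintegral_fib _ h5, h.lintegral_μMN' h6, lintegral_congr_ae (g := fun _ => 1),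
    lintegral_const, measure_univ, mul_one]
  filter_upwards [h.hpM.ae] with m hm
  have h7 : Measurable fun u => ψ (h.nC (h.iu (κ * h.a (h.ht z) * (m * u)))) :=
    h6.comp (measurable_const_mul m)
  rw [← h3, h.lintegral_μN h7]
  refine lintegral_congr fun p => ?_
  have e' : κ * h.a (h.ht z) * (m * h.nE p) = κ * m * h.a (h.ht z) * h.nE p := by
    rw [mul_assoc κ m, h.L_comm_a hm.2]; simp only [mul_assoc]
  show ψ (h.nC (h.iu (κ * h.a (h.ht z) * (m * h.nE p)))) = _
  rw [e', h.iu_kan (h.K.mul_mem hκ hm.1) _ (h.nE_mem p), h.nC_nE]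

theorem lintegral_eq_bind {φ : G → ℝ≥0∞} (hφ : Measurable φ) (h1 : ∀ z, ∫⁻ x, φ x ∂h.fib z = 1)
    (m : Measure h.Z) {F : h.Z → ℝ≥0∞} (hF : Measurable F) :
    ∫⁻ z, F z ∂m = ∫⁻ g, F (g : h.Z) * φ g ∂m.bind h.fib := by
  have h2 : Measurable fun g : G => F (g : h.Z) * φ g := (hF.comp h.measurable_mkZ).mul hφ
  rw [lintegral_bind h.measurable_fib.aemeasurable h2.aemeasurable]
  refine lintegral_congr fun z => ?_
  rw [← mul_one (F z), ← h1 z, ← lintegral_const_mul _ hφ]
  induction z using QuotientGroup.induction_on with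
  | H g =>
    rw [h.lintegral_fib _ h2, h.lintegral_fib _ (hφ.const_mul _)]
    refine lintegral_congr_ae ?_
    filter_upwards [h.μMN_ae] with x hx
    rw [h.mkZ_mul hx]

/-- Weil's formula -/
theorem weil [LocallyCompactSpace G] (μ : Measure G) [μ.IsHaarMeasure] :
    ∃ c : ℝ≥0, c ≠ 0 ∧ h.νZ.bind h.fib = c • μ := by
  obtain ⟨c, hc⟩ := h.bind_fib μ h.νZ h.νZ_smul
  refine ⟨c, ?_, hc⟩
  rintro rfl
  obtain ⟨φ, hφ, h1⟩ := h.exists_bruhat
  have h2 := h.lintegral_eq_bind hφ h1 h.νZ (F := fun _ => 1) measurable_const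
  rw [hc, zero_smul, lintegral_zero_measure, lintegral_const, one_mul] at h2
  exact isOpen_univ.measure_ne_zero h.νZ ⟨((1 : G) : h.Z), trivial⟩ h2

/-- uniqueness of the invariant measure on the cone -/
theorem νZ_unique (m : Measure h.Z) (hm : ∀ g : G, map (fun z => g • z) m = m) {U : Set h.Z}
    (hU : IsOpen U) (hne : U.Nonempty) (hfin : m U < ⊤) : ∃ c : ℝ≥0, m = c • h.νZ := by
  haveI := locComp h.rs.emb
  haveI : IsLocallyFiniteMeasure m := ⟨fun z => by
    obtain ⟨z', hz'⟩ := hne
    obtain ⟨g, hg⟩ := MulAction.exists_smul_eq G z z'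
    refine ⟨(fun z => g • z) ⁻¹' U, (hU.preimage (continuous_const_smul g)).mem_nhds
      (by rwa [Set.mem_preimage, hg]), ?_⟩
    rwa [← map_apply (h.measurable_smulZ g) hU.measurableSet, hm]⟩
  obtain ⟨c, hc⟩ := h.bind_fib haar m hm
  obtain ⟨c', hc', e⟩ := h.weil haar
  obtain ⟨φ, hφ, h1⟩ := h.exists_bruhat
  refine ⟨c * c'⁻¹, ext_lintegral fun F hF => ?_⟩
  rw [lintegral_smul_measure, h.lintegral_eq_bind hφ h1 m hF, h.lintegral_eq_bind hφ h1 h.νZ hF,
    hc, e, lintegral_smul_measure, lintegral_smul_measure, smul_smul, inv_mul_cancel_right₀ hc']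

end R1

end Vale.Agent.P092RG
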