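import Vale.Agent.P092RG.Vol
import Mathlib.Topology.Algebra.ProperAction.Basic
import Mathlib.MeasureTheory.Constructions.Polish.Basic

/-!
P092, rank one (helper76): the cone `Z = G / M N` and the boundary `Y = G / P`.
-/

set_option linter.all false

open Filter Topology

namespace Vale.Agent.P092RG

open Vale.Agent.P092.H793.Re

variable {n : ℕ} {G : Type} [Group G] [TopologicalSpace G]
variable {ρ : G →* SLn n} {w : Fin n → ℝ}

namespace R1

variable (h : R1 ρ w)
include h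

theorem hs_inv_P {p : G} (hp : p ∈ h.P) : h.hs p⁻¹ = -h.hs p := by
  have := h.hs_mul_P p⁻¹ hp
  rw [inv_mul_cancel, h.hs_one] at this
  linarith

/-- the group `M N` -/
def MN : Subgroup G where
  carrier := {g | g ∈ h.P ∧ h.hs g = 0}
  one_mem' := ⟨h.P.one_mem, h.hs_one⟩
  mul_mem' := fun h1 h2 => ⟨h.P.mul_mem h1.1 h2.1, by rw [h.hs_mul_P _ h2.1, h1.2, h2.2, add_zero]⟩
  inv_mem' := fun h1 => ⟨h.P.inv_mem h1.1, by rw [h.hs_inv_P h1.1, h1.2, neg_zero]⟩

theorem mem_MN {g : G} : g ∈ h.MN ↔ ∃ m ∈ h.M, ∃ u ∈ h.N, g = m * u := by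
  constructor
  · rintro ⟨h1, h2⟩
    obtain ⟨m, hm, s, u, hu, rfl⟩ := h.P_decomp' h1
    rw [h.hs_kan hm.1 s hu] at h2
    exact ⟨m, hm, u, hu, by rw [h2, h.a_zero, mul_one]⟩
  · rintro ⟨m, hm, u, hu, rfl⟩
    exact ⟨h.P.mul_mem (h.M_le_P hm) (h.N_le_P hu), by rw [h.hs_mul_N _ hu, h.hs_K hm.1]⟩

theorem MN_le_P : h.MN ≤ h.P := fun _ hg => hg.1

theorem M_le_MN : h.M ≤ h.MN := fun m hm => ⟨h.M_le_P hm, h.hs_K hm.1⟩

theorem N_le_MN : h.N ≤ h.MN := fun u hu => ⟨h.N_le_P hu, h.hs_N hu⟩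

theorem isClosed_MN : IsClosed (h.MN : Set G) :=
  h.isClosed_P.inter (isClosed_eq h.continuous_hs continuous_const)

theorem conj_MN {p x : G} (hp : p ∈ h.P) (hx : x ∈ h.MN) : p⁻¹ * x * p ∈ h.MN :=
  ⟨h.P.mul_mem (h.P.mul_mem (h.P.inv_mem hp) hx.1) hp, by
    rw [h.hs_mul_P _ hp, h.hs_mul_P _ hx.1, h.hs_inv_P hp, hx.2]; ring⟩

theorem hs_mul_MN (g : G) {x : G} (hx : x ∈ h.MN) : h.hs (g * x) = h.hs g := by
  rw [h.hs_mul_P _ hx.1, hx.2, add_zero]

theorem bd_mul_MN (g : G) {x : G} (hx : x ∈ h.MN) : h.bd (g * x) = h.bd g := by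
  rw [h.bd_mul_P _ hx.1, hx.2, Real.exp_zero, one_mul]

theorem bd_MN_mul {x : G} (hx : x ∈ h.MN) (g : G) : h.bd (x * g) = h.bd g := by
  rw [h.bd_P_mul hx.1, hx.2, neg_zero, Real.exp_zero, one_mul]

theorem ik_mul_P (g : G) {p : G} (hp : p ∈ h.P) : ∃ m ∈ h.M, h.ik (g * p) = h.ik g * m := by
  obtain ⟨m, hm, s, u, hu, rfl⟩ := h.P_decomp' hp
  exact ⟨m, hm, by rw [← mul_assoc, ← mul_assoc, h.ik_mul_N _ hu, h.ik_mul_a, h.ik_mul_M _ hm]⟩

theorem polish : PolishSpace G := by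
  haveI : PolishSpace (Mat n) := inferInstanceAs (PolishSpace (Fin n → Fin n → ℝ))
  exact (emb_mat h.rs.emb).polishSpace

/-- the cone -/
abbrev Z (h : R1 ρ w) : Type := G ⧸ h.MN

/-- the boundary -/
abbrev Y (h : R1 ρ w) : Type := G ⧸ h.P

instance : T2Space h.Z := by
  haveI := topGroup h.rs.emb
  haveI := h.isClosed_MN
  infer_instance

instance : T2Space h.Y := by
  haveI := topGroup h.rs.emb
  haveI := h.isClosed_P
  infer_instance

instance : SecondCountableTopology h.Z := by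
  haveI := topGroup h.rs.emb
  haveI := secCount h.rs.emb
  infer_instance

instance : SecondCountableTopology h.Y := by
  haveI := topGroup h.rs.emb
  haveI := secCount h.rs.emb
  infer_instance

instance : LocallyCompactSpace h.Z := by
  haveI := topGroup h.rs.emb
  haveI := locComp h.rs.emb
  infer_instance

instance : ContinuousSMul G h.Z := by
  haveI := topGroup h.rs.emb
  infer_instance

instance : ContinuousSMul G h.Y := by
  haveI := topGroup h.rs.emb
  infer_instance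

instance [MeasurableSpace G] [BorelSpace G] : BorelSpace h.Z := by
  haveI := h.polish
  infer_instance

instance [MeasurableSpace G] [BorelSpace G] : BorelSpace h.Y := by
  haveI := h.polish
  infer_instance

theorem mkY_ik (g : G) : ((h.ik g : G) : h.Y) = (g : h.Y) :=
  QuotientGroup.eq.2 (h.B_le_P (h.ik_inv_mul g))

theorem exists_K (y : h.Y) : ∃ κ ∈ h.K, (κ : h.Y) = y := by
  obtain ⟨g, rfl⟩ := QuotientGroup.mk_surjective y
  exact ⟨_, h.ik_mem g, h.mkY_ik g⟩

instance : CompactSpace h.Y := ⟨by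
  have := h.isCompact_K.image (QuotientGroup.continuous_mk (N := h.P))
  convert this using 1
  exact (Set.eq_univ_of_forall fun y => h.exists_K y).symm⟩

theorem smul_mkZ (g x : G) : g • (x : h.Z) = ((g * x : G) : h.Z) := rfl

theorem smul_mkY (g x : G) : g • (x : h.Y) = ((g * x : G) : h.Y) := rfl

theorem mkZ_mul {g x : G} (hx : x ∈ h.MN) : ((g * x : G) : h.Z) = (g : h.Z) :=
  QuotientGroup.mk_mul_of_mem g hx

theorem mkY_mul {g x : G} (hx : x ∈ h.P) : ((g * x : G) : h.Y) = (g : h.Y) :=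
  QuotientGroup.mk_mul_of_mem g hx

omit h in
theorem rel_elim {H : Subgroup G} {a b : G} (e : (QuotientGroup.leftRel H) a b) :
    ∃ x ∈ H, b = a * x :=
  ⟨_, QuotientGroup.leftRel_apply.1 e, (mul_inv_cancel_left a b).symm⟩

omit h in
theorem continuous_quo [IsTopologicalGroup G] {H : Subgroup G} {X : Type*} [TopologicalSpace X]
    {f : G ⧸ H → X} (hf : Continuous fun g : G => f g) : Continuous f :=
  (QuotientGroup.isQuotientMap_mk H).continuous_iff.2 hf

omit h in
theorem continuous_quo₂ [IsTopologicalGroup G] {H H' : Subgroup G} {X : Type*}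
    [TopologicalSpace X] {f : (G ⧸ H) × (G ⧸ H') → X}
    (hf : Continuous fun q : G × G => f (q.1, q.2)) : Continuous f :=
  (QuotientGroup.isOpenQuotientMap_mk.prodMap
    QuotientGroup.isOpenQuotientMap_mk).continuous_comp_iff.1 hf

omit h in
theorem continuous_quo_snd [IsTopologicalGroup G] {H : Subgroup G} {X A : Type*}
    [TopologicalSpace X] [TopologicalSpace A] {f : A × (G ⧸ H) → X}
    (hf : Continuous fun q : A × G => f (q.1, q.2)) : Continuous f :=
  (IsOpenQuotientMap.id.prodMap QuotientGroup.isOpenQuotientMap_mk).continuous_comp_iff.1 hf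

/-- the height on the cone -/
noncomputable def ht (z : h.Z) : ℝ := Quotient.liftOn' z h.hs fun a b e => by
  obtain ⟨x, hx, rfl⟩ := rel_elim e
  exact (h.hs_mul_MN a hx).symm

/-- the dilations of the cone -/
noncomputable def dl (s : ℝ) (z : h.Z) : h.Z := Quotient.liftOn' z (fun g => ((g * h.a s : G) : h.Z))
  fun a b e => by
    obtain ⟨x, hx, rfl⟩ := rel_elim e
    refine QuotientGroup.eq.2 ?_
    have := h.conj_MN (h.a_mem_P s) hx
    convert this using 1
    group

/-- the direction -/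
noncomputable def dir (z : h.Z) : h.Y := Quotient.liftOn' z (fun g => (g : h.Y)) fun a b e => by
  obtain ⟨x, hx, rfl⟩ := rel_elim e
  exact (h.mkY_mul hx.1).symm

/-- the invariant pairing on the cone -/
noncomputable def dd (z z' : h.Z) : ℝ := Quotient.liftOn₂' z z' (fun g g' => h.bd (g⁻¹ * g'))
  fun a b a' b' e e' => by
    obtain ⟨x, hx, rfl⟩ := rel_elim e
    obtain ⟨x', hx', rfl⟩ := rel_elim e'
    show h.bd _ = h.bd _
    rw [_root_.mul_inv_rev, mul_assoc, h.bd_MN_mul (h.MN.inv_mem hx), ← mul_assoc,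
      h.bd_mul_MN _ hx']

/-- the section of height zero -/
noncomputable def sec (y : h.Y) : h.Z := Quotient.liftOn' y (fun g => ((h.ik g : G) : h.Z))
  fun a b e => by
    obtain ⟨x, hx, rfl⟩ := rel_elim e
    obtain ⟨m, hm, e'⟩ := h.ik_mul_P a hx
    show ((h.ik a : G) : h.Z) = ((h.ik (a * x) : G) : h.Z)
    rw [e', h.mkZ_mul (h.M_le_MN hm)]

/-- the square of the visual distance -/
noncomputable def dv (y y' : h.Y) : ℝ := h.dd (h.sec y) (h.sec y')

/-- the Busemann cocycle -/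
noncomputable def co (g : G) (y : h.Y) : ℝ := h.ht (g • h.sec y)

theorem ht_mk (g : G) : h.ht (g : h.Z) = h.hs g := rfl

theorem dl_mk (s : ℝ) (g : G) : h.dl s (g : h.Z) = ((g * h.a s : G) : h.Z) := rfl

theorem dir_mk (g : G) : h.dir (g : h.Z) = (g : h.Y) := rfl

theorem dd_mk (g g' : G) : h.dd (g : h.Z) (g' : h.Z) = h.bd (g⁻¹ * g') := rfl

theorem sec_mk (g : G) : h.sec (g : h.Y) = ((h.ik g : G) : h.Z) := rfl

theorem sec_K {κ : G} (hκ : κ ∈ h.K) : h.sec (κ : h.Y) = (κ : h.Z) := by rw [h.sec_mk, h.ik_K hκ]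

theorem dv_mk (g g' : G) : h.dv (g : h.Y) (g' : h.Y) = h.bd ((h.ik g)⁻¹ * h.ik g') := rfl

theorem dv_K {κ κ' : G} (hκ : κ ∈ h.K) (hκ' : κ' ∈ h.K) :
    h.dv (κ : h.Y) (κ' : h.Y) = h.bd (κ⁻¹ * κ') := by rw [h.dv_mk, h.ik_K hκ, h.ik_K hκ']

theorem co_mk (g x : G) : h.co g (x : h.Y) = h.hs (g * h.ik x) := rfl

theorem co_K (g : G) {κ : G} (hκ : κ ∈ h.K) : h.co g (κ : h.Y) = h.hs (g * κ) := by
  rw [h.co_mk, h.ik_K hκ]

theorem continuous_ht : Continuous h.ht := by
  haveI := topGroup h.rs.emb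
  exact continuous_quo h.continuous_hs

theorem continuous_dl : Continuous fun q : ℝ × h.Z => h.dl q.1 q.2 := by
  haveI := topGroup h.rs.emb
  have := h.continuous_a
  exact continuous_quo_snd (QuotientGroup.continuous_mk.comp
    (f := fun q : ℝ × G => q.2 * h.a q.1) (by fun_prop))

theorem continuous_dl' (s : ℝ) : Continuous (h.dl s) :=
  h.continuous_dl.comp (f := fun z => (s, z)) (by fun_prop)

theorem continuous_dir : Continuous h.dir := by
  haveI := topGroup h.rs.emb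
  exact continuous_quo QuotientGroup.continuous_mk

theorem continuous_dd : Continuous fun q : h.Z × h.Z => h.dd q.1 q.2 := by
  haveI := topGroup h.rs.emb
  exact continuous_quo₂ (h.continuous_bd.comp (f := fun q : G × G => q.1⁻¹ * q.2) (by fun_prop))

theorem continuous_sec : Continuous h.sec := by
  haveI := topGroup h.rs.emb
  exact continuous_quo (QuotientGroup.continuous_mk.comp h.continuous_ik)

theorem continuous_dv : Continuous fun q : h.Y × h.Y => h.dv q.1 q.2 :=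
  h.continuous_dd.comp (f := fun q : h.Y × h.Y => (h.sec q.1, h.sec q.2))
    ((h.continuous_sec.comp continuous_fst).prodMk (h.continuous_sec.comp continuous_snd))

theorem continuous_co : Continuous fun q : G × h.Y => h.co q.1 q.2 :=
  h.continuous_ht.comp (continuous_fst.smul (h.continuous_sec.comp continuous_snd))

theorem dl_add (s t : ℝ) (z : h.Z) : h.dl (s + t) z = h.dl s (h.dl t z) := by
  induction z using QuotientGroup.induction_on
  rw [h.dl_mk, h.dl_mk, h.dl_mk, add_comm, h.a_add, mul_assoc]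

theorem dl_zero (z : h.Z) : h.dl 0 z = z := by
  induction z using QuotientGroup.induction_on
  rw [h.dl_mk, h.a_zero, mul_one]

theorem smul_dl (g : G) (s : ℝ) (z : h.Z) : g • h.dl s z = h.dl s (g • z) := by
  induction z using QuotientGroup.induction_on
  rw [h.dl_mk, h.smul_mkZ, h.smul_mkZ, h.dl_mk, mul_assoc]

theorem ht_dl (s : ℝ) (z : h.Z) : h.ht (h.dl s z) = h.ht z + s := by
  induction z using QuotientGroup.induction_on
  exact h.hs_mul_a _ s

theorem dir_dl (s : ℝ) (z : h.Z) : h.dir (h.dl s z) = h.dir z := by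
  induction z using QuotientGroup.induction_on
  exact h.mkY_mul (h.a_mem_P s)

theorem dir_smul (g : G) (z : h.Z) : h.dir (g • z) = g • h.dir z := by
  induction z using QuotientGroup.induction_on
  rfl

theorem dir_sec (y : h.Y) : h.dir (h.sec y) = y := by
  induction y using QuotientGroup.induction_on
  exact h.mkY_ik _

theorem ht_sec (y : h.Y) : h.ht (h.sec y) = 0 := by
  induction y using QuotientGroup.induction_on
  exact h.hs_K (h.ik_mem _)

theorem dl_sec_dir (z : h.Z) : h.dl (h.ht z) (h.sec (h.dir z)) = z := by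
  induction z using QuotientGroup.induction_on with
  | H g =>
    show ((h.ik g * h.a (h.hs g) : G) : h.Z) = g
    conv_rhs => rw [← h.iwa_eq g, h.mkZ_mul (h.N_le_MN (h.iu_mem g))]

theorem Z_ext {z z' : h.Z} (e : h.dir z = h.dir z') (e' : h.ht z = h.ht z') : z = z' := by
  rw [← h.dl_sec_dir z, e, e', h.dl_sec_dir]

theorem exists_Ka (z : h.Z) : ∃ κ ∈ h.K, ((κ * h.a (h.ht z) : G) : h.Z) = z := by
  obtain ⟨κ, hκ, e⟩ := h.exists_K (h.dir z)
  exact ⟨κ, hκ, by rw [← h.dl_mk, ← h.sec_K hκ, e, h.dl_sec_dir]⟩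

/-- polar coordinates on the cone -/
noncomputable def zH : h.Y × ℝ ≃ₜ h.Z where
  toFun q := h.dl q.2 (h.sec q.1)
  invFun z := (h.dir z, h.ht z)
  left_inv q := Prod.ext (by show h.dir _ = _; rw [h.dir_dl, h.dir_sec])
    (by show h.ht _ = _; rw [h.ht_dl, h.ht_sec, zero_add])
  right_inv z := h.dl_sec_dir z
  continuous_toFun := h.continuous_dl.comp (f := fun q : h.Y × ℝ => (q.2, h.sec q.1))
    (continuous_snd.prodMk (h.continuous_sec.comp continuous_fst))
  continuous_invFun := h.continuous_dir.prodMk h.continuous_ht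

theorem zH_apply (q : h.Y × ℝ) : h.zH q = h.dl q.2 (h.sec q.1) := rfl

theorem zH_symm_apply (z : h.Z) : h.zH.symm z = (h.dir z, h.ht z) := rfl

theorem isCompact_ht (R : ℝ) : IsCompact {z : h.Z | |h.ht z| ≤ R} := by
  have := (isCompact_univ.prod (isCompact_Icc (a := -R) (b := R))).image h.zH.continuous
  convert this using 1
  ext z
  rw [h.zH.image_eq_preimage_symm]
  exact ⟨fun hz => ⟨trivial, abs_le.1 hz⟩, fun hz => abs_le.2 hz.2⟩

theorem ht_smul (g : G) (z : h.Z) : h.ht (g • z) = h.co g (h.dir z) + h.ht z := by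
  induction z using QuotientGroup.induction_on
  exact h.hs_mul _ _

theorem smul_sec (g : G) (y : h.Y) : g • h.sec y = h.dl (h.co g y) (h.sec (g • y)) := by
  have := h.dl_sec_dir (g • h.sec y)
  rw [h.dir_smul, h.dir_sec] at this
  exact this.symm

theorem co_mul (g g' : G) (y : h.Y) : h.co (g * g') y = h.co g (g' • y) + h.co g' y := by
  unfold co
  rw [mul_smul, h.ht_smul, h.dir_smul, h.dir_sec]
  rfl

theorem co_of_K {κ : G} (hκ : κ ∈ h.K) (y : h.Y) : h.co κ y = 0 := by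
  induction y using QuotientGroup.induction_on
  exact h.hs_K (h.K.mul_mem hκ (h.ik_mem _))

theorem co_inv (g : G) (y : h.Y) : h.co g⁻¹ (g • y) = -h.co g y := by
  have := h.co_mul g⁻¹ g y
  rw [inv_mul_cancel, h.co_of_K h.K.one_mem] at this
  linarith

theorem abs_co_le (g : G) (y : h.Y) : |h.co g y| ≤ h.rr g := by
  obtain ⟨κ, hκ, rfl⟩ := h.exists_K y
  have := h.abs_hs_le (g * κ)
  rwa [h.rr_mul_K _ hκ, ← h.co_K g hκ] at this

theorem ht_K_smul {κ : G} (hκ : κ ∈ h.K) (z : h.Z) : h.ht (κ • z) = h.ht z := by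
  rw [h.ht_smul, h.co_of_K hκ, zero_add]

theorem K_smul_sec {κ : G} (hκ : κ ∈ h.K) (y : h.Y) : κ • h.sec y = h.sec (κ • y) := by
  rw [h.smul_sec, h.co_of_K hκ, h.dl_zero]

theorem dd_nonneg (z z' : h.Z) : 0 ≤ h.dd z z' := by
  induction z using QuotientGroup.induction_on
  induction z' using QuotientGroup.induction_on
  exact h.bd_nonneg _

theorem dd_comm (z z' : h.Z) : h.dd z z' = h.dd z' z := by
  induction z using QuotientGroup.induction_on
  induction z' using QuotientGroup.induction_on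
  rw [h.dd_mk, h.dd_mk, ← h.bd_inv, _root_.mul_inv_rev, inv_inv]

theorem dd_smul (g : G) (z z' : h.Z) : h.dd (g • z) (g • z') = h.dd z z' := by
  induction z using QuotientGroup.induction_on
  induction z' using QuotientGroup.induction_on
  rw [h.smul_mkZ, h.smul_mkZ, h.dd_mk, h.dd_mk]
  congr 1
  group

theorem dd_dl_right (s : ℝ) (z z' : h.Z) : h.dd z (h.dl s z') = Real.exp s * h.dd z z' := by
  induction z using QuotientGroup.induction_on
  induction z' using QuotientGroup.induction_on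
  rw [h.dl_mk, h.dd_mk, h.dd_mk, ← mul_assoc, h.bd_mul_a]

theorem dd_dl_left (s : ℝ) (z z' : h.Z) : h.dd (h.dl s z) z' = Real.exp s * h.dd z z' := by
  rw [h.dd_comm, h.dd_dl_right, h.dd_comm]

theorem dd_eq_zero {z z' : h.Z} : h.dd z z' = 0 ↔ h.dir z = h.dir z' := by
  induction z using QuotientGroup.induction_on
  induction z' using QuotientGroup.induction_on
  rw [h.dd_mk, h.bd_eq_zero, h.dir_mk, h.dir_mk, QuotientGroup.eq]

theorem dd_pos {z z' : h.Z} (e : h.dir z ≠ h.dir z') : 0 < h.dd z z' :=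
  lt_of_le_of_ne (h.dd_nonneg z z') fun h0 => e (h.dd_eq_zero.1 h0.symm)

theorem dd_eq (z z' : h.Z) :
    h.dd z z' = Real.exp (h.ht z + h.ht z') * h.dv (h.dir z) (h.dir z') := by
  conv_lhs => rw [← h.dl_sec_dir z, ← h.dl_sec_dir z', h.dd_dl_left, h.dd_dl_right]
  rw [Real.exp_add, mul_assoc]
  rfl

theorem dv_nonneg (y y' : h.Y) : 0 ≤ h.dv y y' := h.dd_nonneg _ _

theorem dv_comm (y y' : h.Y) : h.dv y y' = h.dv y' y := h.dd_comm _ _

theorem dv_eq_zero {y y' : h.Y} : h.dv y y' = 0 ↔ y = y' := by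
  unfold dv; rw [h.dd_eq_zero, h.dir_sec, h.dir_sec]

theorem dv_self (y : h.Y) : h.dv y y = 0 := h.dv_eq_zero.2 rfl

theorem dv_pos {y y' : h.Y} (e : y ≠ y') : 0 < h.dv y y' :=
  lt_of_le_of_ne (h.dv_nonneg y y') fun h0 => e (h.dv_eq_zero.1 h0.symm)

theorem dv_le_one (y y' : h.Y) : h.dv y y' ≤ 1 := by
  obtain ⟨κ, hκ, rfl⟩ := h.exists_K y
  obtain ⟨κ', hκ', rfl⟩ := h.exists_K y'
  rw [h.dv_K hκ hκ']
  exact h.bd_K_le (h.K.mul_mem (h.K.inv_mem hκ) hκ')

/-- the action on the boundary is conformal -/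
theorem dv_smul (g : G) (y y' : h.Y) :
    h.dv (g • y) (g • y') = Real.exp (-(h.co g y + h.co g y')) * h.dv y y' := by
  have h1 := h.dd_smul g (h.sec y) (h.sec y')
  rw [h.smul_sec, h.smul_sec, h.dd_dl_left, h.dd_dl_right, ← mul_assoc, ← Real.exp_add] at h1
  unfold dv
  rw [← h1, ← mul_assoc, ← Real.exp_add, neg_add_cancel, Real.exp_zero, one_mul]

theorem dv_K_smul {κ : G} (hκ : κ ∈ h.K) (y y' : h.Y) : h.dv (κ • y) (κ • y') = h.dv y y' := by
  rw [h.dv_smul, h.co_of_K hκ, h.co_of_K hκ, add_zero, neg_zero, Real.exp_zero, one_mul]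

theorem dv_tri : ∃ C : ℝ, 0 < C ∧ ∀ y y' y'' : h.Y,
    h.dv y y'' ≤ C * (h.dv y y' + h.dv y' y'') := by
  obtain ⟨C, hC, h1⟩ := h.bd_tri
  refine ⟨C, hC, fun y y' y'' => ?_⟩
  obtain ⟨κ, hκ, rfl⟩ := h.exists_K y
  obtain ⟨κ', hκ', rfl⟩ := h.exists_K y'
  obtain ⟨κ'', hκ'', rfl⟩ := h.exists_K y''
  rw [h.dv_K hκ hκ', h.dv_K hκ' hκ'', h.dv_K hκ hκ'']
  have := h1 _ (h.K.mul_mem (h.K.inv_mem hκ) hκ') _ (h.K.mul_mem (h.K.inv_mem hκ') hκ'')
  rwa [mul_assoc, mul_inv_cancel_left] at this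

/-- the visual balls form a basis of neighbourhoods -/
theorem exists_dv_ball {y : h.Y} {U : Set h.Y} (hU : U ∈ 𝓝 y) :
    ∃ ε : ℝ, 0 < ε ∧ ∀ y', h.dv y y' < ε → y' ∈ U := by
  obtain ⟨V, hV, hV1, hV2⟩ := mem_nhds_iff.1 hU
  have hc : Continuous fun y' => h.dv y y' :=
    h.continuous_dv.comp (f := fun y' => (y, y')) (by fun_prop)
  rcases (Vᶜ).eq_empty_or_nonempty with h0 | h0
  · exact ⟨1, one_pos, fun y' _ => hV (by by_contra h1; exact h0.subset h1)⟩
  obtain ⟨x, hx, hmin⟩ := hV1.isClosed_compl.isCompact.exists_isMinOn h0 hc.continuousOn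
  refine ⟨h.dv y x, h.dv_pos fun e => hx (e ▸ hV2), fun y' hy' => hV ?_⟩
  by_contra h1
  exact absurd (hmin h1) (not_le.2 hy')

end R1

end Vale.Agent.P092RG
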