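import Vale.Agent.P092RG.Pos
import Vale.Agent.P092.RC.Defs

/-!
P092, rank one (helper76): volume estimates for the cone calculus, and the Moore property.
-/

set_option linter.all false

open MeasureTheory Measure Filter Topology
open scoped ENNReal NNReal Pointwise

namespace Vale.Agent.P092RG

open Vale.Agent.P092.H793.Re
open Vale.Agent.P092.RC (Moore)

variable {n : ℕ} {G : Type} [Group G] [TopologicalSpace G]
variable {ρ : G →* SLn n} {w : Fin n → ℝ}

theorem moore_mono {S T : Set G} (hS : Moore S) (e : S ⊆ T) : Moore T :=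
  fun E _ _ _ u h1 h2 ξ h3 => hS E u h1 h2 ξ fun g hg => h3 g (e hg)

/-- the stabiliser of a vector -/
def stabV {E : Type} [NormedAddCommGroup E] [InnerProductSpace ℂ E] (u : G →* (E →L[ℂ] E))
    (ξ : E) : Subgroup G where
  carrier := {g | u g ξ = ξ}
  one_mem' := by simp
  mul_mem' := fun {a b} ha hb => by
    simp only [Set.mem_setOf_eq, map_mul, ContinuousLinearMap.mul_apply] at *
    rw [hb, ha]
  inv_mem' := fun {a} ha => by
    simp only [Set.mem_setOf_eq] at *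
    conv_lhs => rw [← ha, ← ContinuousLinearMap.mul_apply, ← map_mul, inv_mul_cancel, map_one]
    rfl

theorem norm_stab {E : Type} [NormedAddCommGroup E] [InnerProductSpace ℂ E]
    {u : G →* (E →L[ℂ] E)} (h1 : ∀ g ξ, ‖u g ξ‖ = ‖ξ‖) {ξ : E} {x y : G} (hx : x ∈ stabV u ξ)
    (hy : y ∈ stabV u ξ) (g : G) : ‖u (x * g * y) ξ - ξ‖ = ‖u g ξ - ξ‖ := by
  have h2 : u (x * g * y) ξ - ξ = u x (u g ξ - ξ) := by
    rw [map_mul, map_mul, ContinuousLinearMap.mul_apply, ContinuousLinearMap.mul_apply,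
      show u y ξ = ξ from hy, map_sub, show u x ξ = ξ from hx]
  rw [h2, h1]

/-- the Mautner phenomenon -/
theorem mautner {E α : Type} [NormedAddCommGroup E] [InnerProductSpace ℂ E]
    {u : G →* (E →L[ℂ] E)} (h1 : ∀ g ξ, ‖u g ξ‖ = ‖ξ‖) (h2 : ∀ ξ, Continuous fun g => u g ξ)
    {ξ : E} {l : Filter α} [l.NeBot] {x y : α → G} (hx : ∀ i, x i ∈ stabV u ξ)
    (hy : ∀ i, y i ∈ stabV u ξ) {g : G} (e : Tendsto (fun i => x i * g * y i) l (𝓝 1)) :
    g ∈ stabV u ξ := by
  have h0 : Continuous fun g => ‖u g ξ - ξ‖ := ((h2 ξ).sub continuous_const).norm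
  have h3 := (h0.tendsto 1).comp e
  simp only [Function.comp_def, norm_stab h1 (hx _) (hy _), map_one, ContinuousLinearMap.one_apply,
    sub_self, norm_zero] at h3
  exact sub_eq_zero.1 (norm_eq_zero.1 (tendsto_nhds_unique tendsto_const_nhds h3))

theorem inv_of_right [IsTopologicalGroup G] [LocallyCompactSpace G] [SecondCountableTopology G]
    [MeasurableSpace G] [BorelSpace G] (μ : Measure G) [μ.IsHaarMeasure] [IsMulRightInvariant μ] :
    IsInvInvariant μ := by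
  constructor
  obtain ⟨c, hcc⟩ : ∃ c : ℝ≥0∞, c = haarScalarFactor μ.inv μ := ⟨_, rfl⟩
  have hc : μ.inv = c • μ := by
    rw [hcc]; exact isMulLeftInvariant_eq_smul μ.inv μ
  have this : map Inv.inv (map Inv.inv μ) = c ^ 2 • μ := by
    rw [← inv_def μ, hc, Measure.map_smul, ← inv_def μ, hc, smul_smul, pow_two]
  have μeq : μ = c ^ 2 • μ := by
    rw [map_map continuous_inv.measurable continuous_inv.measurable] at this
    simpa only [inv_involutive, Function.Involutive.comp_self, Measure.map_id] using this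
  obtain ⟨K⟩ : Nonempty (TopologicalSpace.PositiveCompacts G) := inferInstance
  have h1 : c ^ 2 * μ K = 1 ^ 2 * μ K := by
    conv_rhs => rw [μeq]
    simp
  have h2 : c ^ 2 = 1 ^ 2 :=
    (ENNReal.mul_left_inj (measure_pos_of_nonempty_interior _ K.interior_nonempty).ne'
          K.isCompact.measure_lt_top.ne).1 h1
  have h3 : c = 1 := (ENNReal.pow_right_strictMono two_ne_zero).injective h2
  rw [hc, h3, one_smul]

namespace R1

variable (h : R1 ρ w)
include h

theorem noncompact : NoncompactSpace G := not_compactSpace_iff.1 h.rs.nc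

theorem tendsto_dil (p : h.EN) : Tendsto (fun l : ℝ => h.dil (-l) p) atTop (𝓝 0) := by
  have h1 := Real.tendsto_exp_neg_atTop_nhds_zero
  have h2 : Tendsto (fun l : ℝ => Real.exp (2 * -l)) atTop (𝓝 0) := by
    have := h1.mul h1
    rw [mul_zero] at this
    exact this.congr fun l => by rw [← Real.exp_add]; congr 1; ring
  have h3 := (h1.smul_const p.1).prodMk_nhds (h2.smul_const p.2)
  rwa [zero_smul, zero_smul] at h3

/-- `a` contracts `N` -/
theorem contr_N {u : G} (hu : u ∈ h.N) :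
    Tendsto (fun l : ℝ => (h.a l)⁻¹ * u * h.a l) atTop (𝓝 1) := by
  have h1 := (h.continuous_nE.tendsto 0).comp (h.tendsto_dil (h.nC u))
  rw [h.nE_zero] at h1
  refine h1.congr fun l => ?_
  rw [Function.comp_apply, ← h.a_conj_nE, h.nE_nC hu, h.a_neg, inv_inv]

theorem contr_Nb {u : G} (hu : u ∈ h.Nb) :
    Tendsto (fun l : ℝ => h.a l * u * (h.a l)⁻¹) atTop (𝓝 1) := by
  haveI := topGroup h.rs.emb
  have h1 := ((h.contr_N (h.mem_Nb.1 hu)).const_mul h.w0).mul_const h.w0⁻¹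
  rw [mul_one, mul_inv_cancel] at h1
  refine h1.congr fun l => ?_
  have h2 := h.a_neg_eq l
  have h3 := h.a_neg_eq (-l)
  rw [neg_neg, h.a_neg] at h3
  rw [h.a_neg] at h2
  calc _ = (h.w0 * (h.a l)⁻¹ * h.w0⁻¹) * u * (h.w0 * h.a l * h.w0⁻¹) := by group
    _ = _ := by rw [← h2, ← h3]

theorem a_nsmul (s : ℝ) (k : ℕ) : h.a (k * s) = h.a s ^ k := by
  induction k with
  | zero => rw [Nat.cast_zero, zero_mul, h.a_zero, pow_zero]
  | succ k ih => rw [Nat.cast_succ, add_mul, one_mul, h.a_add, ih, pow_succ]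

theorem moore_a {s : ℝ} (hs : s ≠ 0) : Moore {h.a s} := by
  intro E _ _ _ u h1 h2 ξ h3 g
  have h4 : h.a s ∈ stabV u ξ := h3 _ rfl
  have h5 : h.a |s| ∈ stabV u ξ := by
    rcases abs_choice s with e | e <;> rw [e]
    · exact h4
    · rw [h.a_neg]; exact Subgroup.inv_mem _ h4
  have h6 : ∀ k : ℕ, h.a (k * |s|) ∈ stabV u ξ := fun k => by
    rw [h.a_nsmul]; exact Subgroup.pow_mem _ h5 k
  have h7 : Tendsto (fun k : ℕ => (k : ℝ) * |s|) atTop atTop :=
    tendsto_natCast_atTop_atTop.atTop_mul_const (abs_pos.2 hs)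
  have h8 : h.N ⊔ h.Nb ≤ stabV u ξ := sup_le
    (fun x hx => mautner h1 h2 (fun k => Subgroup.inv_mem _ (h6 k)) h6 ((h.contr_N hx).comp h7))
    (fun x hx => mautner h1 h2 h6 (fun k => Subgroup.inv_mem _ (h6 k)) ((h.contr_Nb hx).comp h7))
  rw [h.gen_N_Nb] at h8
  exact h8 (Subgroup.mem_top g)

theorem moore_A : Moore (Set.range h.a) :=
  moore_mono (h.moore_a one_ne_zero) (Set.singleton_subset_iff.2 ⟨1, rfl⟩)

theorem a_mul_a {g : G} (hg : g ∉ h.P) (r : ℝ) :
    ∃ x ∈ h.N, ∃ y ∈ h.N, h.a r * g * h.a r = x * g * y := by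
  obtain ⟨u, hu, s, m, hm, u', hu', rfl⟩ := (h.bruhat' g).resolve_left hg
  refine ⟨_, h.N.mul_mem (h.conj_N (h.a_mem_P r) hu) (h.N.inv_mem hu), _,
    h.N.mul_mem (h.N.inv_mem hu') (h.conj_N' (h.a_mem_P r) hu'), ?_⟩
  have h1 : h.w0 * h.a s * m = (h.a r * (h.w0 * h.a s * m) * h.a r) := by
    have h2 := h.L_comm_a (h.L.mul_mem (h.a_mem_L s) (h.M_le_L hm)) r
    calc _ = h.a r * (h.a (-r) * h.w0) * (h.a s * m) := by rw [h.a_neg]; group
      _ = h.a r * h.w0 * (h.a r * (h.a s * m)) := by rw [← h.w0_a]; group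
      _ = _ := by rw [← h2]; group
  calc h.a r * (u * h.w0 * h.a s * m * u') * h.a r
      = h.a r * u * (h.w0 * h.a s * m) * u' * h.a r := by group
    _ = h.a r * u * (h.a r)⁻¹ * (h.w0 * h.a s * m) * ((h.a r)⁻¹ * u' * h.a r) := by
        conv_rhs => rw [h1]
        group
    _ = _ := by group

theorem moore_N : Moore (h.N : Set G) := by
  intro E _ _ _ u h1 h2 ξ h3
  haveI := topGroup h.rs.emb
  haveI := secCount h.rs.emb
  haveI := locComp h.rs.emb
  borelize G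
  refine h.moore_a (s := 1 + 1) (by norm_num) E u h1 h2 ξ ?_
  rintro _ rfl
  have h4 : (fun g => ‖u (h.a 1 * g * h.a 1) ξ - ξ‖) = fun g => ‖u g ξ - ξ‖ := by
    refine Continuous.ext_on h.dense_cell
      ((((h2 ξ).comp (by fun_prop)).sub continuous_const).norm)
      (((h2 ξ).sub continuous_const).norm) fun g hg => ?_
    obtain ⟨x, hx, y, hy, e⟩ := h.a_mul_a hg 1
    simp only [e]
    exact norm_stab h1 (h3 x hx) (h3 y hy) g
  have h5 := congrFun h4 1
  simp only [mul_one, map_one, ContinuousLinearMap.one_apply, sub_self, norm_zero] at h5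
  rw [h.a_add]
  exact sub_eq_zero.1 (norm_eq_zero.1 h5)

theorem moore_B : Moore (h.B : Set G) := moore_mono h.moore_N h.N_le_B

theorem moore_MN : Moore (h.MN : Set G) := moore_mono h.moore_N h.N_le_MN

theorem moore_P : Moore (h.P : Set G) := moore_mono h.moore_N h.N_le_P

theorem dv_sep {A B : Set h.Y} (hA : IsClosed A) (hB : IsClosed B) (e : Disjoint A B) :
    ∃ δ : ℝ, 0 < δ ∧ ∀ y ∈ A, ∀ y' ∈ B, δ ≤ h.dv y y' := by
  obtain ⟨δ, hδ, h1⟩ := (hA.isCompact.prod hB.isCompact).exists_forall_le' (a := (0 : ℝ))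
    h.continuous_dv.continuousOn fun q hq => h.dv_pos fun h0 =>
      Set.disjoint_left.1 e hq.1 (h0 ▸ hq.2)
  exact ⟨δ, hδ, fun y hy y' hy' => h1 (y, y') ⟨hy, hy'⟩⟩

theorem exists_pair {y : h.Y} {z : h.Z} (e : h.dir z ≠ y) :
    ∃ g : G, g • h.z0 = z ∧ g • h.y1 = y := by
  obtain ⟨g, h1, h2⟩ := h.two_trans e
  refine ⟨g * h.a (h.ht z - h.ht (g • h.z0)), h.Z_ext ?_ ?_, ?_⟩
  · rw [mul_smul, h.a_smul_z0, h.smul_dl, h.dir_dl, h.dir_smul, h.dir_z0, h1]
  · rw [mul_smul, h.a_smul_z0, h.smul_dl, h.ht_dl]; ring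
  · rw [mul_smul, h.L_smul_y1 (h.a_mem_L _), h2]

/-- properness on the pairs (point of the boundary, point of the cone) -/
theorem proper_pair {A : Set h.Y} {L : Set h.Z} (hA : IsClosed A) (hL : IsCompact L)
    (e : ∀ z ∈ L, h.dir z ∉ A) : ∃ R : ℝ, ∀ g : G, g • h.y1 ∈ A → g • h.z0 ∈ L → h.rr g ≤ R := by
  obtain ⟨δ, hδ, h1⟩ := h.dv_sep (hL.image h.continuous_dir).isClosed hA
    (Set.disjoint_left.2 (by rintro _ ⟨z, hz, rfl⟩; exact e z hz))
  obtain ⟨T, hT⟩ := (hL.image (continuous_abs.comp h.continuous_ht)).bddAbove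
  obtain ⟨C, hC, h2⟩ := h.rr_le_co
  have h3 := h.dv_pos h.y1_ne.symm
  refine ⟨Real.log (C * (Real.exp T + Real.exp T / δ) / h.dv h.y0 h.y1), fun g hg hg' => ?_⟩
  have h4 : |h.co g h.y0| ≤ T := by
    have := hT ⟨_, hg', rfl⟩
    rwa [Function.comp_apply, h.ht_smul, h.dir_z0, h.ht_z0, add_zero] at this
  have h5 := h1 _ ⟨_, hg', rfl⟩ _ hg
  rw [h.dir_smul, h.dir_z0, h.dv_smul] at h5
  have h6 : Real.exp (h.co g h.y1) ≤ Real.exp T / δ := by
    rw [le_div_iff₀ hδ]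
    calc Real.exp (h.co g h.y1) * δ
        ≤ Real.exp (h.co g h.y1) * Real.exp (-(h.co g h.y0 + h.co g h.y1)) :=
          mul_le_mul_of_nonneg_left (h5.trans
            (mul_le_of_le_one_right (Real.exp_pos _).le (h.dv_le_one _ _))) (Real.exp_pos _).le
      _ ≤ _ := by
          rw [← Real.exp_add]
          exact Real.exp_le_exp.2 (by linarith [(abs_le.1 h4).1])
  have h7 := (h2 g h.y0 h.y1).trans (mul_le_mul_of_nonneg_left
    (add_le_add (Real.exp_le_exp.2 (abs_le.1 h4).2) h6) hC.le)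
  rw [Real.le_log_iff_exp_le (by positivity), le_div_iff₀ h3]
  exact h7

variable [IsTopologicalGroup G] [SecondCountableTopology G] [MeasurableSpace G] [BorelSpace G]
  [LocallyCompactSpace G] (μ : Measure G) [μ.IsHaarMeasure]

theorem haar_inv : μ.IsInvInvariant :=
  haveI := h.haar_right μ
  inv_of_right μ

theorem measurableSet_ball (R : ℝ) : MeasurableSet {g | h.rr g ≤ R} :=
  measurableSet_le h.measurable_rr measurable_const

theorem ball_ne_top (R : ℝ) : μ {g | h.rr g ≤ R} ≠ ⊤ := (h.isCompact_ball R).measure_lt_top.ne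

theorem ball_ne_zero {R : ℝ} (hR : 0 < R) : μ {g | h.rr g ≤ R} ≠ 0 := by
  have h1 : IsOpen {g | h.rr g < R} := isOpen_lt h.continuous_rr continuous_const
  exact ((h1.measure_pos μ ⟨1, by rw [Set.mem_setOf_eq, h.rr_one]; exact hR⟩).trans_le
    (measure_mono fun g (hg : h.rr g < R) => hg.le)).ne'

/-- (G1) -/
theorem pr_pair {A : Set h.Y} {L : Set h.Z} (hA : IsClosed A) (hL : IsCompact L)
    (e : ∀ z ∈ L, h.dir z ∉ A) : ∃ c : ℝ≥0∞, c ≠ ⊤ ∧ ∀ (y : h.Y) (z : h.Z),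
      μ {g | g • y ∈ A ∧ g • z ∈ L} ≤ c := by
  obtain ⟨R, hR⟩ := h.proper_pair hA hL e
  haveI := h.haar_right μ
  refine ⟨_, h.ball_ne_top μ R, fun y z => ?_⟩
  by_cases hz : h.dir z = y
  · refine (measure_mono (t := ∅) fun g hg => ?_).trans (by rw [measure_empty]; exact zero_le)
    exact e _ hg.2 (by rw [h.dir_smul, hz]; exact hg.1)
  · obtain ⟨x, rfl, rfl⟩ := h.exists_pair hz
    rw [← measure_preimage_mul_right μ x {g | h.rr g ≤ R}]
    exact measure_mono fun g hg => hR _ (by rw [mul_smul]; exact hg.1) (by rw [mul_smul]; exact hg.2)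

/-- (G2) -/
theorem hs_low {ε : ℝ≥0∞} (hε : ε ≠ 0) (r : ℝ) : ∃ R : ℝ, ∀ x : G,
    μ {u | h.rr u ≤ r ∧ h.hs (x * u) ≤ h.rr x - R} ≤ ε := by
  let S : ℕ → Set G := fun j => {g | h.rr g ≤ r ∧ h.bd (h.w0 * g) ≤ Real.exp (-j)}
  have hm : ∀ j, MeasurableSet (S j) := fun j => (h.measurableSet_ball r).inter
    (measurableSet_le (h.measurable_bd.comp (measurable_const_mul _)) measurable_const)
  have h1 := tendsto_measure_iInter_atTop (μ := μ) (s := S) (fun j => (hm j).nullMeasurableSet)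
    (fun i j hij g hg => ⟨hg.1, hg.2.trans (Real.exp_le_exp.2 (by
      have : (i : ℝ) ≤ j := by exact_mod_cast hij
      linarith))⟩)
    ⟨0, ne_top_of_le_ne_top (h.ball_ne_top μ r) (measure_mono fun g hg => hg.1)⟩
  have h2 : μ (⋂ j, S j) = 0 := by
    refine measure_mono_null (fun g hg => ?_) (ae_iff.1 (h.ae_haar_bd μ h.w0 1))
    rw [Set.mem_setOf_eq, mul_one, not_lt]
    exact ge_of_tendsto' (Real.tendsto_exp_neg_atTop_nhds_zero.comp tendsto_natCast_atTop_atTop)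
      fun j => (Set.mem_iInter.1 hg j).2
  rw [h2] at h1
  obtain ⟨j, hj⟩ := ((tendsto_order.1 h1).2 ε (pos_iff_ne_zero.2 hε)).exists
  refine ⟨j, fun x => le_trans ?_ hj.le⟩
  obtain ⟨k, hk, k', hk', e⟩ := h.kak_rr x
  rw [Function.comp_apply, ← measure_preimage_mul μ k' (S j)]
  refine measure_mono fun u hu => ⟨by rw [h.rr_K_mul hk']; exact hu.1, ?_⟩
  have h3 := h.bd_le_hs (h.w0 * (h.a (h.rr x) * (k' * u)))
  have h4 : h.hs (x * u) = h.hs (h.a (h.rr x) * (k' * u)) := by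
    conv_lhs => rw [e, mul_assoc, mul_assoc, h.hs_K_mul hk]
  rw [h.bd_w0_a_mul, h.hs_K_mul h.w0_mem, ← h4] at h3
  have h5 := h3.trans (Real.exp_le_exp.2 hu.2)
  rw [sub_eq_add_neg, Real.exp_add] at h5
  exact le_of_mul_le_mul_left h5 (Real.exp_pos _)

/-- the `K`-component is independent of the radial data -/
theorem haar_ik {A S : Set G} (hA : MeasurableSet A) (hS : MeasurableSet S)
    (hK : ∀ k ∈ h.K, ∀ g, k * g ∈ A ↔ g ∈ A) : μ (A ∩ h.ik ⁻¹' S) = μ A * h.νK S := by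
  obtain ⟨c, -, e⟩ := h.kan_eq μ
  have key : ∀ S : Set G, MeasurableSet S → h.kan (A ∩ h.ik ⁻¹' S) = h.β A * h.νK S := by
    intro S hS
    have hm := hA.inter (h.measurable_ik hS)
    rw [← lintegral_indicator_one hm, h.lintegral_kan (measurable_one.indicator hm),
      ← lintegral_indicator_const hS]
    refine lintegral_congr_ae ?_
    filter_upwards [h.hpK.ae] with k hk
    by_cases hkS : k ∈ S
    · rw [Set.indicator_of_mem hkS, ← lintegral_indicator_one hA]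
      refine lintegral_congr_ae ?_
      filter_upwards [h.β_ae] with b hb
      refine Set.indicator_eq_indicator ?_ rfl
      rw [Set.mem_inter_iff, hK k hk, Set.mem_preimage, h.ik_mul_B _ hb, h.ik_K hk]
      exact and_iff_left hkS
    · rw [Set.indicator_of_notMem hkS, lintegral_congr_ae (g := fun _ => 0), lintegral_zero]
      filter_upwards [h.β_ae] with b hb
      refine Set.indicator_of_notMem (fun h0 => hkS ?_) _
      have h1 := h0.2
      rwa [Set.mem_preimage, h.ik_mul_B _ hb, h.ik_K hk] at h1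
  have h1 := key _ MeasurableSet.univ
  rw [Set.preimage_univ, Set.inter_univ, measure_univ, mul_one] at h1
  rw [e, Measure.smul_apply, Measure.smul_apply, key S hS, h1, smul_mul_assoc]

/-- (G3) -/
theorem low_ball {r : ℝ} (hr : 0 < r) (R : ℝ) : ∃ r0 c : ℝ, ∀ l : ℝ, 0 ≤ l → ∀ x : G,
    |h.rr x - l| ≤ R → eo (-c - h.Q * l) ≤ μ {u | h.rr u ≤ r ∧ h.rr (h.a l * u * x) ≤ r0} := by
  obtain ⟨R0, -, h1⟩ := h.near
  obtain ⟨C, h2⟩ := h.le_shadow
  obtain ⟨c, h3⟩ := exists_eo_le (h.ball_ne_zero μ hr)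
  obtain ⟨C1, h4⟩ := h.gau_iu r
  obtain ⟨R1, h5⟩ := h.exists_ball ((h.isCompact_gau C1).image h.continuous_nE)
  haveI := h.haar_right μ
  refine ⟨R0 + r + R1 + R, C - c, fun l hl x hx => ?_⟩
  obtain ⟨k, hk, k', hk', e⟩ := h.kak_rr x
  have h6 := h.haar_ik μ (h.measurableSet_ball r)
    (h.isClosed_shadow (Real.exp (-(2 * l)))).measurableSet
    fun k hk g => by rw [Set.mem_setOf_eq, h.rr_K_mul hk]; rfl
  have h7 : eo (-(C - c) - h.Q * l) ≤ μ {g | h.rr g ≤ r} * h.νK {k | h.bd k ≤ Real.exp (-(2 * l))} := by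
    rw [show -(C - c) - h.Q * l = c + (-C - h.Q * l) by ring, eo_add]
    exact mul_le_mul' h3 (h2 l hl)
  rw [← h6, ← measure_preimage_mul_right μ k, ← measure_preimage_mul μ h.w0⁻¹] at h7
  refine h7.trans (measure_mono fun u hu => ?_)
  obtain ⟨hu1, hu2⟩ := hu
  set v := h.w0⁻¹ * u * k with hv
  have hu1 : h.rr v ≤ r := hu1
  have h8 := h1 _ (h.ik_mem v) l hl hu2
  refine ⟨by rwa [hv, h.rr_mul_K _ hk, h.rr_K_mul (h.K.inv_mem h.w0_mem)] at hu1, ?_⟩
  have h9 : h.a l * u * x = h.w0 * ((h.a (-l) * h.ik v * h.a l) * (h.a (h.hs v) *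
      (h.nE (h.dil (-l) (h.nC (h.iu v))) * h.a (h.rr x - l)))) * k' := by
    have h10 := h.a_neg_eq (-l)
    rw [neg_neg] at h10
    rw [← h.a_conj_nE, h.nE_nC (h.iu_mem _), sub_eq_add_neg, add_comm, h.a_add,
      mul_assoc (h.a (-l) * h.ik v), ← mul_assoc (h.a l), h.a_comm l, h.a_neg]
    conv_lhs => rw [e, h10, h.a_neg]
    calc _ = h.w0 * (h.a l)⁻¹ * (h.w0⁻¹ * u * k) * h.a (h.rr x) * k' := by group
      _ = _ := by rw [← hv]; conv_lhs => rw [← h.iwa_eq v]
                  group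
  have h11 : h.rr (h.nE (h.dil (-l) (h.nC (h.iu v)))) ≤ R1 := h5 _ ⟨_, by
    rw [Set.mem_setOf_eq, h.gau_dil]
    exact (mul_le_of_le_one_left (h.gau_nonneg _) (Real.exp_le_one_iff.2 (by linarith))).trans
      (h4 v hu1), rfl⟩
  rw [h9, h.rr_mul_K _ hk', h.rr_K_mul h.w0_mem]
  have h12 := h.abs_hs_le v
  refine (h.rr_mul_le _ _).trans ((add_le_add_right ((h.rr_mul_le _ _).trans
    (add_le_add_right (h.rr_mul_le _ _) _)) _).trans ?_)
  rw [h.rr_a, h.rr_a]
  linarith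

/-- (G4) -/
theorem ni_ball (r : ℝ) : ∃ c : ℝ, ∀ (l : ℝ) (F : G → ℝ≥0∞) (m : ℝ≥0∞), Measurable F →
    (∀ g, ∫⁻ p, F (h.nE p * g) ≤ m) →
    ∫⁻ u in {u | h.rr u ≤ r}, F (h.a l * u) ∂μ ≤ eo (c - h.Q * l) * m := by
  obtain ⟨c, -, e⟩ := h.haar_kan μ
  haveI := h.haar_inv μ
  obtain ⟨c', hc'⟩ := exists_le_eo (a := c * (eo (h.Q * |r|) * volume (Set.Icc (-r) r)))
    (ENNReal.mul_ne_top ENNReal.coe_ne_top (ENNReal.mul_ne_top (eo_ne_top _)
      (by rw [Real.volume_Icc]; exact ENNReal.ofReal_ne_top)))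
  refine ⟨c', fun l F m hF hm => ?_⟩
  have hb := h.measurableSet_ball r
  have h1 : Measurable fun u => {u | h.rr u ≤ r}.indicator (fun u => F (h.a l * u)) u⁻¹ :=
    ((hF.comp (measurable_const_mul _)).indicator hb).comp measurable_inv
  rw [← lintegral_indicator hb, ← lintegral_inv_eq_self, e _ h1, sub_eq_add_neg, eo_add, mul_assoc]
  refine le_trans ?_ (mul_le_mul_left hc' _)
  rw [mul_assoc]
  refine mul_le_mul_right ((lintegral_mono_ae (g := fun _ => eo (h.Q * |r|) *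
    volume (Set.Icc (-r) r) * (eo (-(h.Q * l)) * m)) ?_).trans
      (by rw [lintegral_const, measure_univ, mul_one])) _
  filter_upwards [h.hpK.ae] with k hk
  rw [mul_right_comm, ← lintegral_indicator_const measurableSet_Icc]
  refine lintegral_mono fun s => ?_
  by_cases hs : s ∈ Set.Icc (-r) r
  · rw [Set.indicator_of_mem hs, mul_comm]
    refine mul_le_mul' (eo_mono (mul_le_mul_of_nonneg_left
      (hs.2.trans (le_abs_self r)) h.Q_pos'.le)) ?_
    have h2 : Measurable fun p => F (h.nE p * (h.a l * ((h.a s)⁻¹ * k⁻¹))) :=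
      hF.comp (h.measurable_nE.mul_const _)
    calc _ ≤ ∫⁻ p, F (h.nE (h.dil l (-p)) * (h.a l * ((h.a s)⁻¹ * k⁻¹))) := by
          refine lintegral_mono fun p => (Set.indicator_le_self _ _ _).trans (le_of_eq ?_)
          rw [← mul_assoc (h.nE _), ← h.a_mul_nE, h.nE_neg]
          simp only [_root_.mul_inv_rev, mul_assoc]
      _ = ∫⁻ p, F (h.nE (h.dil l p) * (h.a l * ((h.a s)⁻¹ * k⁻¹))) :=
          h.mp_neg.lintegral_comp (h2.comp (h.measurable_dil l))
      _ = eo (-(h.Q * l)) * ∫⁻ p, F (h.nE p * (h.a l * ((h.a s)⁻¹ * k⁻¹))) := by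
          rw [← lintegral_map h2 (h.measurable_dil l), h.map_dil, lintegral_smul_measure]
          rfl
      _ ≤ _ := mul_le_mul_right (hm _) _
  · rw [Set.indicator_of_notMem hs, lintegral_congr (g := fun _ => 0), lintegral_zero, zero_mul]
    intro p
    refine Set.indicator_of_notMem (fun h0 => hs ?_) _
    have h2 := h.abs_hs_le (k * h.a s * h.nE p)
    rw [Set.mem_setOf_eq, h.rr_inv, ← mul_assoc] at h0
    rw [h.hs_kan hk s (h.nE_mem p)] at h2
    exact abs_le.1 (h2.trans h0)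

end R1

end Vale.Agent.P092RG
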