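import Vale.Agent.P092RG.Defs
import Vale.Agent.P092.H35.RePol

/-!
P092, rank one (helper76): the graded Lie algebra.
-/

set_option linter.all false

open Matrix Filter Topology

namespace Vale.Agent.P092RG

open Vale.Agent.P092.H793.Re

variable {n : ℕ} {G : Type} [Group G] [TopologicalSpace G]
variable {ρ : G →* SLn n} {w : Fin n → ℝ}

theorem wt_iff {j : ℝ} {X : Mat n} :
    Wt w j X ↔ diagonal w * X - X * diagonal w = j • X := by
  constructor
  · intro h
    ext a b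
    rw [Matrix.sub_apply, Matrix.diagonal_mul, Matrix.mul_diagonal, Matrix.smul_apply, smul_eq_mul]
    by_cases h0 : X a b = 0
    · rw [h0]; ring
    · rw [← h a b h0]; ring
  · intro h a b h0
    have h1 := congrFun (congrFun h a) b
    rw [Matrix.sub_apply, Matrix.diagonal_mul, Matrix.mul_diagonal, Matrix.smul_apply,
      smul_eq_mul] at h1
    exact mul_right_cancel₀ h0 (by linarith)

theorem Wt.comm {j : ℝ} {X : Mat n} (h : Wt w j X) :
    diagonal w * X - X * diagonal w = j • X := wt_iff.1 h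

theorem wt_zero_iff {X : Mat n} : Wt w 0 X ↔ X * diagonal w = diagonal w * X := by
  rw [wt_iff, zero_smul, sub_eq_zero, eq_comm]

theorem Wt.tr {j : ℝ} {X : Mat n} (h : Wt w j X) : Wt w (-j) Xᵀ := fun a b h0 => by
  have := h b a h0
  linarith

theorem Wt.neg {j : ℝ} {X : Mat n} (h : Wt w j X) : Wt w j (-X) := fun a b h0 =>
  h a b fun h1 => h0 (by rw [Matrix.neg_apply, h1, neg_zero])

theorem Wt.sub {j : ℝ} {X Y : Mat n} (hX : Wt w j X) (hY : Wt w j Y) : Wt w j (X - Y) := by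
  rw [sub_eq_add_neg]; exact hX.add hY.neg

theorem Wt.mul {i j : ℝ} {X Y : Mat n} (hX : Wt w i X) (hY : Wt w j Y) : Wt w (i + j) (X * Y) := by
  intro a b h0
  rw [Matrix.mul_apply] at h0
  obtain ⟨c, -, hc⟩ := Finset.exists_ne_zero_of_sum_ne_zero h0
  have h1 := hX a c (left_ne_zero_of_mul hc)
  have h2 := hY c b (right_ne_zero_of_mul hc)
  linarith

theorem Wt.br {i j : ℝ} {X Y : Mat n} (hX : Wt w i X) (hY : Wt w j Y) :
    Wt w (i + j) (X * Y - Y * X) := (hX.mul hY).sub (add_comm i j ▸ hY.mul hX)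

theorem wt_diag (x : Fin n → ℝ) : Wt w 0 (diagonal x) := fun a b h => by
  by_cases hab : a = b
  · rw [hab, sub_self]
  · exact absurd (diagonal_apply_ne _ hab) h

theorem Wt.cast {i j : ℝ} {X : Mat n} (h : Wt w i X) (e : i = j) : Wt w j X := e ▸ h

theorem Wt.trace {j : ℝ} {X : Mat n} (h : Wt w j X) (hj : j ≠ 0) : X.trace = 0 := by
  refine Finset.sum_eq_zero fun a _ => ?_
  by_contra h0
  have := h a a h0
  exact hj (by linarith)

/-! ### components -/

theorem cmp_apply (j : ℝ) (X : Mat n) (a b : Fin n) :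
    cmp w j X a b = if w a - w b = j then X a b else 0 := by
  unfold cmp
  rw [of_apply]
  split_ifs <;> simp

theorem wt_cmp (j : ℝ) (X : Mat n) : Wt w j (cmp w j X) := fun a b h => by
  rw [cmp_apply] at h
  by_contra h1
  exact h (if_neg h1)

theorem Wt.cmp_self {j : ℝ} {X : Mat n} (h : Wt w j X) : cmp w j X = X := by
  ext a b
  rw [cmp_apply]
  split_ifs with h1
  · rfl
  · by_contra h2
    exact h1 (h a b (Ne.symm h2))

theorem Wt.cmp_ne {i j : ℝ} {X : Mat n} (h : Wt w j X) (hij : i ≠ j) : cmp w i X = 0 := by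
  ext a b
  rw [cmp_apply, Matrix.zero_apply]
  split_ifs with h1
  · by_contra h2
    exact hij (by rw [← h1, h a b h2])
  · rfl

theorem cmp_add (j : ℝ) (X Y : Mat n) : cmp w j (X + Y) = cmp w j X + cmp w j Y := by
  ext a b
  simp only [Matrix.add_apply, cmp_apply]
  split_ifs <;> simp

theorem cmp_sub (j : ℝ) (X Y : Mat n) : cmp w j (X - Y) = cmp w j X - cmp w j Y := by
  ext a b
  simp only [Matrix.sub_apply, cmp_apply]
  split_ifs <;> simp

theorem cmp_smul (j c : ℝ) (X : Mat n) : cmp w j (c • X) = c • cmp w j X := by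
  ext a b
  simp only [Matrix.smul_apply, cmp_apply]
  split_ifs <;> simp

theorem cmp_tr (j : ℝ) (X : Mat n) : (cmp w j X)ᵀ = cmp w (-j) Xᵀ := by
  ext a b
  simp only [Matrix.transpose_apply, cmp_apply]
  have : w b - w a = j ↔ w a - w b = -j := by constructor <;> intro h <;> linarith
  simp only [this]

theorem cmp_mul_diag (j : ℝ) (X : Mat n) (x : Fin n → ℝ) :
    cmp w j (X * diagonal x) = cmp w j X * diagonal x := by
  ext a b
  simp only [Matrix.mul_diagonal, cmp_apply]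
  split_ifs <;> simp

theorem continuous_cmp (j : ℝ) : Continuous (cmp w j : Mat n → Mat n) := by
  refine continuous_matrix fun a b => ?_
  simp only [cmp_apply]
  split_ifs
  · exact continuous_id.matrix_elem a b
  · exact continuous_const

/-! ### the inner product -/

theorem ip_eq (X Y : Mat n) : ip X Y = ∑ a, ∑ b, X a b * Y a b := by
  unfold ip
  rw [Matrix.trace]
  refine Finset.sum_congr rfl fun a _ => ?_
  rw [Matrix.diag_apply, Matrix.mul_apply]
  rfl

theorem ip_comm (X Y : Mat n) : ip X Y = ip Y X := by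
  rw [ip_eq, ip_eq]
  exact Finset.sum_congr rfl fun a _ => Finset.sum_congr rfl fun b _ => mul_comm _ _

theorem ip_nonneg (X : Mat n) : 0 ≤ ip X X := by
  rw [ip_eq]
  exact Finset.sum_nonneg fun a _ => Finset.sum_nonneg fun b _ => mul_self_nonneg _

theorem eq_zero_of_ip {X : Mat n} (h : ip X X = 0) : X = 0 :=
  Vale.Agent.P092.H35.ReK.eq_zero_of_trace h

theorem ip_pos {X : Mat n} (h : X ≠ 0) : 0 < ip X X :=
  lt_of_le_of_ne (ip_nonneg X) fun h0 => h (eq_zero_of_ip h0.symm)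

theorem ip_add_left (X Y Z : Mat n) : ip (X + Y) Z = ip X Z + ip Y Z := by
  unfold ip; rw [Matrix.add_mul, trace_add]

theorem ip_add_right (X Y Z : Mat n) : ip X (Y + Z) = ip X Y + ip X Z := by
  rw [ip_comm, ip_add_left, ip_comm Y, ip_comm Z]

theorem ip_sub_left (X Y Z : Mat n) : ip (X - Y) Z = ip X Z - ip Y Z := by
  unfold ip; rw [Matrix.sub_mul, trace_sub]

theorem ip_sub_right (X Y Z : Mat n) : ip X (Y - Z) = ip X Y - ip X Z := by
  rw [ip_comm, ip_sub_left, ip_comm Y, ip_comm Z]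

theorem ip_smul_left (c : ℝ) (X Y : Mat n) : ip (c • X) Y = c * ip X Y := by
  unfold ip; rw [Matrix.smul_mul, trace_smul, smul_eq_mul]

theorem ip_smul_right (c : ℝ) (X Y : Mat n) : ip X (c • Y) = c * ip X Y := by
  rw [ip_comm, ip_smul_left, ip_comm]

theorem ip_neg_left (X Y : Mat n) : ip (-X) Y = -ip X Y := by
  rw [← neg_one_smul ℝ X, ip_smul_left]; ring

theorem ip_neg_right (X Y : Mat n) : ip X (-Y) = -ip X Y := by
  rw [ip_comm, ip_neg_left, ip_comm]

theorem ip_zero_left (X : Mat n) : ip 0 X = 0 := by unfold ip; rw [Matrix.zero_mul, trace_zero]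

theorem ip_zero_right (X : Mat n) : ip X 0 = 0 := by rw [ip_comm, ip_zero_left]

theorem ip_tr (X Y : Mat n) : ip Xᵀ Yᵀ = ip X Y := by
  rw [ip_eq, ip_eq, Finset.sum_comm]
  rfl

theorem ip_mul_left (A X Y : Mat n) : ip (A * X) Y = ip X (Aᵀ * Y) := by
  unfold ip
  rw [transpose_mul, transpose_transpose, Matrix.mul_assoc, trace_mul_comm, Matrix.mul_assoc]

theorem ip_mul_right (A X Y : Mat n) : ip (X * A) Y = ip X (Y * Aᵀ) := by
  unfold ip
  rw [transpose_mul, transpose_transpose, Matrix.mul_assoc]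

theorem ip_br (A X Y : Mat n) : ip (A * X - X * A) Y = ip X (Aᵀ * Y - Y * Aᵀ) := by
  rw [ip_sub_left, ip_sub_right, ip_mul_left, ip_mul_right]

theorem ip_wt {i j : ℝ} {X Y : Mat n} (hX : Wt w i X) (hY : Wt w j Y) (hij : i ≠ j) :
    ip X Y = 0 :=
  (hX.mul hY.tr).trace fun h => hij (by linarith)

theorem ip_ort {k : Mat n} (hk : kᵀ * k = 1) (X Y : Mat n) :
    ip (k * X * kᵀ) (k * Y * kᵀ) = ip X Y := by
  rw [ip_mul_right, ip_mul_left, transpose_transpose]
  congr 1
  calc kᵀ * (k * Y * kᵀ * k) = (kᵀ * k) * Y * (kᵀ * k) := by simp only [Matrix.mul_assoc]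
    _ = Y := by rw [hk, Matrix.one_mul, Matrix.mul_one]

theorem ip_sym_skew {X Y : Mat n} (hX : Xᵀ = X) (hY : Yᵀ = -Y) : ip X Y = 0 := by
  have := ip_tr X Y
  rw [hX, hY, ip_neg_right] at this
  linarith

theorem continuous_ip {α : Type*} [TopologicalSpace α] {f g : α → Mat n} (hf : Continuous f)
    (hg : Continuous g) : Continuous fun x => ip (f x) (g x) :=
  (hf.matrix_mul hg.matrix_transpose).matrix_trace

theorem sq_le_ip (X : Mat n) (a b : Fin n) : X a b ^ 2 ≤ ip X X := by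
  rw [ip_eq, sq]
  exact (Finset.single_le_sum (f := fun b => X a b * X a b) (fun b _ => mul_self_nonneg _)
    (Finset.mem_univ b)).trans (Finset.single_le_sum (f := fun a => ∑ b, X a b * X a b)
      (fun a _ => Finset.sum_nonneg fun b _ => mul_self_nonneg _) (Finset.mem_univ a))

/-! ### the root spaces -/

namespace R1

variable (h : R1 ρ w)
include h

theorem cmp_mem (j : ℝ) {X : Mat n} (hX : Lie ρ X) : cmp w j X ∈ h.g j :=
  ⟨had h.rs h.lie (fun v => if v = j then 1 else 0) hX, wt_cmp j X⟩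

theorem decomp {X : Mat n} (hX : Lie ρ X) :
    X = cmp w (-2) X + cmp w (-1) X + cmp w 0 X + cmp w 1 X + cmp w 2 X := by
  ext a b
  simp only [Matrix.add_apply, cmp_apply]
  by_cases h0 : X a b = 0
  · simp [h0]
  · rcases h.wt X hX a b h0 with e | e | e | e | e <;> rw [e] <;> norm_num

theorem tr_mem {j : ℝ} {X : Mat n} (hX : X ∈ h.g j) : Xᵀ ∈ h.g (-j) :=
  ⟨lie_transpose h.rs.adj hX.1, hX.2.tr⟩

theorem br_mem {i j : ℝ} {X Y : Mat n} (hX : X ∈ h.g i) (hY : Y ∈ h.g j) :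
    X * Y - Y * X ∈ h.g (i + j) :=
  ⟨lie_bracket h.rs.emb hX.1 hY.1, hX.2.br hY.2⟩

theorem mem_cast {i j : ℝ} {X : Mat n} (hX : X ∈ h.g i) (e : i = j) : X ∈ h.g j := e ▸ hX

theorem H_mem : diagonal w ∈ h.g 0 := ⟨h.lie, wt_diag w⟩

theorem eq_zero_of_big {j : ℝ} {X : Mat n} (hX : X ∈ h.g j) (hj : 2 < |j|) : X = 0 := by
  ext a b
  by_contra h0
  have h1 := hX.2 a b h0
  rcases h.wt X hX.1 a b h0 with e | e | e | e | e <;> rw [← h1, e] at hj <;> norm_num at hj

theorem comm_of_big {i j : ℝ} {X Y : Mat n} (hX : X ∈ h.g i) (hY : Y ∈ h.g j) (hj : 2 < |i + j|) :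
    X * Y = Y * X := sub_eq_zero.1 (h.eq_zero_of_big (h.br_mem hX hY) hj)

theorem H_ne : diagonal w ≠ 0 := by
  obtain ⟨X, -, h1, h2⟩ := h.one
  intro h0
  have h3 := Wt.comm (w := w) (j := 1) (X := X) h2
  rw [h0, Matrix.zero_mul, Matrix.mul_zero, sub_zero, one_smul] at h3
  exact h1 h3.symm

theorem h2_pos : 0 < ip (diagonal w) (diagonal w) := ip_pos h.H_ne

/-- symmetric elements of weight zero -/
theorem sym_zero {X : Mat n} (hX : X ∈ h.g 0) (hs : Xᵀ = X) :
    X = (ip X (diagonal w) / ip (diagonal w) (diagonal w)) • diagonal w := by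
  obtain ⟨c, hc⟩ := h.cent X hX.1 hs (wt_zero_iff.1 hX.2)
  have := h.h2_pos
  rw [hc, ip_smul_left, mul_div_assoc, div_self this.ne', mul_one]

/-- the polarised `sl_2` identity -/
theorem sl2' {j : ℝ} {X Y : Mat n} (hX : X ∈ h.g j) (hY : Y ∈ h.g j) :
    (X * Yᵀ - Yᵀ * X) + (Y * Xᵀ - Xᵀ * Y) =
      (2 * j * ip X Y / ip (diagonal w) (diagonal w)) • diagonal w := by
  have h1 : ∀ {X Y : Mat n}, X ∈ h.g j → Y ∈ h.g j → X * Yᵀ - Yᵀ * X ∈ h.g 0 := fun hX hY =>
    h.mem_cast (h.br_mem hX (h.tr_mem hY)) (add_neg_cancel j)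
  have h2 : ∀ {X Y : Mat n}, X ∈ h.g j → Y ∈ h.g j →
      ip (X * Yᵀ - Yᵀ * X) (diagonal w) = j * ip X Y := by
    intro X Y hX hY
    have e : X * Yᵀ - Yᵀ * X = -(Yᵀ * X - X * Yᵀ) := by rw [neg_sub]
    rw [e, ip_neg_left, ip_br, transpose_transpose, ← ip_neg_right, neg_sub, hY.2.comm,
      ip_smul_right]
  have h3 := h.sym_zero ((h.g 0).add_mem (h1 hX hY) (h1 hY hX)) (by
    simp only [transpose_add, transpose_sub, transpose_mul, transpose_transpose]
    rw [add_comm])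
  rw [h3, ip_add_left, h2 hX hY, h2 hY hX, ip_comm Y X]
  congr 2
  ring

theorem sl2 {j : ℝ} {X : Mat n} (hX : X ∈ h.g j) :
    X * Xᵀ - Xᵀ * X = (j * ip X X / ip (diagonal w) (diagonal w)) • diagonal w := by
  have h1 := h.sl2' hX hX
  rw [← two_smul ℝ] at h1
  have h2 := congrArg (fun M => (1 / 2 : ℝ) • M) h1
  simp only [smul_smul] at h2
  rw [show (1 / 2 : ℝ) * 2 = 1 by norm_num, one_smul] at h2
  rw [h2]
  congr 1
  ring

/-- symmetric elements -/
theorem sym_decomp {Y : Mat n} (hY : Lie ρ Y) (hs : Yᵀ = Y) :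
    Y = (cmp w 2 Y)ᵀ + (cmp w 1 Y)ᵀ +
      (ip Y (diagonal w) / ip (diagonal w) (diagonal w)) • diagonal w + cmp w 1 Y + cmp w 2 Y := by
  have h1 := h.decomp hY
  have h2 := h.sym_zero (h.cmp_mem 0 hY) (by rw [cmp_tr, hs, neg_zero])
  have h3 : ip (cmp w 0 Y) (diagonal w) = ip Y (diagonal w) := by
    conv_rhs => rw [h1]
    simp only [ip_add_left]
    rw [ip_wt (wt_cmp (-2) Y) (wt_diag w) (by norm_num),
      ip_wt (wt_cmp (-1) Y) (wt_diag w) (by norm_num),
      ip_wt (wt_cmp 1 Y) (wt_diag w) (by norm_num), ip_wt (wt_cmp 2 Y) (wt_diag w) (by norm_num)]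
    ring
  rw [h3] at h2
  rw [cmp_tr, cmp_tr, hs, ← h2]
  exact h1

end R1

end Vale.Agent.P092RG
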