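import Vale.Agent.P092RG.Par

/-!
P092, rank one (helper76): the stabiliser of the top eigenspace and the Bruhat decomposition.
-/

set_option linter.all false

open Matrix Filter Topology

namespace Vale.Agent.P092RG

open Vale.Agent.P092.H793.Re

variable {n : ℕ} {G : Type} [Group G] [TopologicalSpace G]
variable {ρ : G →* SLn n} {w : Fin n → ℝ}

theorem ip_cmp_zero (W : Mat n) : ip (cmp w 0 W) (diagonal w) = ip W (diagonal w) := by
  rw [ip_eq, ip_eq]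
  refine Finset.sum_congr rfl fun a _ => Finset.sum_congr rfl fun b _ => ?_
  rw [cmp_apply]
  by_cases hab : a = b
  · subst hab; simp
  · simp [diagonal_apply_ne _ hab]

theorem exists_low {B : Mat n} (hB : B ≠ 0) : ∃ c : Fin n, pj w (w c) * B ≠ 0 ∧
    ∀ a b, B a b ≠ 0 → w c ≤ w a := by
  classical
  have h1 : (Finset.univ.filter fun a => ∃ b, B a b ≠ 0).Nonempty := by
    by_contra h2
    apply hB
    ext a b
    by_contra h3
    exact h2 ⟨a, Finset.mem_filter.2 ⟨Finset.mem_univ a, b, h3⟩⟩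
  obtain ⟨c, hc, hmin⟩ := Finset.exists_min_image _ w h1
  obtain ⟨b, hb⟩ := (Finset.mem_filter.1 hc).2
  refine ⟨c, fun h0 => hb ?_, fun a b' h0 => hmin a (Finset.mem_filter.2 ⟨Finset.mem_univ a,
    b', h0⟩)⟩
  have := congrFun (congrFun h0 c) b
  rwa [pj_mul_apply, if_pos rfl] at this

theorem Wt.comm_pj {X : Mat n} (hX : Wt w 0 X) (μ : ℝ) : X * pj w μ = pj w μ * X := by
  rw [hX.mul_pj, add_zero]

namespace R1

variable (h : R1 ρ w)
include h

theorem Pt_tr : h.Ptᵀ = h.Pt := pj_tr _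

theorem Pb_tr : h.Pbᵀ = h.Pb := pj_tr _

theorem Pt_Pt : h.Pt * h.Pt = h.Pt := pj_mul_pj _

theorem Pb_Pb : h.Pb * h.Pb = h.Pb := pj_mul_pj _

theorem Pb_Pt : h.Pb * h.Pt = 0 := by
  ext a b
  unfold Pb Pt
  rw [pj_mul_apply]
  split_ifs with h1
  · unfold pj
    by_cases hab : a = b
    · subst hab
      have := h.lam_pos
      rw [diagonal_apply_eq, if_neg (by rw [h1]; linarith)]
      rfl
    · rw [diagonal_apply_ne _ hab]; rfl
  · rfl

theorem sup_Pt {U : Mat n} (hU : SUp w U) : U * h.Pt = 0 := by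
  ext a b
  unfold Pt
  rw [mul_pj_apply]
  split_ifs with h1
  · by_contra h2
    have h3 := hU a b h2
    have := h.le_lam a
    linarith
  · rfl

theorem Pb_sup {U : Mat n} (hU : SUp w U) : h.Pb * U = 0 := by
  ext a b
  unfold Pb
  rw [pj_mul_apply]
  split_ifs with h1
  · by_contra h2
    have h3 := hU a b h2
    have := h.neg_lam_le b
    linarith
  · rfl

theorem N_Pt {u : G} (hu : u ∈ h.N) : (ρ u).1 * h.Pt = h.Pt := by
  have := h.sup_Pt hu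
  rwa [Matrix.sub_mul, Matrix.one_mul, sub_eq_zero] at this

theorem Pb_N {u : G} (hu : u ∈ h.N) : h.Pb * (ρ u).1 = h.Pb := by
  have := h.Pb_sup hu
  rwa [Matrix.mul_sub, Matrix.mul_one, sub_eq_zero] at this

theorem L_Pt {g : G} (hg : g ∈ h.L) : (ρ g).1 * h.Pt = h.Pt * (ρ g).1 := Wt.comm_pj hg _

theorem L_Pb {g : G} (hg : g ∈ h.L) : (ρ g).1 * h.Pb = h.Pb * (ρ g).1 := Wt.comm_pj hg _

theorem a_Pt (s : ℝ) : (ρ (h.a s)).1 * h.Pt = Real.exp (s * h.lam) • h.Pt := h.a_mul_pj s _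

theorem Pt_a (s : ℝ) : h.Pt * (ρ (h.a s)).1 = Real.exp (s * h.lam) • h.Pt := h.pj_mul_a s _

theorem a_Pb (s : ℝ) : (ρ (h.a s)).1 * h.Pb = Real.exp (-(s * h.lam)) • h.Pb := by
  rw [← mul_neg]; exact h.a_mul_pj s _

theorem Pb_a (s : ℝ) : h.Pb * (ρ (h.a s)).1 = Real.exp (-(s * h.lam)) • h.Pb := by
  rw [← mul_neg]; exact h.pj_mul_a s _

theorem val_Pt_ne (g : G) : (ρ g).1 * h.Pt ≠ 0 := fun h0 => h.Pt_ne (by
  have := congrArg (fun M => (ρ g⁻¹).1 * M) h0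
  simpa only [← Matrix.mul_assoc, coe_inv_mul, Matrix.one_mul, Matrix.mul_zero] using this)

theorem up_Pt {A : Mat n} (hA : Up w A) : A * h.Pt = h.Pt * cmp w 0 A := by
  ext a b
  unfold Pt
  rw [mul_pj_apply, pj_mul_apply, cmp_apply]
  by_cases h0 : A a b = 0
  · simp [h0]
  have h1 := hA a b h0
  have h2 := h.le_lam a
  by_cases h3 : w b = h.lam
  · have h4 : w a = h.lam := by linarith
    simp [h3, h4]
  · by_cases h4 : w a = h.lam
    · have : ¬ (w a - w b = 0) := fun h5 => h3 (by linarith)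
      simp [h3, this]
    · simp [h3, h4]

theorem Pb_P_Pt {p : G} (hp : p ∈ h.P) : h.Pb * (ρ p).1 * h.Pt = 0 := by
  rw [Matrix.mul_assoc, h.up_Pt hp, ← Matrix.mul_assoc, h.Pb_Pt, Matrix.zero_mul]

theorem zero_decomp {W : Mat n} (hW : W ∈ h.g 0) : ∃ S : Mat n, S ∈ h.g 0 ∧ Sᵀ = -S ∧
    W = (ip W (diagonal w) / ip (diagonal w) (diagonal w)) • diagonal w + S := by
  have h1 : Wᵀ ∈ h.g 0 := h.mem_cast (h.tr_mem hW) neg_zero
  have h2 := h.sym_zero ((h.g 0).add_mem hW h1) (by rw [transpose_add, transpose_transpose,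
    add_comm])
  have h3 : ip Wᵀ (diagonal w) = ip W (diagonal w) := by
    rw [← ip_tr W, diagonal_transpose]
  rw [ip_add_left, h3, ← two_mul, mul_div_assoc, mul_smul] at h2
  refine ⟨(1 / 2 : ℝ) • (W - Wᵀ), (h.g 0).smul_mem _ ((h.g 0).sub_mem hW h1), ?_, ?_⟩
  · rw [transpose_smul, transpose_sub, transpose_transpose, ← smul_neg, neg_sub]
  · have h4 := congrArg (fun M => (1 / 2 : ℝ) • M) h2
    simp only [smul_smul] at h4
    rw [← mul_assoc, show (1 / 2 : ℝ) * 2 = 1 by norm_num, one_mul] at h4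
    rw [← h4, ← smul_add, add_add_sub_cancel, ← two_smul ℝ, smul_smul]
    norm_num

theorem low_key {A W W' : Mat n} {μ : ℝ} (hW : Lie ρ W) (hW' : Lie ρ W') (hu : Up w W)
    (hu' : Up w W') (e : W * A = A * W') (h0 : pj w μ * (A * h.Pt) ≠ 0)
    (hlow : ∀ a b, (A * h.Pt) a b ≠ 0 → μ ≤ w a) :
    ip W (diagonal w) * μ = ip W' (diagonal w) * h.lam := by
  obtain ⟨S, -, hS, eS⟩ := h.zero_decomp (h.cmp_mem 0 hW)
  obtain ⟨S', -, hS', eS'⟩ := h.zero_decomp (h.cmp_mem 0 hW')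
  rw [ip_cmp_zero] at eS eS'
  obtain ⟨T, hT⟩ : ∃ T, T = pj w μ * (A * h.Pt) := ⟨_, rfl⟩
  have h1 : pj w μ * W * (A * h.Pt) = T * cmp w 0 W' := by
    rw [Matrix.mul_assoc, ← Matrix.mul_assoc W, e, Matrix.mul_assoc, h.up_Pt hu', hT]
    simp only [Matrix.mul_assoc]
  rw [pj_up hu hlow, ← hT] at h1
  have h2 : diagonal w * T = μ • T := by
    rw [hT, ← Matrix.mul_assoc, H_mul_pj, Matrix.smul_mul]
  have h3 : T * diagonal w = h.lam • T := by
    rw [hT, Matrix.mul_assoc, Matrix.mul_assoc]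
    unfold Pt
    rw [pj_mul_H, Matrix.mul_smul, Matrix.mul_smul]
  have h4 := congrArg (fun M => ip M T) h1
  rw [eS, eS'] at h4
  simp only [Matrix.add_mul, Matrix.mul_add, Matrix.smul_mul, Matrix.mul_smul, h2, h3,
    ip_add_left, ip_smul_left, ip_skew_left hS, ip_skew_right hS', add_zero] at h4
  have h5 : 0 < ip T T := ip_pos (hT ▸ h0)
  have h6 := h.h2_pos
  field_simp at h4
  linarith

/-- `P` is the stabiliser of the top eigenspace -/
theorem mem_P_of {g : G} {B : Mat n} (e : (ρ g).1 * h.Pt = h.Pt * B) : g ∈ h.P := by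
  obtain ⟨κ, hκ, s, u, hu, rfl⟩ := h.iwa g
  refine h.P.mul_mem (h.P.mul_mem (h.L_le_P ?_) (h.a_mem_P s)) (h.N_le_P hu)
  rw [vmul, vmul, Matrix.mul_assoc, h.N_Pt hu, Matrix.mul_assoc, h.a_Pt, Matrix.mul_smul] at e
  obtain ⟨Y, hY⟩ : ∃ Y, Y = Ad ρ κ⁻¹ (diagonal w) := ⟨_, rfl⟩
  have hYl : Lie ρ Y := hY ▸ lie_Ad _ h.lie
  have hYs : Yᵀ = Y := by
    rw [hY, h.Ad_K (h.K.inv_mem hκ), transpose_mul, transpose_mul, transpose_transpose,
      diagonal_transpose, Matrix.mul_assoc]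
  have h1 : Y * h.Pt = h.lam • h.Pt := by
    have h2 : diagonal w * ((ρ κ).1 * h.Pt) = h.lam • ((ρ κ).1 * h.Pt) := by
      refine smul_right_injective _ (Real.exp_pos (s * h.lam)).ne' ?_
      show Real.exp _ • _ = Real.exp _ • _
      rw [← Matrix.mul_smul, smul_comm, e, ← Matrix.mul_assoc]
      unfold Pt
      rw [H_mul_pj, Matrix.smul_mul]
    rw [hY]
    unfold Ad
    rw [inv_inv, Matrix.mul_assoc, Matrix.mul_assoc, h2, Matrix.mul_smul, ← Matrix.mul_assoc,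
      coe_inv_mul, Matrix.one_mul]
  have h2 : ∀ j : ℝ, 0 < j → cmp w j Y = 0 := by
    intro j hj
    refine h.kill_Pt hj (h.cmp_mem j hYl) ?_
    have h3 := congrArg (cmp w (-j)) h1
    unfold Pt pj at h3
    rw [cmp_mul_diag, cmp_smul, (wt_diag _).cmp_ne (by linarith), smul_zero] at h3
    have h4 := congrArg transpose h3
    rw [transpose_mul, cmp_tr, neg_neg, hYs, diagonal_transpose, transpose_zero] at h4
    exact h4
  have h3 := h.sym_decomp hYl hYs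
  rw [h2 1 one_pos, h2 2 two_pos, transpose_zero, add_zero, add_zero, add_zero, zero_add] at h3
  obtain ⟨c, hc⟩ : ∃ c, c = ip Y (diagonal w) / ip (diagonal w) (diagonal w) := ⟨_, rfl⟩
  rw [← hc] at h3
  have h4 : c = 1 := by
    rw [h3, Matrix.smul_mul] at h1
    unfold Pt at h1
    rw [H_mul_pj, smul_smul, ← sub_eq_zero, ← sub_smul, smul_eq_zero] at h1
    rcases h1 with h1 | h1
    · exact mul_right_cancel₀ h.lam_pos.ne' (by linarith)
    · exact absurd h1 h.Pt_ne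
  rw [h4, one_smul, hY, ← h.mem_L'] at h3
  exact inv_mem_iff.1 h3

theorem L_conj_w0 {g : G} (hg : g ∈ h.L) : h.w0 * g * h.w0 ∈ h.L := by
  rw [h.mem_L'] at hg ⊢
  rw [Ad_mul, Ad_mul, h.Ad_w0_H, Ad_neg, Ad_neg, hg, h.Ad_w0_H, neg_neg]

theorem w0_sq : h.w0 * h.w0 ∈ h.M :=
  ⟨h.K.mul_mem h.w0_mem h.w0_mem, by simpa using h.L_conj_w0 h.L.one_mem⟩

theorem w0_conj_M {m : G} (hm : m ∈ h.M) : h.w0 * m * h.w0⁻¹ ∈ h.M := by
  have e : h.w0 * m * h.w0⁻¹ = (h.w0 * m * h.w0) * (h.w0 * h.w0)⁻¹ := by group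
  rw [e]
  exact h.M.mul_mem ⟨h.K.mul_mem (h.K.mul_mem h.w0_mem hm.1) h.w0_mem, h.L_conj_w0 hm.2⟩
    (h.M.inv_mem h.w0_sq)

theorem w0_conj_M' {m : G} (hm : m ∈ h.M) : h.w0⁻¹ * m * h.w0 ∈ h.M := by
  have e : h.w0⁻¹ * m * h.w0 = (h.w0 * h.w0)⁻¹ * (h.w0 * m * h.w0⁻¹) * (h.w0 * h.w0) := by group
  rw [e]
  exact h.M.mul_mem (h.M.mul_mem (h.M.inv_mem h.w0_sq) (h.w0_conj_M hm)) h.w0_sq

/-- the Bruhat decomposition -/
theorem bruhat (g : G) : g ∈ h.P ∨ ∃ u ∈ h.N, ∃ p ∈ h.P, g = u * h.w0 * p := by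
  obtain ⟨v, hv, h1⟩ := exists_proj (h.nn ⊔ h.nn.map (AdL ρ g))
    (diagonal w + Ad ρ g (diagonal w))
  obtain ⟨r, hr⟩ : ∃ r, r = diagonal w + Ad ρ g (diagonal w) - v := ⟨_, rfl⟩
  rw [← hr] at h1
  obtain ⟨V, hV, _, ⟨V', hV', rfl⟩, ev⟩ := Submodule.mem_sup.1 hv
  have ev' : v = V + Ad ρ g V' := ev.symm
  have hrl : Lie ρ r := by
    rw [hr, ev']
    exact h.lie_sub' (h.lie_add' h.lie (lie_Ad g h.lie)) (h.lie_add' hV.1 (lie_Ad g hV'.1))
  have hW := h.lie_tr hrl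
  have hW' := lie_Ad g⁻¹ hW
  have hu : Up w rᵀ := h.up_of_perp hW fun U hU hs =>
    h1 U (Submodule.mem_sup_left ⟨hU, hs⟩)
  have hu' : Up w (Ad ρ g⁻¹ rᵀ) := h.up_of_perp hW' fun U hU hs => by
    rw [← Ad_trace (ρ := ρ) g, Ad_mm, Ad_Ad_inv]
    exact h1 _ (Submodule.mem_sup_right ⟨U, ⟨hU, hs⟩, rfl⟩)
  have h2 : ip r r = ip rᵀ (diagonal w) + ip (Ad ρ g⁻¹ rᵀ) (diagonal w) := by
    conv_lhs => arg 1; rw [hr]
    rw [ip_sub_left, h1 v hv, sub_zero, ip_add_left]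
    unfold ip
    rw [diagonal_transpose, trace_mul_comm, ← Ad_trace (ρ := ρ) g (Ad ρ g⁻¹ rᵀ * diagonal w),
      Ad_mm, Ad_Ad_inv, trace_mul_comm (Ad ρ g (diagonal w))]
  by_cases h3 : ip rᵀ (diagonal w) + ip (Ad ρ g⁻¹ rᵀ) (diagonal w) = 0
  · right
    rw [h3] at h2
    have h4 := eq_zero_of_ip h2
    obtain ⟨u, hu, e⟩ := h.exists_N (lie_neg hV.1) hV.2.neg
    obtain ⟨u', hu', e'⟩ := h.exists_N (lie_neg hV'.1) hV'.2.neg
    have h5 : u⁻¹ * g * u' * h.w0 ∈ h.L := by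
      rw [h.mem_L', mul_assoc, mul_assoc, Ad_mul, Ad_mul, Ad_mul, h.Ad_w0_H, Ad_neg u', e',
        Ad_neg g, Ad_add g, Ad_neg g]
      have h6 : -(Ad ρ g (diagonal w) + -Ad ρ g V') = Ad ρ u (diagonal w) := by
        rw [e, ← sub_eq_zero, ← neg_eq_zero, ← h4, hr, ev']
        abel
      rw [h6, Ad_inv_Ad]
    have h6 := h.L.inv_mem (h.L_conj_w0 (h.L.inv_mem h5))
    refine ⟨u, hu, _, h.P.mul_mem (h.L_le_P h6) (h.N_le_P (h.N.inv_mem hu')), ?_⟩
    group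
  · left
    obtain ⟨c, hc, hl⟩ := exists_low (w := w) (h.val_Pt_ne g)
    obtain ⟨c', hc', hl'⟩ := exists_low (w := w) (h.val_Pt_ne g⁻¹)
    have h4 := h.low_key hW hW' hu hu' (A := (ρ g).1) (by
      conv_lhs => rw [← Ad_Ad_inv (ρ := ρ) g rᵀ, Ad_mul_val]) hc hl
    have h5 := h.low_key hW' hW hu' hu (A := (ρ g⁻¹).1) (Ad_mul_val _ _) hc' hl'
    obtain ⟨x, hx⟩ : ∃ x, x = ip rᵀ (diagonal w) := ⟨_, rfl⟩
    obtain ⟨y, hy⟩ : ∃ y, y = ip (Ad ρ g⁻¹ rᵀ) (diagonal w) := ⟨_, rfl⟩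
    rw [← hx, ← hy] at h3 h4 h5
    have hl0 := h.lam_pos
    have hx0 : x ≠ 0 := fun h0 => h3 (by
      rw [h0, zero_mul, eq_comm, mul_eq_zero] at h4
      rcases h4 with h4 | h4
      · rw [h0, h4, add_zero]
      · exact absurd h4 hl0.ne')
    have h6 : w c * w c' = h.lam * h.lam := by
      refine mul_left_cancel₀ hx0 ?_
      rw [← mul_assoc, h4, mul_right_comm, h5, mul_assoc]
    have h7 : w c = h.lam := by
      have a1 := h.le_lam c
      have a2 := h.le_lam c'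
      have a3 := h.neg_lam_le c
      have a4 := h.neg_lam_le c'
      have a5 : (h.lam - w c) * (h.lam + w c) = 0 := by
        have b1 : 0 ≤ (h.lam - w c) * (h.lam + w c) := mul_nonneg (by linarith) (by linarith)
        have b2 : 0 ≤ (h.lam - w c') * (h.lam + w c') := mul_nonneg (by linarith) (by linarith)
        nlinarith [sq_nonneg (w c - w c')]
      rcases mul_eq_zero.1 a5 with a6 | a6
      · linarith
      · exfalso
        apply h3
        have : w c = -h.lam := by linarith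
        rw [this] at h4
        exact mul_right_cancel₀ hl0.ne' (by linarith)
    refine h.mem_P_of (B := (ρ g).1 * h.Pt) ?_
    ext a b
    unfold Pt at hl ⊢
    rw [pj_mul_apply]
    split_ifs with h8
    · rfl
    · by_contra h9
      have := hl a b h9
      exact h8 (le_antisymm (h.le_lam a) (by linarith))

theorem bruhat' (g : G) : g ∈ h.P ∨
    ∃ u ∈ h.N, ∃ s : ℝ, ∃ m ∈ h.M, ∃ u' ∈ h.N, g = u * h.w0 * h.a s * m * u' := by
  rcases h.bruhat g with h1 | ⟨u, hu, p, hp, rfl⟩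
  · exact Or.inl h1
  · obtain ⟨m, hm, s, u', hu', rfl⟩ := h.P_decomp' hp
    refine Or.inr ⟨u, hu, s, m, hm, u', hu', ?_⟩
    rw [h.L_comm_a hm.2]
    group

theorem K_inter_P {g : G} (hK : g ∈ h.K) (hP : g ∈ h.P) : g ∈ h.M := by
  refine ⟨hK, fun a b h0 => ?_⟩
  have h1 := hP a b h0
  have h2 := up_inv hP b a (by rw [h.K_inv hK]; exact h0)
  linarith

end R1

end Vale.Agent.P092RG
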