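import Vale.Agent.P092RG.Rad
import Vale.Agent.P092RK.Lie
import Mathlib.MeasureTheory.Measure.Haar.InnerProductSpace

/-!
P092, rank one (helper76): Euclidean coordinates on `N` and the Lebesgue measure.
-/

set_option linter.all false

open Matrix MeasureTheory Filter Topology
open scoped InnerProductSpace

namespace Vale.Agent.P092RG

open Vale.Agent.P092.H793.Re
open Vale.Agent.P092RK (Eu emb emb_mem ip_emb emb_surj)

variable {n : ℕ} {G : Type} [Group G] [TopologicalSpace G]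
variable {ρ : G →* SLn n} {w : Fin n → ℝ}

theorem exists_left {m : ℕ} (e : Eu m →ₗ[ℝ] Mat n) (he : ∀ y y', ip (e y) (e y') = ⟪y, y'⟫_ℝ) :
    ∃ l : Mat n →ₗ[ℝ] Eu m, ∀ y, l (e y) = y := by
  obtain ⟨l, hl⟩ := e.exists_leftInverse_of_injective (LinearMap.ker_eq_bot'.2 fun y hy => by
    have := he y y
    rw [hy, ip_zero_left, eq_comm] at this
    exact inner_self_eq_zero.1 this)
  exact ⟨l, fun y => LinearMap.congr_fun hl y⟩

theorem ip_Ad_K (h : R1 ρ w) {κ : G} (hκ : κ ∈ h.K) (X Y : Mat n) :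
    ip (Ad ρ κ X) (Ad ρ κ Y) = ip X Y := by
  rw [h.Ad_K hκ, h.Ad_K hκ, ip_ort (h.K_tr_mul hκ)]

namespace R1

variable (h : R1 ρ w)
include h

theorem exists_e1 : ∃ e : Eu h.m1 →ₗ[ℝ] Mat n, (∀ y, e y ∈ h.g 1) ∧
    (∀ y y', ip (e y) (e y') = ⟪y, y'⟫_ℝ) ∧ ∀ Y ∈ h.g 1, ∃ y, e y = Y := by
  let core : InnerProductSpace.Core ℝ (h.g 1) :=
    { inner := fun x y => ip x.1 y.1
      conj_inner_symm := fun x y => ip_comm _ _
      re_inner_nonneg := fun x => ip_nonneg _
      add_left := fun x y z => ip_add_left _ _ _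
      smul_left := fun x y r => ip_smul_left _ _ _
      definite := fun x hx => Subtype.ext (eq_zero_of_ip hx) }
  letI := core.toNormedAddCommGroup
  letI := InnerProductSpace.ofCore core.toCore
  let b := stdOrthonormalBasis ℝ (h.g 1)
  refine ⟨(h.g 1).subtype ∘ₗ b.repr.symm.toLinearEquiv.toLinearMap, fun y => (b.repr.symm y).2,
    fun y y' => b.repr.symm.inner_map_map y y', fun Y hY => ⟨b.repr ⟨Y, hY⟩, ?_⟩⟩
  exact congrArg Subtype.val (b.repr.symm_apply_apply ⟨Y, hY⟩)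

/-- orthonormal coordinates on `g 1` -/
noncomputable def e1 : Eu h.m1 →ₗ[ℝ] Mat n := h.exists_e1.choose

theorem e1_mem (x : Eu h.m1) : h.e1 x ∈ h.g 1 := h.exists_e1.choose_spec.1 x

theorem ip_e1 (x x' : Eu h.m1) : ip (h.e1 x) (h.e1 x') = ⟪x, x'⟫_ℝ :=
  h.exists_e1.choose_spec.2.1 x x'

theorem e1_surj {X : Mat n} (hX : X ∈ h.g 1) : ∃ x, h.e1 x = X := h.exists_e1.choose_spec.2.2 X hX

/-- the left inverse of `e1` -/
noncomputable def l1 : Mat n →ₗ[ℝ] Eu h.m1 := (exists_left h.e1 h.ip_e1).choose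

/-- the left inverse of `emb` -/
noncomputable def l2 : Mat n →ₗ[ℝ] Eu h.m2 := (exists_left (emb h) (ip_emb h)).choose

theorem l1_e1 (x : Eu h.m1) : h.l1 (h.e1 x) = x := (exists_left h.e1 h.ip_e1).choose_spec x

theorem l2_e2 (y : Eu h.m2) : h.l2 (emb h y) = y := (exists_left (emb h) (ip_emb h)).choose_spec y

theorem e1_l1 {X : Mat n} (hX : X ∈ h.g 1) : h.e1 (h.l1 X) = X := by
  obtain ⟨x, rfl⟩ := h.e1_surj hX
  rw [h.l1_e1]

theorem e2_l2 {Y : Mat n} (hY : Y ∈ h.g 2) : emb h (h.l2 Y) = Y := by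
  obtain ⟨y, rfl⟩ := emb_surj h hY
  rw [h.l2_e2]

theorem continuous_e1 : Continuous h.e1 := h.e1.continuous_of_finiteDimensional

theorem continuous_e2 : Continuous (emb h) := (emb h).continuous_of_finiteDimensional

theorem continuous_l1 : Continuous h.l1 := h.l1.continuous_of_finiteDimensional

theorem continuous_l2 : Continuous h.l2 := h.l2.continuous_of_finiteDimensional

theorem m1_pos : 0 < h.m1 := by
  obtain ⟨X, hX, h0, h1⟩ := h.one
  exact Module.finrank_pos_iff_exists_ne_zero.2 ⟨⟨X, hX, h1⟩, fun h2 => h0 (congrArg Subtype.val h2)⟩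

theorem Q_pos : 0 < h.Q := lt_of_lt_of_le h.m1_pos (Nat.le_add_right _ _)

/-- the coordinate space of `N` -/
abbrev EN (h : R1 ρ w) : Type := Eu h.m1 × Eu h.m2

/-- the parametrisation of `N` -/
noncomputable def nE (p : h.EN) : G := ex ρ (h.e1 p.1 + emb h p.2)

/-- the coordinates on `N` -/
noncomputable def nC (g : G) : h.EN := (h.l1 (h.nX g), h.l2 (h.nZ g))

/-- the commutator in coordinates -/
noncomputable def br (x x' : Eu h.m1) : Eu h.m2 := h.l2 (h.e1 x * h.e1 x' - h.e1 x' * h.e1 x)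

/-- the group law in coordinates -/
noncomputable def mulE (p q : h.EN) : h.EN := (p.1 + q.1, p.2 + q.2 + (1 / 2 : ℝ) • h.br p.1 q.1)

/-- the dilations -/
noncomputable def dil (s : ℝ) (p : h.EN) : h.EN := (Real.exp s • p.1, Real.exp (2 * s) • p.2)

theorem e2_br (x x' : Eu h.m1) : emb h (h.br x x') = h.e1 x * h.e1 x' - h.e1 x' * h.e1 x :=
  h.e2_l2 (h.br11 (h.e1_mem x) (h.e1_mem x'))

theorem nE_mem (p : h.EN) : h.nE p ∈ h.N := h.nn_mem (h.e1_mem _) (emb_mem h _)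

theorem nC_nE (p : h.EN) : h.nC (h.nE p) = p := by
  unfold nC nE
  rw [h.nX_nn (h.e1_mem _) (emb_mem h _), h.nZ_nn (h.e1_mem _) (emb_mem h _), h.l1_e1, h.l2_e2]

theorem nE_nC {u : G} (hu : u ∈ h.N) : h.nE (h.nC u) = u := by
  unfold nC nE
  rw [h.e1_l1 (h.nX_mem u), h.e2_l2 (h.nZ_mem u), h.N_eq hu]

theorem nE_inj : Function.Injective h.nE := Function.LeftInverse.injective h.nC_nE

theorem continuous_nE : Continuous h.nE :=
  h.continuous_ex ((h.continuous_e1.comp continuous_fst).add (h.continuous_e2.comp continuous_snd))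
    fun p => h.lie_add' (h.e1_mem _).1 (emb_mem h _).1

theorem continuous_nC : Continuous h.nC :=
  (h.continuous_l1.comp h.continuous_nX).prodMk (h.continuous_l2.comp h.continuous_nZ)

theorem range_nE : Set.range h.nE = h.N :=
  Set.ext fun u => ⟨fun ⟨p, hp⟩ => hp ▸ h.nE_mem p, fun hu => ⟨_, h.nE_nC hu⟩⟩

theorem isClosedEmbedding_nE : IsClosedEmbedding h.nE :=
  ⟨Function.LeftInverse.isEmbedding h.nC_nE h.continuous_nC h.continuous_nE,
    h.range_nE ▸ h.isClosed_N⟩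

theorem nE_mul (p q : h.EN) : h.nE p * h.nE q = h.nE (h.mulE p q) := by
  unfold nE mulE
  rw [h.bch (h.e1_mem _) (emb_mem h _) (h.e1_mem _) (emb_mem h _)]
  simp only [map_add, map_smul, h.e2_br]

theorem nE_zero : h.nE 0 = 1 := by
  unfold nE
  rw [Prod.fst_zero, Prod.snd_zero, map_zero, map_zero, add_zero, h.ex_zero]

theorem nE_neg (p : h.EN) : h.nE (-p) = (h.nE p)⁻¹ := by
  unfold nE
  rw [← h.ex_neg (h.lie_add' (h.e1_mem _).1 (emb_mem h _).1), Prod.fst_neg, Prod.snd_neg, map_neg,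
    map_neg, neg_add]

theorem a_conj_nE (s : ℝ) (p : h.EN) : h.a s * h.nE p * (h.a s)⁻¹ = h.nE (h.dil s p) := by
  unfold nE dil
  rw [h.a_conj_nn s (h.e1_mem _) (emb_mem h _), map_smul, map_smul]

theorem a_mul_nE (s : ℝ) (p : h.EN) : h.a s * h.nE p = h.nE (h.dil s p) * h.a s := by
  rw [← h.a_conj_nE, inv_mul_cancel_right]

theorem nE_mul_a (s : ℝ) (p : h.EN) : h.nE p * h.a s = h.a s * h.nE (h.dil (-s) p) := by
  rw [← h.a_conj_nE, h.a_neg]; group

theorem dil_add (s t : ℝ) (p : h.EN) : h.dil (s + t) p = h.dil s (h.dil t p) := by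
  unfold dil
  simp only [smul_smul, ← Real.exp_add, mul_add]

theorem dil_zero (p : h.EN) : h.dil 0 p = p := by
  unfold dil
  simp only [mul_zero, Real.exp_zero, one_smul]

theorem continuous_br : Continuous fun q : Eu h.m1 × Eu h.m1 => h.br q.1 q.2 := by
  have h1 := h.continuous_e1
  exact h.continuous_l2.comp (((h1.comp continuous_fst).matrix_mul (h1.comp continuous_snd)).sub
    ((h1.comp continuous_snd).matrix_mul (h1.comp continuous_fst)))

theorem continuous_mulE : Continuous fun q : h.EN × h.EN => h.mulE q.1 q.2 := by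
  have h1 := h.continuous_br
  have h2 : Continuous fun q : h.EN × h.EN => h.br q.1.1 q.2.1 :=
    h1.comp (f := fun q : h.EN × h.EN => (q.1.1, q.2.1)) (by fun_prop)
  unfold mulE
  fun_prop

theorem continuous_dil : Continuous fun q : ℝ × h.EN => h.dil q.1 q.2 := by
  unfold dil
  fun_prop

theorem mp_mulE_left (p : h.EN) : MeasurePreserving (h.mulE p) volume volume := by
  have h1 : Continuous fun x => h.br p.1 x :=
    h.continuous_br.comp (f := fun x => (p.1, x)) (by fun_prop)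
  refine (measurePreserving_add_left volume p.1).skew_product
    (g := fun x y => p.2 + y + (1 / 2 : ℝ) • h.br p.1 x) (Continuous.measurable ?_)
    (Eventually.of_forall fun x => ?_)
  · show Continuous fun q : h.EN => p.2 + q.2 + (1 / 2 : ℝ) • h.br p.1 q.1
    fun_prop
  · exact ((measurePreserving_add_right volume _).comp
      (measurePreserving_add_left volume p.2)).map_eq

theorem mp_mulE_right (q : h.EN) : MeasurePreserving (fun p => h.mulE p q) volume volume := by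
  have h1 : Continuous fun x => h.br x q.1 :=
    h.continuous_br.comp (f := fun x => (x, q.1)) (by fun_prop)
  refine (measurePreserving_add_right volume q.1).skew_product
    (g := fun x y => y + q.2 + (1 / 2 : ℝ) • h.br x q.1) (Continuous.measurable ?_)
    (Eventually.of_forall fun x => ?_)
  · show Continuous fun p : h.EN => p.2 + q.2 + (1 / 2 : ℝ) • h.br p.1 q.1
    fun_prop
  · exact ((measurePreserving_add_right volume _).comp
      (measurePreserving_add_right volume q.2)).map_eq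

theorem mp_neg : MeasurePreserving (fun p : h.EN => -p) volume volume :=
  (Measure.measurePreserving_neg volume).prod (Measure.measurePreserving_neg volume)

theorem map_dil (s : ℝ) : Measure.map (h.dil s) volume =
    ENNReal.ofReal (Real.exp (-(h.Q * s))) • (volume : Measure h.EN) := by
  have e : h.dil s = Prod.map (Real.exp s • ·) (Real.exp (2 * s) • ·) := rfl
  rw [e, Measure.volume_eq_prod, ← Measure.map_prod_map _ _ (measurable_const_smul _)
    (measurable_const_smul _), Measure.map_addHaar_smul _ (Real.exp_pos _).ne',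
    Measure.map_addHaar_smul _ (Real.exp_pos _).ne', Measure.prod_smul_left,
    Measure.prod_smul_right, smul_smul, ← ENNReal.ofReal_mul (abs_nonneg _)]
  congr 2
  rw [finrank_euclideanSpace_fin, finrank_euclideanSpace_fin, abs_of_pos (by positivity),
    abs_of_pos (by positivity), ← Real.exp_nat_mul, ← Real.exp_nat_mul, ← Real.exp_neg,
    ← Real.exp_neg, ← Real.exp_add]
  congr 1
  unfold Q
  push_cast
  ring

theorem Ad_L_mem {g : G} (hg : g ∈ h.L) {j : ℝ} {X : Mat n} (hX : X ∈ h.g j) :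
    Ad ρ g X ∈ h.g j :=
  ⟨lie_Ad g hX.1, ((Wt.mul hg hX.2).mul (h.L.inv_mem hg)).cast (by ring)⟩

/-- the action of `M` in coordinates -/
noncomputable def rot (m : G) (p : h.EN) : h.EN :=
  (h.l1 (Ad ρ m (h.e1 p.1)), h.l2 (Ad ρ m (emb h p.2)))

theorem conj_nE {m : G} (hm : m ∈ h.L) (p : h.EN) : m * h.nE p * m⁻¹ = h.nE (h.rot m p) := by
  unfold nE rot
  rw [h.e1_l1 (h.Ad_L_mem hm (h.e1_mem _)), h.e2_l2 (h.Ad_L_mem hm (emb_mem h _)), ← Ad_add,
    h.ex_Ad _ (h.lie_add' (h.e1_mem _).1 (emb_mem h _).1)]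

theorem exists_rot {m : G} (hm : m ∈ h.M) : ∃ (A : Eu h.m1 ≃ₗᵢ[ℝ] Eu h.m1)
    (B : Eu h.m2 ≃ₗᵢ[ℝ] Eu h.m2), h.rot m = Prod.map A B := by
  refine ⟨((h.l1 ∘ₗ AdL ρ m ∘ₗ h.e1).isometryOfInner fun x y => ?_).toLinearIsometryEquiv rfl,
    ((h.l2 ∘ₗ AdL ρ m ∘ₗ emb h).isometryOfInner fun x y => ?_).toLinearIsometryEquiv rfl, rfl⟩
  · show ⟪h.l1 (Ad ρ m (h.e1 x)), h.l1 (Ad ρ m (h.e1 y))⟫_ℝ = _
    rw [← h.ip_e1, h.e1_l1 (h.Ad_L_mem hm.2 (h.e1_mem _)), h.e1_l1 (h.Ad_L_mem hm.2 (h.e1_mem _)),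
      ip_Ad_K h hm.1, h.ip_e1]
  · show ⟪h.l2 (Ad ρ m (emb h x)), h.l2 (Ad ρ m (emb h y))⟫_ℝ = _
    rw [← ip_emb h, h.e2_l2 (h.Ad_L_mem hm.2 (emb_mem h _)),
      h.e2_l2 (h.Ad_L_mem hm.2 (emb_mem h _)), ip_Ad_K h hm.1, ip_emb h]

theorem mp_rot {m : G} (hm : m ∈ h.M) : MeasurePreserving (h.rot m) volume volume := by
  obtain ⟨A, B, e⟩ := h.exists_rot hm
  rw [e]
  exact A.measurePreserving.prod B.measurePreserving

/-! ### the homogeneous gauge -/

/-- the homogeneous gauge -/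
noncomputable def gau (p : h.EN) : ℝ := max ‖p.1‖ (Real.sqrt ‖p.2‖)

theorem gau_nonneg (p : h.EN) : 0 ≤ h.gau p := le_max_of_le_left (norm_nonneg _)

theorem continuous_gau : Continuous h.gau := by unfold gau; fun_prop

theorem gau_dil (s : ℝ) (p : h.EN) : h.gau (h.dil s p) = Real.exp s * h.gau p := by
  unfold gau dil
  rw [mul_max_of_nonneg _ _ (Real.exp_pos s).le, norm_smul, norm_smul, Real.norm_eq_abs,
    Real.norm_eq_abs, abs_of_pos (Real.exp_pos _), abs_of_pos (Real.exp_pos _),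
    Real.sqrt_mul (Real.exp_pos _).le, two_mul, Real.exp_add, Real.sqrt_mul_self (Real.exp_pos _).le]

theorem gau_neg (p : h.EN) : h.gau (-p) = h.gau p := by
  unfold gau; rw [Prod.fst_neg, Prod.snd_neg, norm_neg, norm_neg]

theorem gau_rot {m : G} (hm : m ∈ h.M) (p : h.EN) : h.gau (h.rot m p) = h.gau p := by
  obtain ⟨A, B, e⟩ := h.exists_rot hm
  rw [e]
  unfold gau
  rw [Prod.map_fst, Prod.map_snd, A.norm_map, B.norm_map]

theorem gau_le_iff {p : h.EN} {r : ℝ} (hr : 0 ≤ r) :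
    h.gau p ≤ r ↔ ‖p.1‖ ≤ r ∧ ‖p.2‖ ≤ r ^ 2 := by
  unfold gau
  rw [max_le_iff, Real.sqrt_le_left hr]

theorem gau_eq_zero {p : h.EN} : h.gau p = 0 ↔ p = 0 := by
  constructor
  · intro h0
    have := (h.gau_le_iff le_rfl).1 h0.le
    rw [sq, mul_zero] at this
    exact Prod.ext (norm_le_zero_iff.1 this.1) (norm_le_zero_iff.1 this.2)
  · rintro rfl
    unfold gau
    simp

theorem isCompact_gau (r : ℝ) : IsCompact {p : h.EN | h.gau p ≤ r} := by
  refine Metric.isCompact_of_isClosed_isBounded (isClosed_le h.continuous_gau continuous_const)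
    ((Metric.isBounded_closedBall (x := (0 : h.EN)) (r := max r (r ^ 2))).subset fun p hp => ?_)
  have := (h.gau_le_iff ((h.gau_nonneg p).trans hp)).1 hp
  rw [mem_closedBall_zero_iff, Prod.norm_def]
  exact max_le_max this.1 this.2

theorem exists_dil {p : h.EN} (hp : p ≠ 0) :
    ∃ q, h.gau q = 1 ∧ p = h.dil (Real.log (h.gau p)) q := by
  have h0 : 0 < h.gau p := lt_of_le_of_ne (h.gau_nonneg p) fun e => hp (h.gau_eq_zero.1 e.symm)
  refine ⟨h.dil (-Real.log (h.gau p)) p, ?_, ?_⟩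
  · rw [h.gau_dil, Real.exp_neg, Real.exp_log h0, inv_mul_cancel₀ h0.ne']
  · rw [← h.dil_add, add_neg_cancel, h.dil_zero]

/-- continuous positive homogeneous functions are comparable with the gauge -/
theorem gau_cmp {f : h.EN → ℝ} {k : ℕ} (hf : Continuous f) (h0 : f 0 = 0)
    (hp : ∀ p, p ≠ 0 → 0 < f p) (hk : k ≠ 0)
    (hd : ∀ s p, f (h.dil s p) = Real.exp (k * s) * f p) :
    ∃ c C : ℝ, 0 < c ∧ 0 < C ∧ ∀ p, c * h.gau p ^ k ≤ f p ∧ f p ≤ C * h.gau p ^ k := by
  have h1 : IsCompact {p : h.EN | h.gau p = 1} :=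
    (h.isCompact_gau 1).of_isClosed_subset (isClosed_eq h.continuous_gau continuous_const)
      fun p hp => le_of_eq hp
  have h2 : ∃ q, h.gau q = 1 := by
    haveI : Nontrivial (Eu h.m1) := Module.nontrivial_of_finrank_pos (R := ℝ) (by
      rw [finrank_euclideanSpace_fin]; exact h.m1_pos)
    obtain ⟨x, hx⟩ := exists_ne (0 : Eu h.m1)
    obtain ⟨q, hq, -⟩ := h.exists_dil (p := (x, 0)) fun e => hx (congrArg Prod.fst e)
    exact ⟨q, hq⟩
  obtain ⟨a, ha, hmin⟩ := h1.exists_isMinOn h2 hf.continuousOn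
  obtain ⟨b, hb, hmax⟩ := h1.exists_isMaxOn h2 hf.continuousOn
  have h3 : ∀ q, h.gau q = 1 → 0 < f q := fun q hq => hp q fun e => by
    rw [h.gau_eq_zero.2 e] at hq
    exact zero_ne_one hq
  refine ⟨f a, f b, h3 a ha, h3 b hb, fun p => ?_⟩
  by_cases hp0 : p = 0
  · rw [h.gau_eq_zero.2 hp0, hp0, h0, zero_pow hk, mul_zero, mul_zero]
    exact ⟨le_rfl, le_rfl⟩
  obtain ⟨q, hq, e⟩ := h.exists_dil hp0
  have h4 : 0 < h.gau p := lt_of_le_of_ne (h.gau_nonneg p) fun e => hp0 (h.gau_eq_zero.1 e.symm)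
  have h5 : f p = f q * h.gau p ^ k := by
    conv_lhs => rw [e, hd, Real.exp_nat_mul, Real.exp_log h4, mul_comm]
  rw [h5]
  exact ⟨mul_le_mul_of_nonneg_right (hmin hq) (by positivity),
    mul_le_mul_of_nonneg_right (hmax hq) (by positivity)⟩

/-- the pairing on the opposite unipotent group is the square of the gauge, up to constants -/
theorem bd_gau : ∃ c C : ℝ, 0 < c ∧ 0 < C ∧ ∀ p, c * h.gau p ^ 2 ≤ h.bd (h.w0 * (h.nE p * h.w0)) ∧
    h.bd (h.w0 * (h.nE p * h.w0)) ≤ C * h.gau p ^ 2 := by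
  haveI := topGroup h.rs.emb
  have h1 := h.continuous_nE
  refine h.gau_cmp (h.continuous_bd.comp (by fun_prop)) ?_ (fun p hp => h.bd_pos fun h2 => hp ?_)
    two_ne_zero fun s p => ?_
  · show h.bd _ = 0
    rw [h.nE_zero, one_mul]
    exact h.bd_P (h.M_le_P h.w0_sq)
  · have h3 : h.w0⁻¹ * h.nE p * h.w0 ∈ h.P := by
      have e : h.w0⁻¹ * h.nE p * h.w0 = (h.w0 * h.w0)⁻¹ * (h.w0 * (h.nE p * h.w0)) := by group
      rw [e]
      exact h.P.mul_mem (h.M_le_P (h.M.inv_mem h.w0_sq)) h2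
    have h4 := h.Ad_P_H h3
    rw [Ad_mul, Ad_mul, h.Ad_w0_H, Ad_neg, Ad_neg, h.Ad_P_H' (h.N_le_P (h.nE_mem p))] at h4
    have h5 : ∀ {j : ℝ} {X : Mat n}, Wt w j X → Wt w (-j) (Ad ρ h.w0⁻¹ X) := by
      intro j X hX
      rw [wt_iff]
      have h6 : Ad ρ h.w0⁻¹ (diagonal w) = -diagonal w := by
        have := congrArg (Ad ρ h.w0⁻¹) h.Ad_w0_H
        rw [Ad_inv_Ad, Ad_neg] at this
        exact neg_eq_iff_eq_neg.1 this.symm
      have h7 := congrArg (Ad ρ h.w0⁻¹) hX.comm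
      rw [Ad_sub, Ad_mm, Ad_mm, Ad_smul, h6, Matrix.neg_mul, Matrix.mul_neg] at h7
      rw [neg_smul, ← h7]
      abel
    have h6 := h5 (h.nX_mem (h.nE p)).2
    have h7 := h5 (h.nZ_mem (h.nE p)).2
    have h8 := h5 (wt_diag w)
    have a1 := h4.cmp (j := -1) (by norm_num)
    have a2 := h4.cmp (j := -2) (by norm_num)
    rw [Ad_sub, Ad_sub, Ad_smul, ← neg_one_smul ℝ (_ - _ - _)] at a1 a2
    simp only [cmp_sub, cmp_smul] at a1 a2
    rw [h8.cmp_ne (by norm_num), (wt_diag w).cmp_ne (by norm_num)] at a1 a2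
    rw [h6.cmp_self, h7.cmp_ne (by norm_num)] at a1
    rw [h7.cmp_self, h6.cmp_ne (by norm_num)] at a2
    simp only [smul_zero, sub_zero, zero_sub, smul_neg, neg_smul, one_smul, neg_neg,
      smul_eq_zero, OfNat.ofNat_ne_zero, false_or] at a1 a2
    have b1 := congrArg (Ad ρ h.w0) a1
    have b2 := congrArg (Ad ρ h.w0) a2
    rw [Ad_Ad_inv] at b1 b2
    have b3 : Ad ρ h.w0 (0 : Mat n) = 0 := by unfold Ad; rw [Matrix.mul_zero, Matrix.zero_mul]
    rw [← h.nC_nE p]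
    unfold nC
    rw [b1, b2, b3, map_zero, map_zero]
    rfl
  · show h.bd (h.w0 * (h.nE (h.dil s p) * h.w0)) = _
    rw [← h.a_conj_nE, ← h.a_neg, mul_assoc, mul_assoc, h.bd_w0_a_mul, ← mul_assoc, ← mul_assoc,
      h.bd_mul_a_w0, neg_neg, ← mul_assoc, ← Real.exp_add, mul_assoc]
    congr 2
    push_cast
    ring

end R1

end Vale.Agent.P092RG
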