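import Vale.Agent.P092.H793.Re.L4

/-!
P092, rank one (helper76): real linear groups of rank one, the grading of the Lie algebra.
-/

set_option linter.all false

open Matrix Filter Topology

namespace Vale.Agent.P092RG

open Vale.Agent.P092.H793.Re

variable {n : ℕ} {G : Type} [Group G] [TopologicalSpace G]

/-- `ρ` is a self-adjoint realisation of real rank one, `diag(w)` spans the split torus and the
roots take the values `±1`, `±2` on it. -/
structure R1 (ρ : G →* SLn n) (w : Fin n → ℝ) : Prop where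
  rs : RS ρ
  lie : Lie ρ (diagonal w)
  cent : ∀ X : Mat n, Lie ρ X → Xᵀ = X → X * diagonal w = diagonal w * X →
    ∃ c : ℝ, X = c • diagonal w
  wt : ∀ X : Mat n, Lie ρ X → ∀ a b, X a b ≠ 0 →
    w a - w b = -2 ∨ w a - w b = -1 ∨ w a - w b = 0 ∨ w a - w b = 1 ∨ w a - w b = 2
  one : ∃ X : Mat n, Lie ρ X ∧ X ≠ 0 ∧ ∀ a b, X a b ≠ 0 → w a - w b = 1

/-- matrices of weight `j` -/
def Wt (w : Fin n → ℝ) (j : ℝ) (X : Mat n) : Prop := ∀ a b, X a b ≠ 0 → w a - w b = j

/-- the component of weight `j` -/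
noncomputable def cmp (w : Fin n → ℝ) (j : ℝ) (X : Mat n) : Mat n :=
  of fun a b => (if w a - w b = j then 1 else 0) * X a b

/-- the Frobenius inner product -/
def ip (X Y : Mat n) : ℝ := (X * Yᵀ).trace

variable {ρ : G →* SLn n} {w : Fin n → ℝ}

theorem Wt.zero (w : Fin n → ℝ) (j : ℝ) : Wt w j 0 := fun _ _ h => absurd rfl h

theorem Wt.add {j : ℝ} {X Y : Mat n} (hX : Wt w j X) (hY : Wt w j Y) : Wt w j (X + Y) := by
  intro a b h
  by_cases h1 : X a b = 0
  · refine hY a b fun h2 => h ?_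
    rw [Matrix.add_apply, h1, h2, add_zero]
  · exact hX a b h1

theorem Wt.smul {j : ℝ} {X : Mat n} (c : ℝ) (hX : Wt w j X) : Wt w j (c • X) := by
  intro a b h
  refine hX a b fun h2 => h ?_
  rw [Matrix.smul_apply, h2, smul_zero]

/-- the root space of weight `j` -/
def R1.g (h : R1 ρ w) (j : ℝ) : Submodule ℝ (Mat n) where
  carrier := {X | Lie ρ X ∧ Wt w j X}
  add_mem' := fun hX hY => ⟨lie_add h.rs.emb hX.1 hY.1, hX.2.add hY.2⟩
  zero_mem' := ⟨lie_zero, Wt.zero w j⟩
  smul_mem' := fun c _ hX => ⟨lie_smul c hX.1, hX.2.smul c⟩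

theorem R1.mem_g (h : R1 ρ w) {j : ℝ} {X : Mat n} : X ∈ h.g j ↔ Lie ρ X ∧ Wt w j X := Iff.rfl

/-- the multiplicity of the short root -/
noncomputable def R1.m1 (h : R1 ρ w) : ℕ := Module.finrank ℝ (h.g 1)

/-- the multiplicity of the long root -/
noncomputable def R1.m2 (h : R1 ρ w) : ℕ := Module.finrank ℝ (h.g 2)

/-- the homogeneous dimension of the boundary -/
noncomputable def R1.Q (h : R1 ρ w) : ℕ := h.m1 + 2 * h.m2

/-- the split torus -/
noncomputable def R1.a (h : R1 ρ w) (s : ℝ) : G := (h.lie s).choose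

/-- the maximal compact subgroup -/
def R1.K (h : R1 ρ w) : Subgroup G where
  carrier := {κ | Ort ρ κ}
  one_mem' := ort_one
  mul_mem' := fun h1 h2 => ort_mul h1 h2
  inv_mem' := fun h1 => ort_inv' h1

/-- the exponential of an element of the Lie algebra (`1` off the Lie algebra) -/
noncomputable def ex (ρ : G →* SLn n) (X : Mat n) : G := by
  classical
  exact if hX : Lie ρ X then (exp_mem hX).choose else 1

end Vale.Agent.P092RG
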