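import Vale.Agent.P092RG.Bru
import Mathlib.Topology.Order.Compact
import Mathlib.Topology.Maps.Proper.Basic
import Mathlib.Analysis.SpecialFunctions.Pow.Continuity

/-!
P092, rank one (helper76): the Iwasawa height, the Iwasawa coordinates, the pairing, the radius.
-/

set_option linter.all false

open Matrix Filter Topology

namespace Vale.Agent.P092RG

open Vale.Agent.P092.H793.Re

variable {n : ℕ} {G : Type} [Group G] [TopologicalSpace G]
variable {ρ : G →* SLn n} {w : Fin n → ℝ}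

theorem ip_ort_left {k : Mat n} (hk : kᵀ * k = 1) (X Y : Mat n) :
    ip (k * X) (k * Y) = ip X Y := by
  rw [ip_mul_left, ← Matrix.mul_assoc, hk, Matrix.one_mul]

theorem ip_ort_right {k : Mat n} (hk : k * kᵀ = 1) (X Y : Mat n) :
    ip (X * k) (Y * k) = ip X Y := by
  rw [ip_mul_right, Matrix.mul_assoc, hk, Matrix.mul_one]

namespace R1

variable (h : R1 ρ w)
include h

/-- the Iwasawa height: `hs (κ a_s u) = s` -/
noncomputable def hs (g : G) : ℝ :=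
  Real.log (ip ((ρ g).1 * h.Pt) ((ρ g).1 * h.Pt) / h.dt) / (2 * h.lam)

theorem ip_val_Pt (g : G) :
    ip ((ρ g).1 * h.Pt) ((ρ g).1 * h.Pt) = Real.exp (2 * h.lam * h.hs g) * h.dt := by
  have h1 := h.lam_pos
  have h2 := h.dt_pos
  have h3 := ip_pos (h.val_Pt_ne g)
  unfold hs
  rw [mul_div_cancel₀ _ (by positivity), Real.exp_log (by positivity), div_mul_cancel₀ _ h2.ne']

theorem hs_eq {g : G} {s : ℝ}
    (e : ip ((ρ g).1 * h.Pt) ((ρ g).1 * h.Pt) = Real.exp (2 * h.lam * s) * h.dt) : h.hs g = s := by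
  rw [h.ip_val_Pt] at e
  have h1 := Real.exp_injective (mul_right_cancel₀ h.dt_pos.ne' e)
  have := h.lam_pos
  exact mul_left_cancel₀ (by positivity) h1

theorem continuous_hs : Continuous h.hs := by
  have h1 : Continuous fun g => ip ((ρ g).1 * h.Pt) ((ρ g).1 * h.Pt) :=
    continuous_ip (h.continuous_val.matrix_mul continuous_const)
      (h.continuous_val.matrix_mul continuous_const)
  refine Continuous.div_const (Continuous.log (h1.div_const _) fun g => ?_) _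
  exact (div_pos (ip_pos (h.val_Pt_ne g)) h.dt_pos).ne'

theorem hs_K_mul {κ : G} (hκ : κ ∈ h.K) (g : G) : h.hs (κ * g) = h.hs g := by
  refine h.hs_eq ?_
  rw [vmul, Matrix.mul_assoc, ip_ort_left (h.K_tr_mul hκ), h.ip_val_Pt]

theorem hs_mul_N (g : G) {u : G} (hu : u ∈ h.N) : h.hs (g * u) = h.hs g := by
  refine h.hs_eq ?_
  rw [vmul, Matrix.mul_assoc, h.N_Pt hu, h.ip_val_Pt]

theorem hs_mul_M (g : G) {m : G} (hm : m ∈ h.M) : h.hs (g * m) = h.hs g := by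
  refine h.hs_eq ?_
  rw [vmul, Matrix.mul_assoc, h.L_Pt hm.2, ← Matrix.mul_assoc, ip_ort_right (h.K_mul_tr hm.1),
    h.ip_val_Pt]

theorem hs_mul_a (g : G) (s : ℝ) : h.hs (g * h.a s) = h.hs g + s := by
  refine h.hs_eq ?_
  rw [vmul, Matrix.mul_assoc, h.a_Pt, Matrix.mul_smul, ip_smul_left, ip_smul_right, h.ip_val_Pt,
    ← mul_assoc, ← mul_assoc, ← Real.exp_add, ← Real.exp_add]
  congr 2
  ring

theorem hs_one : h.hs 1 = 0 := by
  refine h.hs_eq ?_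
  rw [vone, Matrix.one_mul, h.ip_Pt, mul_zero, Real.exp_zero, one_mul]

theorem hs_K {κ : G} (hκ : κ ∈ h.K) : h.hs κ = 0 := by
  rw [← mul_one κ, h.hs_K_mul hκ, h.hs_one]

theorem hs_a (s : ℝ) : h.hs (h.a s) = s := by
  rw [← one_mul (h.a s), h.hs_mul_a, h.hs_one, zero_add]

theorem hs_kan {κ u : G} (hκ : κ ∈ h.K) (s : ℝ) (hu : u ∈ h.N) : h.hs (κ * h.a s * u) = s := by
  rw [h.hs_mul_N _ hu, h.hs_K_mul hκ, h.hs_a]

theorem hs_mul_P (g : G) {p : G} (hp : p ∈ h.P) : h.hs (g * p) = h.hs g + h.hs p := by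
  obtain ⟨m, hm, s, u, hu, rfl⟩ := h.P_decomp' hp
  rw [h.hs_kan hm.1 s hu, ← mul_assoc, ← mul_assoc, h.hs_mul_N _ hu, h.hs_mul_a, h.hs_mul_M _ hm]

theorem hs_N {u : G} (hu : u ∈ h.N) : h.hs u = 0 := by
  rw [← one_mul u, h.hs_mul_N _ hu, h.hs_one]

theorem eq_one_of_K_N {g : G} (hK : g ∈ h.K) (hN : g ∈ h.N) : g = 1 :=
  h.eq_one_of_N_L hN (h.K_inter_P hK (h.N_le_P hN)).2

theorem iwa_unique {κ κ' u u' : G} {s s' : ℝ} (hκ : κ ∈ h.K) (hκ' : κ' ∈ h.K) (hu : u ∈ h.N)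
    (hu' : u' ∈ h.N) (e : κ * h.a s * u = κ' * h.a s' * u') : κ = κ' ∧ s = s' ∧ u = u' := by
  have h1 : s = s' := by rw [← h.hs_kan hκ s hu, e, h.hs_kan hκ' s' hu']
  subst h1
  have h2 : κ'⁻¹ * κ = h.a s * (u' * u⁻¹) * (h.a s)⁻¹ := by
    have : κ = κ' * h.a s * u' * u⁻¹ * (h.a s)⁻¹ := by rw [← e]; group
    rw [this]; group
  have h3 := h.eq_one_of_K_N (h.K.mul_mem (h.K.inv_mem hκ') hκ)
    (h2 ▸ h.conj_N (h.a_mem_P s) (h.N.mul_mem hu' (h.N.inv_mem hu)))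
  rw [inv_mul_eq_one] at h3
  subst h3
  exact ⟨rfl, rfl, mul_left_cancel e⟩

/-- the compact Iwasawa coordinate -/
noncomputable def ik (g : G) : G := (h.iwa g).choose

/-- the unipotent Iwasawa coordinate -/
noncomputable def iu (g : G) : G := (h.a (h.hs g))⁻¹ * (h.ik g)⁻¹ * g

theorem ik_mem (g : G) : h.ik g ∈ h.K := (h.iwa g).choose_spec.1

theorem iu_mem (g : G) : h.iu g ∈ h.N := by
  obtain ⟨s, u, hu, e⟩ := (h.iwa g).choose_spec.2
  have e' : g = h.ik g * h.a s * u := e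
  have h1 : h.hs g = s := by rw [e', h.hs_kan (h.ik_mem g) s hu]
  have h2 : h.iu g = u := by
    unfold iu
    rw [h1]
    conv_lhs => arg 2; rw [e']
    group
  rw [h2]; exact hu

theorem iwa_eq (g : G) : h.ik g * h.a (h.hs g) * h.iu g = g := by unfold iu; group

theorem ik_kan {κ u : G} (hκ : κ ∈ h.K) (s : ℝ) (hu : u ∈ h.N) : h.ik (κ * h.a s * u) = κ :=
  (h.iwa_unique (h.ik_mem _) hκ (h.iu_mem _) hu (h.iwa_eq _)).1

theorem iu_kan {κ u : G} (hκ : κ ∈ h.K) (s : ℝ) (hu : u ∈ h.N) : h.iu (κ * h.a s * u) = u :=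
  (h.iwa_unique (h.ik_mem _) hκ (h.iu_mem _) hu (h.iwa_eq _)).2.2

theorem ik_K {κ : G} (hκ : κ ∈ h.K) : h.ik κ = κ := by
  have := h.ik_kan hκ 0 h.N.one_mem
  rwa [h.a_zero, mul_one, mul_one] at this

theorem ik_K_mul {κ : G} (hκ : κ ∈ h.K) (g : G) : h.ik (κ * g) = κ * h.ik g := by
  conv_lhs => rw [← h.iwa_eq g, ← mul_assoc, ← mul_assoc]
  exact h.ik_kan (h.K.mul_mem hκ (h.ik_mem g)) _ (h.iu_mem g)

theorem ik_mul_N (g : G) {u : G} (hu : u ∈ h.N) : h.ik (g * u) = h.ik g := by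
  conv_lhs => rw [← h.iwa_eq g, mul_assoc]
  exact h.ik_kan (h.ik_mem g) _ (h.N.mul_mem (h.iu_mem g) hu)

theorem ik_mul_a (g : G) (s : ℝ) : h.ik (g * h.a s) = h.ik g := by
  have e : g * h.a s = h.ik g * h.a (h.hs g + s) * ((h.a s)⁻¹ * h.iu g * h.a s) := by
    conv_lhs => rw [← h.iwa_eq g]
    rw [h.a_add]; group
  rw [e]
  exact h.ik_kan (h.ik_mem g) _ (h.conj_N' (h.a_mem_P s) (h.iu_mem g))

theorem ik_mul_M (g : G) {m : G} (hm : m ∈ h.M) : h.ik (g * m) = h.ik g * m := by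
  have e : g * m = (h.ik g * m) * h.a (h.hs g) * (m⁻¹ * h.iu g * m) := by
    conv_lhs => rw [← h.iwa_eq g]
    rw [mul_assoc (h.ik g) m, h.L_comm_a hm.2]; group
  rw [e]
  exact h.ik_kan (h.K.mul_mem (h.ik_mem g) hm.1) _ (h.conj_N' (h.M_le_P hm) (h.iu_mem g))

theorem ik_mul_ik (g g' : G) : h.ik (g * h.ik g') = h.ik (g * g') := by
  conv_rhs => rw [← h.iwa_eq g', ← mul_assoc, ← mul_assoc, h.ik_mul_N _ (h.iu_mem g'),
    h.ik_mul_a]

/-- the cocycle identity -/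
theorem hs_mul (g g' : G) : h.hs (g * g') = h.hs (g * h.ik g') + h.hs g' := by
  conv_lhs => rw [← h.iwa_eq g', ← mul_assoc, ← mul_assoc, h.hs_mul_N _ (h.iu_mem g'),
    h.hs_mul_a]

theorem continuous_ik : Continuous h.ik := by
  haveI := topGroup h.rs.emb
  haveI : CompactSpace h.K := isCompact_iff_compactSpace.1 h.isCompact_K
  refine continuous_iff_isClosed.2 fun C hC => ?_
  have e : h.ik ⁻¹' C = Prod.fst '' {q : G × h.K | (q.2 : G) ∈ C ∧
      (h.a (h.hs q.1))⁻¹ * (q.2 : G)⁻¹ * q.1 ∈ h.N} := by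
    ext g
    constructor
    · intro hg
      exact ⟨(g, ⟨h.ik g, h.ik_mem g⟩), ⟨hg, h.iu_mem g⟩, rfl⟩
    · rintro ⟨⟨g, κ⟩, ⟨h1, h2⟩, rfl⟩
      have h3 := h.ik_kan κ.2 (h.hs g) h2
      have h4 : (κ : G) * h.a (h.hs g) * ((h.a (h.hs g))⁻¹ * (κ : G)⁻¹ * g) = g := by group
      rw [h4] at h3
      show h.ik g ∈ C
      rw [h3]; exact h1
  rw [e]
  refine isClosedMap_fst_of_compactSpace _ (IsClosed.inter (hC.preimage (by fun_prop)) ?_)
  have h1 := h.continuous_a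
  have h2 := h.continuous_hs
  exact h.isClosed_N.preimage (f := fun q : G × h.K => (h.a (h.hs q.1))⁻¹ * (q.2 : G)⁻¹ * q.1)
    (by fun_prop)

theorem continuous_iu : Continuous h.iu := by
  haveI := topGroup h.rs.emb
  have h1 := h.continuous_a
  have h2 := h.continuous_hs
  have h3 := h.continuous_ik
  unfold iu
  fun_prop

/-- the Iwasawa homeomorphism -/
noncomputable def iwaH : h.K × ℝ × h.N ≃ₜ G where
  toFun q := q.1 * h.a q.2.1 * q.2.2
  invFun g := (⟨h.ik g, h.ik_mem g⟩, h.hs g, ⟨h.iu g, h.iu_mem g⟩)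
  left_inv q := Prod.ext (Subtype.ext (h.ik_kan q.1.2 _ q.2.2.2))
    (Prod.ext (h.hs_kan q.1.2 _ q.2.2.2) (Subtype.ext (h.iu_kan q.1.2 _ q.2.2.2)))
  right_inv g := h.iwa_eq g
  continuous_toFun := by
    haveI := topGroup h.rs.emb
    have h1 := h.continuous_a
    fun_prop
  continuous_invFun := (h.continuous_ik.subtype_mk _).prodMk
    (h.continuous_hs.prodMk (h.continuous_iu.subtype_mk _))

theorem iwaH_apply (q : h.K × ℝ × h.N) : h.iwaH q = q.1 * h.a q.2.1 * q.2.2 := rfl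

/-! ### the pairing -/

/-- the pairing: `bd (u w0 a_s m u') = e^s`, and `bd = 0` on `P` -/
noncomputable def bd (g : G) : ℝ :=
  (ip (h.Pb * (ρ g).1 * h.Pt) (h.Pb * (ρ g).1 * h.Pt) / h.dt) ^ (1 / (2 * h.lam))

theorem bd_nonneg (g : G) : 0 ≤ h.bd g :=
  Real.rpow_nonneg (div_nonneg (ip_nonneg _) h.dt_pos.le) _

theorem bd_rpow (g : G) : h.bd g ^ (2 * h.lam) * h.dt =
    ip (h.Pb * (ρ g).1 * h.Pt) (h.Pb * (ρ g).1 * h.Pt) := by
  have h1 := h.lam_pos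
  unfold bd
  rw [← Real.rpow_mul (div_nonneg (ip_nonneg _) h.dt_pos.le), one_div_mul_cancel (by positivity),
    Real.rpow_one, div_mul_cancel₀ _ h.dt_pos.ne']

theorem continuous_bd : Continuous h.bd := by
  have h0 : Continuous fun g => h.Pb * (ρ g).1 * h.Pt :=
    (continuous_const.matrix_mul h.continuous_val).matrix_mul continuous_const
  have := h.lam_pos
  exact ((continuous_ip h0 h0).div_const _).rpow_const fun g => Or.inr (by positivity)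

theorem bd_P {p : G} (hp : p ∈ h.P) : h.bd p = 0 := by
  have := h.lam_pos
  unfold bd
  rw [h.Pb_P_Pt hp, ip_zero_left, zero_div, Real.zero_rpow (by positivity)]

theorem bd_N_mul {u : G} (hu : u ∈ h.N) (g : G) : h.bd (u * g) = h.bd g := by
  unfold bd; rw [vmul, ← Matrix.mul_assoc, h.Pb_N hu]

theorem bd_mul_N (g : G) {u : G} (hu : u ∈ h.N) : h.bd (g * u) = h.bd g := by
  unfold bd
  rw [vmul, ← Matrix.mul_assoc, Matrix.mul_assoc _ (ρ u).1, h.N_Pt hu]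

theorem bd_M_mul {m : G} (hm : m ∈ h.M) (g : G) : h.bd (m * g) = h.bd g := by
  unfold bd
  rw [vmul, ← Matrix.mul_assoc, ← h.L_Pb hm.2, Matrix.mul_assoc, Matrix.mul_assoc,
    ip_ort_left (h.K_tr_mul hm.1), Matrix.mul_assoc]

theorem bd_mul_M (g : G) {m : G} (hm : m ∈ h.M) : h.bd (g * m) = h.bd g := by
  unfold bd
  rw [vmul, ← Matrix.mul_assoc, Matrix.mul_assoc _ (ρ m).1, h.L_Pt hm.2, ← Matrix.mul_assoc,
    ip_ort_right (h.K_mul_tr hm.1)]

theorem bd_scale {g g' : G} {s : ℝ} (e : h.Pb * (ρ g').1 * h.Pt =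
    Real.exp (s * h.lam) • (h.Pb * (ρ g).1 * h.Pt)) : h.bd g' = Real.exp s * h.bd g := by
  have := h.lam_pos
  unfold bd
  rw [e, ip_smul_left, ip_smul_right, ← mul_assoc, ← Real.exp_add, mul_div_assoc,
    Real.mul_rpow (Real.exp_pos _).le (div_nonneg (ip_nonneg _) h.dt_pos.le), ← Real.exp_mul]
  congr 2
  field_simp
  ring

theorem bd_mul_a (g : G) (s : ℝ) : h.bd (g * h.a s) = Real.exp s * h.bd g :=
  h.bd_scale (by
    rw [vmul, ← Matrix.mul_assoc, Matrix.mul_assoc _ (ρ (h.a s)).1, h.a_Pt, Matrix.mul_smul])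

theorem bd_a_mul (s : ℝ) (g : G) : h.bd (h.a s * g) = Real.exp (-s) * h.bd g :=
  h.bd_scale (by
    rw [vmul, ← Matrix.mul_assoc, h.Pb_a, Matrix.smul_mul, Matrix.smul_mul, neg_mul])

theorem bd_w0 : h.bd h.w0 = 1 := by
  unfold bd
  rw [Matrix.mul_assoc, h.w0_Pt, ← Matrix.mul_assoc, h.Pb_Pb, ip_ort_right (h.K_mul_tr h.w0_mem),
    h.ip_Pb, div_self h.dt_pos.ne', Real.one_rpow]

theorem bd_cell {u u' m : G} (hu : u ∈ h.N) (s : ℝ) (hm : m ∈ h.M) (hu' : u' ∈ h.N) :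
    h.bd (u * h.w0 * h.a s * m * u') = Real.exp s := by
  rw [h.bd_mul_N _ hu', h.bd_mul_M _ hm, h.bd_mul_a, h.bd_N_mul hu, h.bd_w0, mul_one]

theorem bd_eq_zero {g : G} : h.bd g = 0 ↔ g ∈ h.P := by
  refine ⟨fun h0 => ?_, h.bd_P⟩
  rcases h.bruhat' g with h1 | ⟨u, hu, s, m, hm, u', hu', rfl⟩
  · exact h1
  · rw [h.bd_cell hu s hm hu'] at h0
    exact absurd h0 (Real.exp_pos s).ne'

theorem bd_pos {g : G} (hg : g ∉ h.P) : 0 < h.bd g :=
  lt_of_le_of_ne (h.bd_nonneg g) fun h0 => hg (h.bd_eq_zero.1 h0.symm)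

theorem w0_not_mem : h.w0 ∉ h.P := fun h0 => by
  have := h.bd_P h0
  rw [h.bd_w0] at this
  exact one_ne_zero this

theorem bd_mul_P (g : G) {p : G} (hp : p ∈ h.P) :
    h.bd (g * p) = Real.exp (h.hs p) * h.bd g := by
  obtain ⟨m, hm, s, u, hu, rfl⟩ := h.P_decomp' hp
  rw [h.hs_kan hm.1 s hu, ← mul_assoc, ← mul_assoc, h.bd_mul_N _ hu, h.bd_mul_a, h.bd_mul_M _ hm]

theorem bd_P_mul {p : G} (hp : p ∈ h.P) (g : G) :
    h.bd (p * g) = Real.exp (-h.hs p) * h.bd g := by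
  obtain ⟨m, hm, s, u, hu, rfl⟩ := h.P_decomp' hp
  rw [h.hs_kan hm.1 s hu, mul_assoc, mul_assoc, h.bd_M_mul hm, h.bd_a_mul, h.bd_N_mul hu]

theorem w0_inv_a (s : ℝ) : h.w0⁻¹ * h.a s = h.a (-s) * h.w0⁻¹ := by
  have := h.w0_a (-s)
  rw [neg_neg] at this
  rw [inv_mul_eq_iff_eq_mul, ← mul_assoc, this, mul_inv_cancel_right]

theorem bd_w0_inv : h.bd h.w0⁻¹ = 1 := by
  have e : h.w0⁻¹ = h.w0 * (h.w0 * h.w0)⁻¹ := by group
  rw [e, h.bd_mul_M _ (h.M.inv_mem h.w0_sq), h.bd_w0]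

/-- the pairing is symmetric -/
theorem bd_inv (g : G) : h.bd g⁻¹ = h.bd g := by
  rcases h.bruhat' g with h1 | ⟨u, hu, s, m, hm, u', hu', rfl⟩
  · rw [h.bd_P h1, h.bd_P (h.P.inv_mem h1)]
  · rw [h.bd_cell hu s hm hu']
    simp only [_root_.mul_inv_rev]
    rw [h.bd_N_mul (h.N.inv_mem hu'), h.bd_M_mul (h.M.inv_mem hm), ← h.a_neg, h.bd_a_mul,
      h.bd_mul_N _ (h.N.inv_mem hu), h.bd_w0_inv, neg_neg, mul_one]

theorem bd_iwa (g g' : G) : h.bd (g * g') = Real.exp (h.hs g') * h.bd (g * h.ik g') := by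
  conv_lhs => rw [← h.iwa_eq g', ← mul_assoc, ← mul_assoc, h.bd_mul_N _ (h.iu_mem g'),
    h.bd_mul_a]

end R1

end Vale.Agent.P092RG
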