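import Vale.Agent.P092RG.Alg
import Vale.Agent.P092.H259.Re.Rec

/-!
P092, rank one (helper76): the torus, the sphere of `p`, the Cartan decomposition, the Weyl
element, the top and bottom projectors.
-/

set_option linter.all false

open Matrix Filter Topology

namespace Vale.Agent.P092RG

open Vale.Agent.P092.H793.Re

attribute [local instance] Matrix.linftyOpNormedRing Matrix.linftyOpNormedAlgebra

variable {n : ℕ} {G : Type} [Group G] [TopologicalSpace G]
variable {ρ : G →* SLn n} {w : Fin n → ℝ}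

theorem vmul (g g' : G) : (ρ (g * g')).1 = (ρ g).1 * (ρ g').1 := by rw [map_mul]; rfl

theorem vone : (ρ (1 : G)).1 = 1 := by rw [map_one]; rfl

theorem ex_val {X : Mat n} (hX : Lie ρ X) : (ρ (ex ρ X)).1 = NormedSpace.exp X := by
  unfold ex
  rw [dif_pos hX]
  exact (exp_mem hX).choose_spec

theorem smul_diag (s : ℝ) (x : Fin n → ℝ) :
    s • (diagonal x : Mat n) = diagonal fun a => s * x a := by
  ext i j
  by_cases hij : i = j
  · subst hij; simp
  · simp [diagonal_apply_ne _ hij]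

/-- the projector onto the eigenspace of weight `μ` -/
noncomputable def pj (w : Fin n → ℝ) (μ : ℝ) : Mat n := diagonal fun a => if w a = μ then 1 else 0

theorem pj_tr (μ : ℝ) : (pj w μ)ᵀ = pj w μ := diagonal_transpose _

theorem pj_mul_apply (μ : ℝ) (A : Mat n) (a b : Fin n) :
    (pj w μ * A) a b = if w a = μ then A a b else 0 := by
  unfold pj
  rw [diagonal_mul]
  split_ifs <;> simp

theorem mul_pj_apply (μ : ℝ) (A : Mat n) (a b : Fin n) :
    (A * pj w μ) a b = if w b = μ then A a b else 0 := by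
  unfold pj
  rw [mul_diagonal]
  split_ifs <;> simp

theorem pj_mul_pj (μ : ℝ) : pj w μ * pj w μ = pj w μ := by
  unfold pj
  rw [diagonal_mul_diagonal]
  congr 1
  funext a
  split_ifs <;> simp

theorem wt_pj (μ : ℝ) : Wt w 0 (pj w μ) := wt_diag _

theorem H_mul_pj (μ : ℝ) : diagonal w * pj w μ = μ • pj w μ := by
  ext a b
  rw [mul_pj_apply, Matrix.smul_apply]
  unfold pj
  by_cases hab : a = b
  · subst hab
    simp only [diagonal_apply_eq]
    split_ifs with h1 <;> simp [h1]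
  · simp [diagonal_apply_ne _ hab]

theorem pj_mul_H (μ : ℝ) : pj w μ * diagonal w = μ • pj w μ := by
  rw [← H_mul_pj]; exact wt_zero_iff.1 (wt_pj μ)

theorem Wt.mul_pj {j : ℝ} {X : Mat n} (hX : Wt w j X) (μ : ℝ) :
    X * pj w μ = pj w (μ + j) * X := by
  ext a b
  rw [mul_pj_apply, pj_mul_apply]
  by_cases h0 : X a b = 0
  · simp [h0]
  · have := hX a b h0
    have e : w b = μ ↔ w a = μ + j := by constructor <;> intro h <;> linarith
    simp only [e]

theorem ip_pj (μ : ℝ) : ip (pj w μ) (pj w μ) = (pj w μ).trace := by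
  unfold ip; rw [pj_tr, pj_mul_pj]

namespace R1

variable (h : R1 ρ w)
include h

theorem inj {g g' : G} (e : (ρ g).1 = (ρ g').1) : g = g' := ρ_inj h.rs.emb e

theorem continuous_val : Continuous fun g : G => (ρ g).1 := (emb_mat h.rs.emb).continuous

theorem continuous_iff {α : Type*} [TopologicalSpace α] {f : α → G} :
    Continuous f ↔ Continuous fun x => (ρ (f x)).1 :=
  (emb_mat h.rs.emb).isInducing.continuous_iff

theorem a_exp (s : ℝ) : (ρ (h.a s)).1 = NormedSpace.exp (s • diagonal w) := (h.lie s).choose_spec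

theorem a_val (s : ℝ) : (ρ (h.a s)).1 = diagonal fun a => Real.exp (s * w a) := by
  rw [h.a_exp, smul_diag, Vale.Agent.P092.H259.Re.exp_diag]

theorem a_add (s t : ℝ) : h.a (s + t) = h.a s * h.a t := by
  refine h.inj ?_
  rw [vmul, h.a_val, h.a_val, h.a_val, diagonal_mul_diagonal]
  congr 1
  funext a
  rw [← Real.exp_add, add_mul]

theorem a_zero : h.a 0 = 1 := by
  have := h.a_add 0 0
  rw [add_zero] at this
  exact left_eq_mul.1 this

theorem a_neg (s : ℝ) : h.a (-s) = (h.a s)⁻¹ := by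
  rw [eq_inv_iff_mul_eq_one, ← h.a_add, neg_add_cancel, h.a_zero]

theorem a_comm (s t : ℝ) : h.a s * h.a t = h.a t * h.a s := by
  rw [← h.a_add, ← h.a_add, add_comm]

theorem continuous_a : Continuous h.a := by
  rw [h.continuous_iff]
  simp only [h.a_val]
  refine Continuous.matrix_diagonal (continuous_pi fun a => ?_)
  fun_prop

theorem a_tr (s : ℝ) : (ρ (h.a s)).1ᵀ = (ρ (h.a s)).1 := by rw [h.a_val, diagonal_transpose]

theorem wt_a (s : ℝ) : Wt w 0 (ρ (h.a s)).1 := by rw [h.a_val]; exact wt_diag _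

theorem a_conj (s : ℝ) {j : ℝ} {X : Mat n} (hX : Wt w j X) :
    (ρ (h.a s)).1 * X * (ρ (h.a s)⁻¹).1 = Real.exp (j * s) • X := by
  rw [← h.a_neg, h.a_val, h.a_val]
  ext a b
  rw [mul_diagonal, diagonal_mul, Matrix.smul_apply, smul_eq_mul]
  by_cases h0 : X a b = 0
  · rw [h0]; ring
  · rw [← hX a b h0, mul_comm (Real.exp _), mul_assoc, ← Real.exp_add, mul_comm]
    congr 2
    ring

theorem a_mul_pj (s μ : ℝ) : (ρ (h.a s)).1 * pj w μ = Real.exp (s * μ) • pj w μ := by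
  rw [h.a_val]
  ext a b
  rw [mul_pj_apply, Matrix.smul_apply]
  unfold pj
  by_cases hab : a = b
  · subst hab
    simp only [diagonal_apply_eq]
    split_ifs with h1 <;> simp [h1]
  · simp [diagonal_apply_ne _ hab]

theorem pj_mul_a (s μ : ℝ) : pj w μ * (ρ (h.a s)).1 = Real.exp (s * μ) • pj w μ := by
  have := congrArg transpose (h.a_mul_pj s μ)
  rwa [transpose_mul, transpose_smul, pj_tr, h.a_tr] at this

theorem mem_K {κ : G} : κ ∈ h.K ↔ Ort ρ κ := Iff.rfl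

theorem K_mul_tr {κ : G} (hκ : κ ∈ h.K) : (ρ κ).1 * (ρ κ).1ᵀ = 1 := hκ

theorem K_tr_mul {κ : G} (hκ : κ ∈ h.K) : (ρ κ).1ᵀ * (ρ κ).1 = 1 := ort_symm hκ

theorem K_inv {κ : G} (hκ : κ ∈ h.K) : (ρ κ⁻¹).1 = (ρ κ).1ᵀ := ort_inv hκ

theorem isCompact_K : IsCompact (h.K : Set G) := isCompact_ort h.rs.emb

theorem ex_skew {Z : Mat n} (hZ : Lie ρ Z) (hs : Zᵀ = -Z) : ex ρ Z ∈ h.K := by
  show (ρ (ex ρ Z)).1 * (ρ (ex ρ Z)).1ᵀ = 1
  have h1 := Vale.Agent.P092.H35.ReK.exp_mul_exp_neg Z 1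
  rw [Vale.Agent.P092.H35.ReK.exp_neg_eq hs, one_smul] at h1
  rw [ex_val hZ, h1]

/-- `K` is transitive on the spheres of `p` -/
theorem sph {Y : Mat n} (hY : Lie ρ Y) (hs : Yᵀ = Y) : ∃ κ ∈ h.K, ∃ c : ℝ, 0 ≤ c ∧
    Y = c • ((ρ κ).1 * diagonal w * (ρ κ).1ᵀ) := by
  obtain ⟨κ, hκ, hmax⟩ := Vale.Agent.P092.H35.ReK.exists_max h.rs Y (diagonal w)
  have hl : Lie ρ ((ρ κ).1 * Y * (ρ κ).1ᵀ) := lie_ort hκ hY
  have hs' : ((ρ κ).1 * Y * (ρ κ).1ᵀ)ᵀ = (ρ κ).1 * Y * (ρ κ).1ᵀ := by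
    rw [transpose_mul, transpose_mul, transpose_transpose, hs, Matrix.mul_assoc]
  have hc := Vale.Agent.P092.H35.ReK.comm_of_max hs' (diagonal_transpose w)
    (lie_bracket h.rs.emb hl h.lie) hmax
  obtain ⟨c, hc⟩ := h.cent _ hl hs' hc
  obtain ⟨E, hE, hE0, hE1⟩ := h.one
  have hE2 := Wt.comm (w := w) (j := 1) (X := E) hE1
  have h0 : 0 ≤ c := by
    rw [hc, smul_diag] at hmax
    refine Vale.Agent.P092.H35.ReK.dom_of_max (ρ := ρ) one_pos hE0
      (lie_sub h.rs.emb hE (lie_transpose h.rs.adj hE)) ?_ hE2 hmax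
    rw [← smul_diag, Matrix.smul_mul, Matrix.mul_smul, ← smul_sub, hE2, one_smul]
  refine ⟨κ⁻¹, h.K.inv_mem hκ, c, h0, ?_⟩
  rw [ort_inv hκ, transpose_transpose, ← Matrix.smul_mul, ← Matrix.mul_smul, ← hc]
  calc Y = ((ρ κ).1ᵀ * (ρ κ).1) * Y * ((ρ κ).1ᵀ * (ρ κ).1) := by
        rw [ort_symm hκ, Matrix.one_mul, Matrix.mul_one]
    _ = _ := by simp only [Matrix.mul_assoc]

theorem exp_ort {κ : G} (hκ : κ ∈ h.K) (X : Mat n) :
    NormedSpace.exp ((ρ κ).1 * X * (ρ κ).1ᵀ) = (ρ κ).1 * NormedSpace.exp X * (ρ κ).1ᵀ := by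
  rw [← h.K_inv hκ, coe_inv, Matrix.exp_conj _ _ (isUnit_coe κ)]

/-- the Cartan decomposition -/
theorem kak (g : G) : ∃ κ ∈ h.K, ∃ κ' ∈ h.K, ∃ s : ℝ, 0 ≤ s ∧ g = κ * h.a s * κ' := by
  obtain ⟨κ, X, hκ, hs, hX, hg⟩ := polar h.rs g
  obtain ⟨κ', hκ', c, hc, hX⟩ := h.sph hX hs
  refine ⟨κ * κ', h.K.mul_mem hκ hκ', κ'⁻¹, h.K.inv_mem hκ', c, hc, h.inj ?_⟩
  rw [hg, hX, ← Matrix.smul_mul, ← Matrix.mul_smul, h.exp_ort hκ', vmul, vmul, vmul, h.a_exp,
    h.K_inv hκ']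
  simp only [Matrix.mul_assoc]

theorem exists_weyl : ∃ κ ∈ h.K, (ρ κ).1 * diagonal w * (ρ κ).1ᵀ = -diagonal w := by
  obtain ⟨κ, hκ, c, hc, e⟩ := h.sph (lie_neg h.lie) (by rw [transpose_neg, diagonal_transpose])
  have h1 := congrArg (fun X => ip X X) e
  simp only [ip_neg_left, ip_neg_right, neg_neg, ip_smul_left, ip_smul_right,
    ip_ort (h.K_tr_mul hκ)] at h1
  have h2 := h.h2_pos
  have h3 : c = 1 := by
    have : (c * c - 1) * ip (diagonal w) (diagonal w) = 0 := by linarith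
    rcases mul_eq_zero.1 this with h4 | h4
    · nlinarith
    · exact absurd h4 h2.ne'
  exact ⟨κ, hκ, by rw [e, h3, one_smul]⟩

/-- the Weyl element -/
noncomputable def w0 : G := h.exists_weyl.choose

theorem w0_mem : h.w0 ∈ h.K := h.exists_weyl.choose_spec.1

theorem w0_H : (ρ h.w0).1 * diagonal w * (ρ h.w0).1ᵀ = -diagonal w :=
  h.exists_weyl.choose_spec.2

theorem w0_H' : (ρ h.w0).1 * diagonal w = -(diagonal w * (ρ h.w0).1) := by
  have := congrArg (fun X => X * (ρ h.w0).1) h.w0_H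
  simp only [Matrix.mul_assoc, h.K_tr_mul h.w0_mem, Matrix.mul_one, Matrix.neg_mul] at this
  exact this

theorem w0_apply {a b : Fin n} (h0 : (ρ h.w0).1 a b ≠ 0) : w b = -w a := by
  have := congrFun (congrFun h.w0_H' a) b
  rw [mul_diagonal, Matrix.neg_apply, diagonal_mul] at this
  exact mul_left_cancel₀ h0 (by linarith)

theorem exists_neg (a : Fin n) : ∃ b, w b = -w a := by
  have h1 := congrFun (congrFun (h.K_mul_tr h.w0_mem) a) a
  rw [Matrix.mul_apply, Matrix.one_apply_eq] at h1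
  obtain ⟨b, -, hb⟩ := Finset.exists_ne_zero_of_sum_ne_zero (h1.trans_ne one_ne_zero)
  exact ⟨b, h.w0_apply (left_ne_zero_of_mul hb)⟩

theorem w0_pj (μ : ℝ) : (ρ h.w0).1 * pj w μ = pj w (-μ) * (ρ h.w0).1 := by
  ext a b
  rw [mul_pj_apply, pj_mul_apply]
  by_cases h0 : (ρ h.w0).1 a b = 0
  · simp [h0]
  · have := h.w0_apply h0
    have e : w b = μ ↔ w a = -μ := by constructor <;> intro h <;> linarith
    simp only [e]

theorem w0_a (s : ℝ) : h.w0 * h.a s = h.a (-s) * h.w0 := by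
  refine h.inj ?_
  rw [vmul, vmul, h.a_val, h.a_val]
  ext a b
  rw [mul_diagonal, diagonal_mul]
  by_cases h0 : (ρ h.w0).1 a b = 0
  · rw [h0]; ring
  · rw [h.w0_apply h0, mul_comm]
    congr 2
    ring

theorem exists_lam : ∃ l : ℝ, 0 < l ∧ (∃ a, w a = l) ∧ ∀ a, w a ≤ l := by
  have h1 : ∃ a, w a ≠ 0 := by
    by_contra h2
    push Not at h2
    exact h.H_ne (by rw [show w = fun _ => 0 from funext h2]; exact diagonal_zero)
  obtain ⟨a, ha⟩ := h1
  obtain ⟨b, -, hb⟩ := Finset.exists_max_image Finset.univ w ⟨a, Finset.mem_univ a⟩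
  refine ⟨w b, ?_, ⟨b, rfl⟩, fun c => hb c (Finset.mem_univ c)⟩
  obtain ⟨c, hc⟩ := h.exists_neg a
  have h2 := hb a (Finset.mem_univ a)
  have h3 := hb c (Finset.mem_univ c)
  rcases lt_or_gt_of_ne ha with h4 | h4 <;> linarith

/-- the highest weight -/
noncomputable def lam : ℝ := h.exists_lam.choose

theorem lam_pos : 0 < h.lam := h.exists_lam.choose_spec.1

theorem exists_top : ∃ a, w a = h.lam := h.exists_lam.choose_spec.2.1

theorem le_lam (a : Fin n) : w a ≤ h.lam := h.exists_lam.choose_spec.2.2 a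

theorem neg_lam_le (a : Fin n) : -h.lam ≤ w a := by
  obtain ⟨b, hb⟩ := h.exists_neg a
  have := h.le_lam b
  linarith

/-- the top projector -/
noncomputable def Pt : Mat n := pj w h.lam

/-- the bottom projector -/
noncomputable def Pb : Mat n := pj w (-h.lam)

/-- the dimension of the top eigenspace -/
noncomputable def dt : ℝ := h.Pt.trace

theorem Pt_ne : h.Pt ≠ 0 := by
  obtain ⟨a, ha⟩ := h.exists_top
  intro h0
  have := congrFun (congrFun h0 a) a
  unfold Pt pj at this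
  rw [diagonal_apply_eq, if_pos ha] at this
  exact one_ne_zero this

theorem ip_Pt : ip h.Pt h.Pt = h.dt := ip_pj _

theorem dt_pos : 0 < h.dt := h.ip_Pt ▸ ip_pos h.Pt_ne

theorem w0_Pt : (ρ h.w0).1 * h.Pt = h.Pb * (ρ h.w0).1 := h.w0_pj _

theorem w0_Pb : (ρ h.w0).1 * h.Pb = h.Pt * (ρ h.w0).1 := by
  unfold Pb; rw [h.w0_pj, neg_neg]; rfl

theorem trace_Pb : h.Pb.trace = h.dt := by
  have h1 : h.Pb = (ρ h.w0).1 * h.Pt * (ρ h.w0).1ᵀ := by
    rw [h.w0_Pt, Matrix.mul_assoc, h.K_mul_tr h.w0_mem, Matrix.mul_one]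
  rw [h1, trace_mul_comm, ← Matrix.mul_assoc, h.K_tr_mul h.w0_mem, Matrix.one_mul]
  rfl

theorem ip_Pb : ip h.Pb h.Pb = h.dt := (ip_pj _).trans h.trace_Pb

theorem pj_big {μ : ℝ} (hμ : h.lam < |μ|) : pj w μ = 0 := by
  unfold pj
  rw [← diagonal_zero]
  congr 1
  funext a
  refine if_neg fun e => ?_
  have h1 := h.le_lam a
  have h2 := h.neg_lam_le a
  rw [← e] at hμ
  exact absurd (abs_le.2 ⟨h2, h1⟩) (not_le.2 hμ)

theorem mul_Pt {j : ℝ} (hj : 0 < j) {X : Mat n} (hX : Wt w j X) : X * h.Pt = 0 := by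
  unfold Pt
  have := h.lam_pos
  rw [hX.mul_pj, h.pj_big (by rw [abs_of_pos (by linarith)]; linarith), Matrix.zero_mul]

theorem Pb_mul {j : ℝ} (hj : 0 < j) {X : Mat n} (hX : Wt w j X) : h.Pb * X = 0 := by
  have h1 := hX.mul_pj (-h.lam - j)
  have := h.lam_pos
  rw [h.pj_big (by rw [abs_of_neg (by linarith)]; linarith), Matrix.mul_zero,
    sub_add_cancel] at h1
  exact h1.symm

/-- root vectors act conformally from the top eigenspace -/
theorem Pt_sl2 {j : ℝ} (hj : 0 < j) {X : Mat n} (hX : X ∈ h.g j) :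
    (h.Pt * X) * (h.Pt * X)ᵀ =
      (j * ip X X / ip (diagonal w) (diagonal w) * h.lam) • h.Pt := by
  have h1 := congrArg (fun M => h.Pt * M * h.Pt) (h.sl2 hX)
  have h2 : h.Pt * (Xᵀ * X) * h.Pt = 0 := by
    rw [Matrix.mul_assoc, Matrix.mul_assoc, h.mul_Pt hj hX.2, Matrix.mul_zero, Matrix.mul_zero]
  simp only [Matrix.mul_sub, Matrix.sub_mul, h2, sub_zero, Matrix.mul_smul,
    Matrix.smul_mul] at h1
  unfold Pt at h1 ⊢
  rw [pj_mul_H, Matrix.smul_mul, pj_mul_pj, smul_smul] at h1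
  rw [← h1, transpose_mul, pj_tr]
  simp only [Matrix.mul_assoc]

theorem kill_Pt {j : ℝ} (hj : 0 < j) {X : Mat n} (hX : X ∈ h.g j) (h0 : h.Pt * X = 0) :
    X = 0 := by
  have h1 := h.Pt_sl2 hj hX
  rw [h0, Matrix.zero_mul, eq_comm, smul_eq_zero] at h1
  rcases h1 with h1 | h1
  · by_contra h2
    have h3 := ip_pos h2
    have h4 := h.h2_pos
    have h5 := h.lam_pos
    exact absurd h1 (by positivity)
  · exact absurd h1 h.Pt_ne

end R1

end Vale.Agent.P092RG
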