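import Vale.Agent.P092RG.Kak

/-!
P092, rank one (helper76): the subgroups `N`, `M`, `P`.
-/

set_option linter.all false

open Matrix Filter Topology

namespace Vale.Agent.P092RG

open Vale.Agent.P092.H793.Re

attribute [local instance] Matrix.linftyOpNormedRing Matrix.linftyOpNormedAlgebra

variable {n : ℕ} {G : Type} [Group G] [TopologicalSpace G]
variable {ρ : G →* SLn n} {w : Fin n → ℝ}

/-- block upper triangular -/
def Up (w : Fin n → ℝ) (A : Mat n) : Prop := ∀ a b, A a b ≠ 0 → w b ≤ w a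

/-- strictly block upper triangular -/
def SUp (w : Fin n → ℝ) (A : Mat n) : Prop := ∀ a b, A a b ≠ 0 → w b < w a

theorem SUp.up {A : Mat n} (h : SUp w A) : Up w A := fun a b h0 => (h a b h0).le

theorem Wt.sup {j : ℝ} {X : Mat n} (h : Wt w j X) (hj : 0 < j) : SUp w X := fun a b h0 => by
  have := h a b h0
  linarith

theorem Wt.up {j : ℝ} {X : Mat n} (h : Wt w j X) (hj : 0 ≤ j) : Up w X := fun a b h0 => by
  have := h a b h0
  linarith

theorem up_one : Up w (1 : Mat n) := by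
  rw [← diagonal_one]; exact (wt_diag _).up le_rfl

theorem sup_zero : SUp w (0 : Mat n) := fun _ _ h => absurd rfl h

theorem add_ne {A B : Mat n} {a b : Fin n} (h : (A + B) a b ≠ 0) : A a b ≠ 0 ∨ B a b ≠ 0 := by
  by_contra h1
  push Not at h1
  exact h (by rw [Matrix.add_apply, h1.1, h1.2, add_zero])

theorem mul_ne {A B : Mat n} {a b : Fin n} (h : (A * B) a b ≠ 0) :
    ∃ c, A a c ≠ 0 ∧ B c b ≠ 0 := by
  rw [Matrix.mul_apply] at h
  obtain ⟨c, -, hc⟩ := Finset.exists_ne_zero_of_sum_ne_zero h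
  exact ⟨c, left_ne_zero_of_mul hc, right_ne_zero_of_mul hc⟩

theorem Up.add {A B : Mat n} (hA : Up w A) (hB : Up w B) : Up w (A + B) := fun a b h0 =>
  (add_ne h0).elim (hA a b) (hB a b)

theorem SUp.add {A B : Mat n} (hA : SUp w A) (hB : SUp w B) : SUp w (A + B) := fun a b h0 =>
  (add_ne h0).elim (hA a b) (hB a b)

theorem Up.smul {A : Mat n} (hA : Up w A) (c : ℝ) : Up w (c • A) := fun a b h0 =>
  hA a b fun h1 => h0 (by rw [Matrix.smul_apply, h1, smul_zero])

theorem SUp.smul {A : Mat n} (hA : SUp w A) (c : ℝ) : SUp w (c • A) := fun a b h0 =>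
  hA a b fun h1 => h0 (by rw [Matrix.smul_apply, h1, smul_zero])

theorem SUp.neg {A : Mat n} (hA : SUp w A) : SUp w (-A) := by
  rw [← neg_one_smul ℝ A]; exact hA.smul _

theorem SUp.sub {A B : Mat n} (hA : SUp w A) (hB : SUp w B) : SUp w (A - B) := by
  rw [sub_eq_add_neg]; exact hA.add hB.neg

theorem Up.mul {A B : Mat n} (hA : Up w A) (hB : Up w B) : Up w (A * B) := fun a b h0 => by
  obtain ⟨c, h1, h2⟩ := mul_ne h0
  exact (hB c b h2).trans (hA a c h1)

theorem SUp.mul_up {A B : Mat n} (hA : SUp w A) (hB : Up w B) : SUp w (A * B) := fun a b h0 => by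
  obtain ⟨c, h1, h2⟩ := mul_ne h0
  exact (hB c b h2).trans_lt (hA a c h1)

theorem Up.mul_sup {A B : Mat n} (hA : Up w A) (hB : SUp w B) : SUp w (A * B) := fun a b h0 => by
  obtain ⟨c, h1, h2⟩ := mul_ne h0
  exact (hB c b h2).trans_le (hA a c h1)

theorem SUp.trace {A : Mat n} (hA : SUp w A) : A.trace = 0 := by
  refine Finset.sum_eq_zero fun a _ => ?_
  by_contra h0
  exact lt_irrefl _ (hA a a h0)

theorem SUp.cmp {A : Mat n} (hA : SUp w A) {j : ℝ} (hj : j ≤ 0) : cmp w j A = 0 := by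
  ext a b
  rw [cmp_apply, Matrix.zero_apply]
  split_ifs with h1
  · by_contra h2
    have := hA a b h2
    linarith
  · rfl

theorem Up.cmp {A : Mat n} (hA : Up w A) {j : ℝ} (hj : j < 0) : cmp w j A = 0 := by
  ext a b
  rw [cmp_apply, Matrix.zero_apply]
  split_ifs with h1
  · by_contra h2
    have := hA a b h2
    linarith
  · rfl

theorem SUp.eq_zero {A : Mat n} (hA : SUp w A) (h0 : Wt w 0 A) : A = 0 := by
  rw [← h0.cmp_self, hA.cmp le_rfl]

theorem Up.br_H {A : Mat n} (hA : Up w A) : SUp w (A * diagonal w - diagonal w * A) := by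
  intro a b h0
  rw [Matrix.sub_apply, mul_diagonal, diagonal_mul] at h0
  have h1 : A a b ≠ 0 := fun h2 => h0 (by rw [h2]; ring)
  refine lt_of_le_of_ne (hA a b h1) fun h2 => h0 ?_
  rw [h2]; ring

theorem isClosed_up : IsClosed {A : Mat n | Up w A} := by
  have : {A : Mat n | Up w A} = ⋂ a, ⋂ b, {A : Mat n | w b ≤ w a ∨ A a b = 0} := by
    ext A
    simp only [Set.mem_setOf_eq, Set.mem_iInter, Up]
    exact forall₂_congr fun a b => by tauto
  rw [this]
  refine isClosed_iInter fun a => isClosed_iInter fun b => ?_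
  by_cases h1 : w b ≤ w a
  · simp [h1]
  · simp only [h1, false_or]
    exact isClosed_eq (continuous_id.matrix_elem a b) continuous_const

theorem isClosed_sup : IsClosed {A : Mat n | SUp w A} := by
  have : {A : Mat n | SUp w A} = ⋂ a, ⋂ b, {A : Mat n | w b < w a ∨ A a b = 0} := by
    ext A
    simp only [Set.mem_setOf_eq, Set.mem_iInter, SUp]
    exact forall₂_congr fun a b => by tauto
  rw [this]
  refine isClosed_iInter fun a => isClosed_iInter fun b => ?_
  by_cases h1 : w b < w a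
  · simp [h1]
  · simp only [h1, false_or]
    exact isClosed_eq (continuous_id.matrix_elem a b) continuous_const

theorem SUp.exp {U : Mat n} (hU : SUp w U) : SUp w (NormedSpace.exp U - 1) := by
  have h1 := NormedSpace.expSeries_hasSum_exp (𝕂 := ℝ) U
  have h2 := (hasSum_nat_add_iff' 1).2 h1
  rw [Finset.sum_range_one, NormedSpace.expSeries_apply_eq] at h2
  simp only [Nat.factorial_zero, Nat.cast_one, inv_one, pow_zero, one_smul] at h2
  refine isClosed_sup.mem_of_tendsto h2.tendsto_sum_nat (Eventually.of_forall fun m => ?_)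
  show SUp w _
  refine Finset.sum_induction _ (SUp w) (fun a b => SUp.add) sup_zero fun k _ => ?_
  rw [NormedSpace.expSeries_apply_eq]
  refine SUp.smul ?_ _
  have h3 : ∀ k : ℕ, Up w (U ^ k) := fun k => by
    induction k with
    | zero => rw [pow_zero]; exact up_one
    | succ k ih => rw [pow_succ]; exact ih.mul hU.up
  rw [pow_succ]
  exact (h3 k).mul_sup hU

theorem up_inv {g : G} (hg : Up w (ρ g).1) : Up w (ρ g⁻¹).1 := by
  have h1 : ∀ A : Mat n, Up w A ↔ BlockTriangular A fun a => -w a := fun A => by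
    constructor
    · intro h a b hab
      by_contra h0
      have := h a b h0
      simp only at hab
      linarith
    · intro h a b h0
      by_contra h1
      exact h0 (h (by simp only; linarith))
  rw [h1] at hg ⊢
  exact Vale.Agent.P092.H259.Re.blockTriangular_inv hg

/-- the adjoint action of an exponential on a vector killed in two steps -/
theorem conj_exp {U Y : Mat n} (h2 : U * (U * Y - Y * U) = (U * Y - Y * U) * U) :
    NormedSpace.exp U * Y * NormedSpace.exp (-U) = Y + (U * Y - Y * U) := by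
  obtain ⟨W, hW⟩ : ∃ W, W = U * Y - Y * U := ⟨_, rfl⟩
  rw [← hW] at h2 ⊢
  have hd : ∀ t : ℝ, HasDerivAt (fun t : ℝ => NormedSpace.exp (t • (-U)) * (Y + t • W) *
      NormedSpace.exp (t • U)) 0 t := by
    intro t
    have h1 := hasDerivAt_exp_smul_const (𝕂 := ℝ) (-U) t
    have h3 := hasDerivAt_exp_smul_const' (𝕂 := ℝ) U t
    have h4 : HasDerivAt (fun t : ℝ => Y + t • W) W t := by
      have := ((hasDerivAt_id t).smul_const W).const_add Y
      rwa [one_smul] at this
    refine ((h1.mul h4).mul h3).congr_deriv ?_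
    simp only [Pi.mul_apply]
    have e : -U * (Y + t • W) + W + (Y + t • W) * U = 0 := by
      rw [Matrix.mul_add, Matrix.add_mul, Matrix.mul_smul, Matrix.smul_mul, Matrix.neg_mul,
        Matrix.neg_mul, h2, smul_neg]
      conv_lhs => arg 1; arg 2; rw [hW]
      abel
    calc _ = NormedSpace.exp (t • -U) * (-U * (Y + t • W) + W + (Y + t • W) * U) *
          NormedSpace.exp (t • U) := by noncomm_ring
      _ = 0 := by rw [e, Matrix.mul_zero, Matrix.zero_mul]
  have h5 := is_const_of_deriv_eq_zero (fun t => (hd t).differentiableAt)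
    (fun t => (hd t).deriv) 1 0
  simp only [one_smul, zero_smul, NormedSpace.exp_zero, add_zero, Matrix.one_mul,
    Matrix.mul_one] at h5
  have h6 := Vale.Agent.P092.H35.ReK.exp_mul_exp_neg U 1
  simp only [one_smul] at h6
  calc NormedSpace.exp U * Y * NormedSpace.exp (-U) =
        NormedSpace.exp U * (NormedSpace.exp (-U) * (Y + W) * NormedSpace.exp U) *
          NormedSpace.exp (-U) := by rw [h5]
    _ = (NormedSpace.exp U * NormedSpace.exp (-U)) * (Y + W) *
        (NormedSpace.exp U * NormedSpace.exp (-U)) := by simp only [Matrix.mul_assoc]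
    _ = _ := by rw [h6, Matrix.one_mul, Matrix.mul_one]

/-- the adjoint action -/
noncomputable def Ad (ρ : G →* SLn n) (g : G) (Y : Mat n) : Mat n := (ρ g).1 * Y * (ρ g⁻¹).1

theorem Ad_mul (g g' : G) (Y : Mat n) : Ad ρ (g * g') Y = Ad ρ g (Ad ρ g' Y) := by
  unfold Ad
  rw [_root_.mul_inv_rev, vmul, vmul]
  simp only [Matrix.mul_assoc]

theorem Ad_one (Y : Mat n) : Ad ρ 1 Y = Y := by
  unfold Ad; rw [inv_one, vone, Matrix.one_mul, Matrix.mul_one]

theorem Ad_inv_Ad (g : G) (Y : Mat n) : Ad ρ g⁻¹ (Ad ρ g Y) = Y := by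
  rw [← Ad_mul, inv_mul_cancel, Ad_one]

theorem Ad_Ad_inv (g : G) (Y : Mat n) : Ad ρ g (Ad ρ g⁻¹ Y) = Y := by
  rw [← Ad_mul, mul_inv_cancel, Ad_one]

theorem Ad_add (g : G) (X Y : Mat n) : Ad ρ g (X + Y) = Ad ρ g X + Ad ρ g Y := by
  unfold Ad; rw [Matrix.mul_add, Matrix.add_mul]

theorem Ad_sub (g : G) (X Y : Mat n) : Ad ρ g (X - Y) = Ad ρ g X - Ad ρ g Y := by
  unfold Ad; rw [Matrix.mul_sub, Matrix.sub_mul]

theorem Ad_smul (g : G) (c : ℝ) (X : Mat n) : Ad ρ g (c • X) = c • Ad ρ g X := by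
  unfold Ad; rw [Matrix.mul_smul, Matrix.smul_mul]

theorem Ad_neg (g : G) (X : Mat n) : Ad ρ g (-X) = -Ad ρ g X := by
  unfold Ad; rw [Matrix.mul_neg, Matrix.neg_mul]

theorem Ad_mm (g : G) (X Y : Mat n) : Ad ρ g (X * Y) = Ad ρ g X * Ad ρ g Y := by
  unfold Ad
  calc _ = (ρ g).1 * X * ((ρ g⁻¹).1 * (ρ g).1) * Y * (ρ g⁻¹).1 := by
        rw [coe_inv_mul, Matrix.mul_one]; simp only [Matrix.mul_assoc]
    _ = _ := by simp only [Matrix.mul_assoc]

theorem Ad_trace (g : G) (X : Mat n) : (Ad ρ g X).trace = X.trace := by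
  unfold Ad
  rw [trace_mul_comm, ← Matrix.mul_assoc, coe_inv_mul, Matrix.one_mul]

theorem Ad_mul_val (g : G) (X : Mat n) : Ad ρ g X * (ρ g).1 = (ρ g).1 * X := by
  unfold Ad; rw [Matrix.mul_assoc, coe_inv_mul, Matrix.mul_one]

theorem Ad_val (g x : G) : Ad ρ g (ρ x).1 = (ρ (g * x * g⁻¹)).1 := by
  unfold Ad; rw [vmul, vmul]

theorem lie_Ad (g : G) {X : Mat n} (hX : Lie ρ X) : Lie ρ (Ad ρ g X) := lie_conj g hX

theorem Ad_eq_iff {g : G} {Y : Mat n} : Ad ρ g Y = Y ↔ (ρ g).1 * Y = Y * (ρ g).1 := by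
  constructor
  · intro h
    rw [← Ad_mul_val, h]
  · intro h
    unfold Ad
    rw [h, Matrix.mul_assoc, coe_mul_inv, Matrix.mul_one]

theorem exp_Ad (g : G) (X : Mat n) :
    NormedSpace.exp (Ad ρ g X) = Ad ρ g (NormedSpace.exp X) := by
  unfold Ad
  rw [coe_inv, Matrix.exp_conj _ _ (isUnit_coe g)]

namespace R1

variable (h : R1 ρ w)
include h

theorem ex_Ad (g : G) {X : Mat n} (hX : Lie ρ X) : ex ρ (Ad ρ g X) = g * ex ρ X * g⁻¹ :=
  h.inj (by rw [ex_val (lie_Ad g hX), exp_Ad, ← Ad_val, ex_val hX])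

theorem ex_zero : ex ρ (0 : Mat n) = 1 :=
  h.inj (by rw [ex_val lie_zero, NormedSpace.exp_zero, vone])

theorem ex_neg {X : Mat n} (hX : Lie ρ X) : ex ρ (-X) = (ex ρ X)⁻¹ := by
  rw [eq_inv_iff_mul_eq_one]
  refine h.inj ?_
  have h6 := Vale.Agent.P092.H35.ReK.exp_mul_exp_neg (-X) 1
  simp only [one_smul, neg_neg] at h6
  rw [vmul, ex_val hX, ex_val (lie_neg hX), h6, vone]

theorem ex_smul_add {X : Mat n} (hX : Lie ρ X) (s t : ℝ) :
    ex ρ ((s + t) • X) = ex ρ (s • X) * ex ρ (t • X) := by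
  refine h.inj ?_
  rw [vmul, ex_val (lie_smul _ hX), ex_val (lie_smul _ hX), ex_val (lie_smul _ hX),
    Vale.Agent.P092.H35.RePol.exp_smul_add]

theorem ex_H (s : ℝ) : ex ρ (s • diagonal w) = h.a s :=
  h.inj (by rw [ex_val (lie_smul _ h.lie), h.a_exp])

theorem continuous_ex {α : Type*} [TopologicalSpace α] {f : α → Mat n} (hf : Continuous f)
    (hl : ∀ x, Lie ρ (f x)) : Continuous fun x => ex ρ (f x) := by
  rw [h.continuous_iff]
  simp only [fun x => ex_val (hl x)]
  exact continuous_exp.comp hf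

theorem Ad_ex {U Y : Mat n} (hU : Lie ρ U) (h2 : U * (U * Y - Y * U) = (U * Y - Y * U) * U) :
    Ad ρ (ex ρ U) Y = Y + (U * Y - Y * U) := by
  unfold Ad
  rw [← h.ex_neg hU, ex_val hU, ex_val (lie_neg hU), conj_exp h2]

theorem Ad_K {κ : G} (hκ : κ ∈ h.K) (Y : Mat n) : Ad ρ κ Y = (ρ κ).1 * Y * (ρ κ).1ᵀ := by
  unfold Ad; rw [h.K_inv hκ]

theorem Ad_a (s : ℝ) {j : ℝ} {X : Mat n} (hX : Wt w j X) :
    Ad ρ (h.a s) X = Real.exp (j * s) • X := h.a_conj s hX

theorem Ad_w0_H : Ad ρ h.w0 (diagonal w) = -diagonal w := by rw [h.Ad_K h.w0_mem, h.w0_H]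

theorem continuous_Ad {α : Type*} [TopologicalSpace α] {f : α → G} {Y : α → Mat n}
    (hf : Continuous f) (hY : Continuous Y) : Continuous fun x => Ad ρ (f x) (Y x) := by
  haveI := topGroup h.rs.emb
  exact ((h.continuous_val.comp hf).matrix_mul hY).matrix_mul (h.continuous_val.comp hf.inv)

/-- the minimal parabolic subgroup -/
def P (h : R1 ρ w) : Subgroup G where
  carrier := {g | Up w (ρ g).1}
  one_mem' := by show Up w _; rw [vone]; exact up_one
  mul_mem' := fun h1 h2 => by show Up w _; rw [vmul]; exact Up.mul h1 h2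
  inv_mem' := fun h1 => up_inv h1

/-- the unipotent radical -/
def N (h : R1 ρ w) : Subgroup G where
  carrier := {g | SUp w ((ρ g).1 - 1)}
  one_mem' := by show SUp w _; rw [vone, sub_self]; exact sup_zero
  mul_mem' := fun {g g'} h1 h2 => by
    show SUp w _
    have e : (ρ (g * g')).1 - 1 = ((ρ g).1 - 1) * ((ρ g').1 - 1) + ((ρ g).1 - 1) +
        ((ρ g').1 - 1) := by rw [vmul]; noncomm_ring
    rw [e]
    exact ((SUp.mul_up h1 (SUp.up h2)).add h1).add h2
  inv_mem' := fun {g} h1 => by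
    show SUp w _
    have h2 : Up w (ρ g).1 := by
      have := (SUp.up h1).add up_one
      rwa [sub_add_cancel] at this
    have e : (ρ g⁻¹).1 - 1 = -((ρ g⁻¹).1 * ((ρ g).1 - 1)) := by
      rw [Matrix.mul_sub, coe_inv_mul, Matrix.mul_one, neg_sub]
    rw [e]
    exact ((up_inv h2).mul_sup h1).neg

/-- the centraliser of the torus -/
def L (h : R1 ρ w) : Subgroup G where
  carrier := {g | Wt w 0 (ρ g).1}
  one_mem' := by show Wt w 0 _; rw [vone, ← diagonal_one]; exact wt_diag _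
  mul_mem' := fun h1 h2 => by show Wt w 0 _; rw [vmul]; exact (Wt.mul h1 h2).cast (add_zero 0)
  inv_mem' := fun {g} h1 => by
    show Wt w 0 _
    have h2 : Ad ρ g (diagonal w) = diagonal w := Ad_eq_iff.2 (wt_zero_iff.1 h1)
    rw [wt_zero_iff, ← Ad_eq_iff]
    conv_lhs => rw [← h2]
    exact Ad_inv_Ad _ _

/-- the centraliser of the torus in `K` -/
def M : Subgroup G := h.K ⊓ h.L

theorem mem_P {g : G} : g ∈ h.P ↔ Up w (ρ g).1 := Iff.rfl

theorem mem_N {g : G} : g ∈ h.N ↔ SUp w ((ρ g).1 - 1) := Iff.rfl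

theorem mem_L {g : G} : g ∈ h.L ↔ Wt w 0 (ρ g).1 := Iff.rfl

theorem mem_M {g : G} : g ∈ h.M ↔ g ∈ h.K ∧ g ∈ h.L := Iff.rfl

theorem mem_L' {g : G} : g ∈ h.L ↔ Ad ρ g (diagonal w) = diagonal w := by
  rw [h.mem_L, wt_zero_iff, Ad_eq_iff]

theorem N_le_P : h.N ≤ h.P := fun g hg => by
  have := (SUp.up hg).add up_one
  rwa [sub_add_cancel] at this

theorem L_le_P : h.L ≤ h.P := fun g hg => Wt.up hg le_rfl

theorem M_le_K : h.M ≤ h.K := inf_le_left

theorem M_le_L : h.M ≤ h.L := inf_le_right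

theorem M_le_P : h.M ≤ h.P := h.M_le_L.trans h.L_le_P

theorem a_mem_L (s : ℝ) : h.a s ∈ h.L := h.wt_a s

theorem a_mem_P (s : ℝ) : h.a s ∈ h.P := h.L_le_P (h.a_mem_L s)

theorem isClosed_P : IsClosed (h.P : Set G) := isClosed_up.preimage h.continuous_val

theorem isClosed_N : IsClosed (h.N : Set G) :=
  isClosed_sup.preimage (h.continuous_val.sub continuous_const)

theorem isClosed_L : IsClosed (h.L : Set G) := by
  have : (h.L : Set G) = {g | (ρ g).1 * diagonal w = diagonal w * (ρ g).1} := by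
    ext g; exact wt_zero_iff
  rw [this]
  exact isClosed_eq (h.continuous_val.matrix_mul continuous_const)
    (continuous_const.matrix_mul h.continuous_val)

theorem isCompact_M : IsCompact (h.M : Set G) := h.isCompact_K.inter_right h.isClosed_L

theorem conj_N {p u : G} (hp : p ∈ h.P) (hu : u ∈ h.N) : p * u * p⁻¹ ∈ h.N := by
  rw [h.mem_N]
  have e : (ρ (p * u * p⁻¹)).1 - 1 = (ρ p).1 * ((ρ u).1 - 1) * (ρ p⁻¹).1 := by
    rw [vmul, vmul, Matrix.mul_sub, Matrix.sub_mul, Matrix.mul_one, coe_mul_inv]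
  rw [e]
  exact (Up.mul_sup hp hu).mul_up (up_inv hp)

theorem conj_N' {p u : G} (hp : p ∈ h.P) (hu : u ∈ h.N) : p⁻¹ * u * p ∈ h.N := by
  have := h.conj_N (h.P.inv_mem hp) hu
  rwa [inv_inv] at this

theorem eq_one_of_N_L {g : G} (h1 : g ∈ h.N) (h2 : g ∈ h.L) : g = 1 := by
  refine h.inj ?_
  rw [vone, ← sub_eq_zero]
  refine SUp.eq_zero h1 (Wt.sub h2 ?_)
  rw [← diagonal_one]; exact wt_diag _

theorem L_comm_a {g : G} (hg : g ∈ h.L) (s : ℝ) : g * h.a s = h.a s * g := by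
  have h1 := h.Ad_a s hg
  rw [zero_mul, Real.exp_zero, one_smul, Ad_val] at h1
  have h2 := h.inj h1
  rw [mul_inv_eq_iff_eq_mul] at h2
  exact h2.symm

theorem ex_mem_N {U : Mat n} (hU : Lie ρ U) (hs : SUp w U) : ex ρ U ∈ h.N := by
  rw [h.mem_N, ex_val hU]; exact hs.exp

/-- the centraliser of the torus is `M A` -/
theorem L_decomp {g : G} (hg : g ∈ h.L) : ∃ m ∈ h.M, ∃ s : ℝ, g = m * h.a s := by
  obtain ⟨κ, X, hκ, hs, hX, e⟩ := polar h.rs g
  have h1 : Wt w 0 ((ρ g).1ᵀ * (ρ g).1) := ((Wt.tr hg).mul hg).cast (by ring)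
  have h2 : (ρ g).1ᵀ * (ρ g).1 = NormedSpace.exp ((2 : ℝ) • X) := by
    have h3 := Vale.Agent.P092.H35.RePol.exp_smul_add X 1 1
    rw [one_smul, one_add_one_eq_two] at h3
    rw [e, transpose_mul, ← Matrix.exp_transpose, hs, h3]
    calc _ = NormedSpace.exp X * ((ρ κ).1ᵀ * (ρ κ).1) * NormedSpace.exp X := by
          simp only [Matrix.mul_assoc]
      _ = _ := by rw [ort_symm hκ, Matrix.mul_one]
  rw [h2, wt_zero_iff] at h1
  have h3 := comm_exp_sym (by rw [transpose_smul, hs]) h1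
  obtain ⟨c, hc⟩ := h.cent _ (lie_smul 2 hX) (by rw [transpose_smul, hs]) h3
  have h4 : X = (c / 2) • diagonal w := by
    have := congrArg (fun M => (1 / 2 : ℝ) • M) hc
    simp only [smul_smul] at this
    rw [show (1 / 2 : ℝ) * 2 = 1 by norm_num, one_smul] at this
    rw [this]
    congr 1
    ring
  have h5 : g = κ * h.a (c / 2) := h.inj (by rw [e, vmul, h.a_exp, h4])
  refine ⟨κ, ⟨hκ, ?_⟩, c / 2, h5⟩
  have h6 : κ = g * (h.a (c / 2))⁻¹ := by rw [h5, mul_inv_cancel_right]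
  rw [h6]
  exact h.L.mul_mem hg (h.L.inv_mem (h.a_mem_L _))

end R1

end Vale.Agent.P092RG
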