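import Vale.Agent.P092RG.ForTH
import Vale.Agent.P092EN.Leg

/-!
P092, rank one (helper76): north-south dynamics and properness on triples, in the form used by
the descent.
-/

set_option linter.all false

open MeasureTheory Measure Filter Topology

namespace Vale.Agent.P092RG

open Vale.Agent.P092.H793.Re
open Vale.Agent.P092EN (NS PT)

variable {n : ℕ} {G : Type} [Group G] [TopologicalSpace G]
variable {ρ : G →* SLn n} {w : Fin n → ℝ}

namespace R1

variable (h : R1 ρ w)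
include h

theorem tendsto_dv {α : Type*} {l : Filter α} {f : α → h.Y} {y : h.Y}
    (e : Tendsto (fun x => h.dv y (f x)) l (𝓝 0)) : Tendsto f l (𝓝 y) := by
  refine tendsto_def.2 fun U hU => ?_
  obtain ⟨ε, hε, h1⟩ := h.exists_dv_ball hU
  filter_upwards [(tendsto_order.1 e).2 ε hε] with x hx using h1 _ hx

theorem tendsto_a_smul {y : h.Y} (hy : y ≠ h.y1) :
    Tendsto (fun s : ℝ => h.a s • y) atTop (𝓝 h.y0) := by
  have h1 := h.dv_pos hy.symm
  refine h.tendsto_dv (squeeze_zero' (g := fun s => Real.exp (-s) * (h.dv h.y0 y / h.dv h.y1 y))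
    (Eventually.of_forall fun s => h.dv_nonneg _ _) ?_ ?_)
  · filter_upwards [eventually_ge_atTop 0] with s hs
    rw [← mul_div_assoc, le_div_iff₀ h1]
    exact (h.north_south_a s y).trans (mul_le_mul_of_nonneg_right
      (Real.exp_le_exp.2 (by linarith)) (h.dv_nonneg _ _))
  · have := Real.tendsto_exp_neg_atTop_nhds_zero.mul_const (h.dv h.y0 y / h.dv h.y1 y)
    rwa [zero_mul] at this

theorem pt : PT G h.Y := by
  intro A hA hd
  obtain ⟨a, ha, h1⟩ := h.dv_sep (hA 0).isClosed (hA 1).isClosed (hd 0 1 (by decide))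
  obtain ⟨b, hb, h2⟩ := h.dv_sep (hA 0).isClosed (hA 2).isClosed (hd 0 2 (by decide))
  obtain ⟨c, hc, h3⟩ := h.dv_sep (hA 1).isClosed (hA 2).isClosed (hd 1 2 (by decide))
  obtain ⟨R, hR⟩ := h.proper_triples (lt_min ha (lt_min hb hc))
  refine ⟨_, h.isCompact_ball R, fun g hg => ?_⟩
  obtain ⟨x, hx, hx'⟩ := hg 0
  obtain ⟨y, hy, hy'⟩ := hg 1
  obtain ⟨z, hz, hz'⟩ := hg 2
  have e1 := min_le_left a (min b c)
  have e2 := (min_le_right a (min b c)).trans (min_le_left b c)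
  have e3 := (min_le_right a (min b c)).trans (min_le_right b c)
  exact hR g x y z (e1.trans (h1 _ hx _ hy)) (e2.trans (h2 _ hx _ hz)) (e3.trans (h3 _ hy _ hz))
    (e1.trans (h1 _ hx' _ hy')) (e2.trans (h2 _ hx' _ hz')) (e3.trans (h3 _ hy' _ hz'))

theorem mem_M_of_ker {g : G} (hg : ∀ y : h.Y, g • y = y) : g ∈ h.M := by
  obtain ⟨m, hm, s, rfl⟩ := h.L_decomp (h.stab_pair (hg _) (hg _))
  obtain ⟨u, hu, hu1⟩ := h.exists_N_ne
  have h1 := hg (h.cell (h.nC u))
  rw [mul_smul, h.a_smul_cell, h.L_smul_cell (h.M_le_L hm)] at h1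
  have h2 := congrArg h.gau (h.cell_inj h1)
  rw [h.gau_rot hm, h.gau_dil] at h2
  have h3 : h.gau (h.nC u) ≠ 0 := fun h0 => hu1 (by
    rw [← h.nE_nC hu, h.gau_eq_zero.1 h0, h.nE_zero])
  rw [Real.exp_eq_one_iff s |>.1 (mul_eq_right₀ h3 |>.1 h2), h.a_zero, mul_one]
  exact hm

theorem ns [IsTopologicalGroup G] [LocallyCompactSpace G] [MeasurableSpace G] [BorelSpace G] :
    NS G h.Y := by
  haveI := secCount h.rs.emb
  refine ⟨fun y y' => ?_, ⟨h.a 1, h.y0, fun y => ?_⟩, _, h.isCompact_M,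
    fun g hg => h.mem_M_of_ker hg⟩
  · exact MulAction.exists_smul_eq G y y'
  · obtain ⟨x, rfl⟩ := QuotientGroup.mk_surjective y
    filter_upwards [h.ae_haar_bd haar h.w0⁻¹ x] with g hg
    have h1 : g • (x : h.Y) ≠ h.y1 := fun h0 => hg.ne' (h.bd_eq_zero.2 (by
      rw [mul_assoc]
      exact QuotientGroup.eq.1 h0.symm))
    refine ((h.tendsto_a_smul h1).comp tendsto_natCast_atTop_atTop).congr fun k => ?_
    rw [Function.comp_apply, ← h.a_nsmul, mul_one]

end R1

end Vale.Agent.P092RG
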