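import Vale.Agent.P092RG.Nil
import Mathlib.LinearAlgebra.BilinearForm.Orthogonal

/-!
P092, rank one (helper76): coordinates on `N`, the Langlands, Iwasawa and Bruhat decompositions.
-/

set_option linter.all false

open Matrix Filter Topology

namespace Vale.Agent.P092RG

open Vale.Agent.P092.H793.Re

variable {n : ℕ} {G : Type} [Group G] [TopologicalSpace G]
variable {ρ : G →* SLn n} {w : Fin n → ℝ}

/-- orthogonal projection for the Frobenius inner product -/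
theorem exists_proj (U : Submodule ℝ (Mat n)) (v : Mat n) :
    ∃ u ∈ U, ∀ x ∈ U, ip x (v - u) = 0 := by
  let B : LinearMap.BilinForm ℝ (Mat n) := LinearMap.mk₂ ℝ ip ip_add_left
    (fun c X Y => ip_smul_left c X Y) ip_add_right (fun c X Y => ip_smul_right c X Y)
  have hB : ∀ X Y, B X Y = ip X Y := fun _ _ => rfl
  have h1 : B.IsRefl := fun X Y hXY => by rw [hB] at hXY ⊢; rw [ip_comm, hXY]
  have h2 : (B.restrict U).Nondegenerate := by
    constructor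
    · intro x hx
      exact Subtype.ext (eq_zero_of_ip (hx x))
    · intro x hx
      exact Subtype.ext (eq_zero_of_ip (hx x))
  have h3 := LinearMap.BilinForm.isCompl_orthogonal_of_restrict_nondegenerate h1 h2
  have h4 : v ∈ U ⊔ B.orthogonal U := by rw [h3.sup_eq_top]; trivial
  obtain ⟨u, hu, u', hu', e⟩ := Submodule.mem_sup.1 h4
  refine ⟨u, hu, fun x hx => ?_⟩
  rw [← e, add_sub_cancel_left]
  exact hu' x hx

/-- `Ad` as a linear map -/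
noncomputable def AdL (ρ : G →* SLn n) (g : G) : Mat n →ₗ[ℝ] Mat n where
  toFun := Ad ρ g
  map_add' := Ad_add g
  map_smul' := Ad_smul g

theorem pj_up {A B : Mat n} {μ : ℝ} (hA : Up w A) (hB : ∀ a b, B a b ≠ 0 → μ ≤ w a) :
    pj w μ * A * B = cmp w 0 A * (pj w μ * B) := by
  ext a b
  rw [Matrix.mul_apply, Matrix.mul_apply]
  refine Finset.sum_congr rfl fun c _ => ?_
  rw [pj_mul_apply, pj_mul_apply, cmp_apply]
  by_cases h1 : A a c = 0
  · simp [h1]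
  by_cases h2 : B c b = 0
  · simp [h2]
  have h3 := hA a c h1
  have h4 := hB c b h2
  by_cases h5 : w a = μ
  · have h6 : w c = μ := by linarith
    simp [h5, h6]
  · by_cases h6 : w c = μ
    · have : ¬ (w a - w c = 0) := fun h7 => h5 (by linarith)
      simp [h5, this]
    · simp [h5, h6]

theorem ip_skew_left {S : Mat n} (hS : Sᵀ = -S) (T : Mat n) : ip (S * T) T = 0 := by
  have := ip_mul_left S T T
  rw [hS, Matrix.neg_mul, ip_neg_right, ip_comm T] at this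
  linarith

theorem ip_skew_right {S : Mat n} (hS : Sᵀ = -S) (T : Mat n) : ip (T * S) T = 0 := by
  have := ip_mul_right S T T
  rw [hS, Matrix.mul_neg, ip_neg_right, ip_comm T] at this
  linarith

theorem trace_mul_eq_ip (X Y : Mat n) : (X * Y).trace = ip X Yᵀ := by
  unfold ip; rw [transpose_transpose]

namespace R1

variable (h : R1 ρ w)
include h

theorem lie_add' {X Y : Mat n} (hX : Lie ρ X) (hY : Lie ρ Y) : Lie ρ (X + Y) :=
  lie_add h.rs.emb hX hY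

theorem lie_sub' {X Y : Mat n} (hX : Lie ρ X) (hY : Lie ρ Y) : Lie ρ (X - Y) :=
  lie_sub h.rs.emb hX hY

theorem lie_tr {X : Mat n} (hX : Lie ρ X) : Lie ρ Xᵀ := lie_transpose h.rs.adj hX

theorem sup_decomp {U : Mat n} (hU : Lie ρ U) (hs : SUp w U) : U = cmp w 1 U + cmp w 2 U := by
  have := h.decomp hU
  rwa [hs.cmp (by norm_num), hs.cmp (by norm_num), hs.cmp le_rfl, zero_add, zero_add,
    zero_add] at this

theorem sup_add {X Z : Mat n} (hX : X ∈ h.g 1) (hZ : Z ∈ h.g 2) : SUp w (X + Z) :=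
  (hX.2.sup one_pos).add (hZ.2.sup two_pos)

theorem nn_mem {X Z : Mat n} (hX : X ∈ h.g 1) (hZ : Z ∈ h.g 2) : ex ρ (X + Z) ∈ h.N :=
  h.ex_mem_N (h.lie_add' hX.1 hZ.1) (h.sup_add hX hZ)

theorem comm12 {X Z : Mat n} (hX : X ∈ h.g 1) (hZ : Z ∈ h.g 2) : X * Z = Z * X :=
  h.comm_of_big hX hZ (by norm_num)

theorem comm22 {X Z : Mat n} (hX : X ∈ h.g 2) (hZ : Z ∈ h.g 2) : X * Z = Z * X :=
  h.comm_of_big hX hZ (by norm_num)

theorem br11 {X X' : Mat n} (hX : X ∈ h.g 1) (hX' : X' ∈ h.g 1) : X * X' - X' * X ∈ h.g 2 :=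
  h.mem_cast (h.br_mem hX hX') one_add_one_eq_two

theorem Ad_nn_H {X Z : Mat n} (hX : X ∈ h.g 1) (hZ : Z ∈ h.g 2) :
    Ad ρ (ex ρ (X + Z)) (diagonal w) = diagonal w - X - (2 : ℝ) • Z := by
  have e : (X + Z) * diagonal w - diagonal w * (X + Z) = -X - (2 : ℝ) • Z := by
    have h1 := hX.2.comm
    have h2 := hZ.2.comm
    rw [one_smul] at h1
    rw [← h2, Matrix.add_mul, Matrix.mul_add]
    conv_rhs => rw [← h1]
    abel
  rw [h.Ad_ex (h.lie_add' hX.1 hZ.1), e]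
  · abel
  · rw [e]
    simp only [Matrix.add_mul, Matrix.mul_sub, Matrix.sub_mul, Matrix.mul_add, Matrix.mul_neg,
      Matrix.neg_mul, Matrix.mul_smul, Matrix.smul_mul, h.comm12 hX hZ, smul_add]
    abel

theorem Ad_nn_two {X Z Z' : Mat n} (hX : X ∈ h.g 1) (hZ : Z ∈ h.g 2) (hZ' : Z' ∈ h.g 2) :
    Ad ρ (ex ρ (X + Z)) Z' = Z' := by
  have e : (X + Z) * Z' - Z' * (X + Z) = 0 := by
    rw [Matrix.add_mul, Matrix.mul_add, h.comm12 hX hZ', h.comm22 hZ hZ', sub_self]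
  rw [h.Ad_ex (h.lie_add' hX.1 hZ.1), e, add_zero]
  rw [e, Matrix.mul_zero, Matrix.zero_mul]

theorem Ad_nn_one {X Z X' : Mat n} (hX : X ∈ h.g 1) (hZ : Z ∈ h.g 2) (hX' : X' ∈ h.g 1) :
    Ad ρ (ex ρ (X + Z)) X' = X' + (X * X' - X' * X) := by
  have e : (X + Z) * X' - X' * (X + Z) = X * X' - X' * X := by
    rw [Matrix.add_mul, Matrix.mul_add, h.comm12 hX' hZ]; abel
  rw [h.Ad_ex (h.lie_add' hX.1 hZ.1), e]
  rw [e, Matrix.add_mul, Matrix.mul_add, h.comm12 hX (h.br11 hX hX'),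
    h.comm22 hZ (h.br11 hX hX')]

theorem N_ext {u u' : G} (hu : u ∈ h.N) (hu' : u' ∈ h.N)
    (e : Ad ρ u (diagonal w) = Ad ρ u' (diagonal w)) : u = u' := by
  have h1 : u'⁻¹ * u ∈ h.L := by rw [h.mem_L', Ad_mul, e, Ad_inv_Ad]
  have h2 := h.eq_one_of_N_L (h.N.mul_mem (h.N.inv_mem hu') hu) h1
  rw [inv_mul_eq_one] at h2
  exact h2.symm

theorem exists_N {U : Mat n} (hU : Lie ρ U) (hs : SUp w U) :
    ∃ u ∈ h.N, Ad ρ u (diagonal w) = diagonal w + U := by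
  have h1 := (h.g 1).neg_mem (h.cmp_mem 1 hU)
  have h2 := (h.g 2).smul_mem (-1 / 2) (h.cmp_mem 2 hU)
  refine ⟨_, h.nn_mem h1 h2, ?_⟩
  rw [h.Ad_nn_H h1 h2, smul_smul]
  conv_rhs => rw [h.sup_decomp hU hs]
  rw [show (2 : ℝ) * (-1 / 2) = -1 by norm_num, neg_one_smul]
  abel

theorem Ad_P_H {p : G} (hp : p ∈ h.P) : SUp w (Ad ρ p (diagonal w) - diagonal w) := by
  have e : Ad ρ p (diagonal w) - diagonal w =
      ((ρ p).1 * diagonal w - diagonal w * (ρ p).1) * (ρ p⁻¹).1 := by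
    unfold Ad
    rw [Matrix.sub_mul, Matrix.mul_assoc (diagonal w), coe_mul_inv, Matrix.mul_one]
  rw [e]
  exact (Up.br_H hp).mul_up (up_inv hp)

/-- the first coordinate on `N` -/
noncomputable def nX (h : R1 ρ w) (g : G) : Mat n := -cmp w 1 (Ad ρ g (diagonal w))

/-- the second coordinate on `N` -/
noncomputable def nZ (h : R1 ρ w) (g : G) : Mat n :=
  (-1 / 2 : ℝ) • cmp w 2 (Ad ρ g (diagonal w))

theorem nX_mem (g : G) : h.nX g ∈ h.g 1 := (h.g 1).neg_mem (h.cmp_mem 1 (lie_Ad g h.lie))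

theorem nZ_mem (g : G) : h.nZ g ∈ h.g 2 := (h.g 2).smul_mem _ (h.cmp_mem 2 (lie_Ad g h.lie))

theorem continuous_nX : Continuous h.nX :=
  ((continuous_cmp 1).comp (h.continuous_Ad continuous_id continuous_const)).neg

theorem continuous_nZ : Continuous h.nZ :=
  ((continuous_cmp (w := w) 2).comp (h.continuous_Ad continuous_id
    (continuous_const (y := diagonal w)))).const_smul (-1 / 2 : ℝ)

theorem nX_nn {X Z : Mat n} (hX : X ∈ h.g 1) (hZ : Z ∈ h.g 2) : h.nX (ex ρ (X + Z)) = X := by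
  unfold nX
  rw [h.Ad_nn_H hX hZ, cmp_sub, cmp_sub, cmp_smul, (wt_diag w).cmp_ne one_ne_zero, hX.2.cmp_self,
    hZ.2.cmp_ne (by norm_num), smul_zero, sub_zero, zero_sub, neg_neg]

theorem nZ_nn {X Z : Mat n} (hX : X ∈ h.g 1) (hZ : Z ∈ h.g 2) : h.nZ (ex ρ (X + Z)) = Z := by
  unfold nZ
  rw [h.Ad_nn_H hX hZ, cmp_sub, cmp_sub, cmp_smul, (wt_diag w).cmp_ne two_ne_zero, hZ.2.cmp_self,
    hX.2.cmp_ne (by norm_num), sub_zero, zero_sub, smul_neg, smul_smul]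
  norm_num

theorem Ad_P_H' {p : G} (hp : p ∈ h.P) :
    Ad ρ p (diagonal w) = diagonal w - h.nX p - (2 : ℝ) • h.nZ p := by
  have h1 := h.sup_decomp (h.lie_sub' (lie_Ad p h.lie) h.lie) (h.Ad_P_H hp)
  rw [cmp_sub, cmp_sub, (wt_diag w).cmp_ne one_ne_zero, (wt_diag w).cmp_ne two_ne_zero, sub_zero,
    sub_zero, sub_eq_iff_eq_add] at h1
  unfold nX nZ
  rw [smul_smul, show (2 : ℝ) * (-1 / 2) = -1 by norm_num, neg_one_smul]
  conv_lhs => rw [h1]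
  abel

theorem N_eq {u : G} (hu : u ∈ h.N) : ex ρ (h.nX u + h.nZ u) = u :=
  h.N_ext (h.nn_mem (h.nX_mem u) (h.nZ_mem u)) hu (by
    rw [h.Ad_nn_H (h.nX_mem u) (h.nZ_mem u), h.Ad_P_H' (h.N_le_P hu)])

/-- the group law of `N` -/
theorem bch {X Z X' Z' : Mat n} (hX : X ∈ h.g 1) (hZ : Z ∈ h.g 2) (hX' : X' ∈ h.g 1)
    (hZ' : Z' ∈ h.g 2) : ex ρ (X + Z) * ex ρ (X' + Z') =
      ex ρ ((X + X') + (Z + Z' + (1 / 2 : ℝ) • (X * X' - X' * X))) := by
  have h1 := (h.g 1).add_mem hX hX'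
  have h2 := (h.g 2).add_mem ((h.g 2).add_mem hZ hZ') ((h.g 2).smul_mem (1 / 2) (h.br11 hX hX'))
  refine h.N_ext (h.N.mul_mem (h.nn_mem hX hZ) (h.nn_mem hX' hZ')) (h.nn_mem h1 h2) ?_
  rw [Ad_mul, h.Ad_nn_H hX' hZ', h.Ad_nn_H h1 h2, Ad_sub, Ad_sub, Ad_smul, h.Ad_nn_H hX hZ,
    h.Ad_nn_one hX hZ hX', h.Ad_nn_two hX hZ hZ', smul_add, smul_add, smul_smul,
    show (2 : ℝ) * (1 / 2) = 1 by norm_num, one_smul]
  abel

theorem a_conj_nn (s : ℝ) {X Z : Mat n} (hX : X ∈ h.g 1) (hZ : Z ∈ h.g 2) :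
    h.a s * ex ρ (X + Z) * (h.a s)⁻¹ = ex ρ (Real.exp s • X + Real.exp (2 * s) • Z) := by
  rw [← h.ex_Ad _ (h.lie_add' hX.1 hZ.1), Ad_add, h.Ad_a s hX.2, h.Ad_a s hZ.2, one_mul]

/-- the Langlands decomposition -/
theorem P_decomp {p : G} (hp : p ∈ h.P) :
    ∃ u ∈ h.N, ∃ m ∈ h.M, ∃ s : ℝ, p = u * m * h.a s := by
  obtain ⟨u, hu, e⟩ := h.exists_N (h.lie_sub' (lie_Ad p h.lie) h.lie) (h.Ad_P_H hp)
  rw [add_sub_cancel] at e
  obtain ⟨m, hm, s, e'⟩ := h.L_decomp (g := u⁻¹ * p) (by rw [h.mem_L', Ad_mul, ← e, Ad_inv_Ad])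
  exact ⟨u, hu, m, hm, s, by rw [mul_assoc, ← e', mul_inv_cancel_left]⟩

theorem P_decomp' {p : G} (hp : p ∈ h.P) :
    ∃ m ∈ h.M, ∃ s : ℝ, ∃ u ∈ h.N, p = m * h.a s * u := by
  obtain ⟨u, hu, m, hm, s, e⟩ := h.P_decomp hp
  refine ⟨m, hm, s, _, h.conj_N' (h.P.mul_mem (h.M_le_P hm) (h.a_mem_P s)) hu, ?_⟩
  rw [e]; group

theorem up_of_perp {W : Mat n} (hW : Lie ρ W)
    (h0 : ∀ U, Lie ρ U → SUp w U → (U * W).trace = 0) : Up w W := by
  have h1 : ∀ j : ℝ, j < 0 → cmp w j W = 0 := by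
    intro j hj
    have h2 := h.tr_mem (h.cmp_mem j hW)
    have h3 := h0 _ h2.1 (h2.2.sup (by linarith))
    rw [trace_mul_eq_ip, ip_tr] at h3
    refine eq_zero_of_ip ?_
    rw [← h3, ip_eq, ip_eq]
    refine Finset.sum_congr rfl fun a _ => Finset.sum_congr rfl fun b _ => ?_
    rw [cmp_apply]
    split_ifs <;> simp
  rw [h.decomp hW, h1 _ (by norm_num), h1 _ (by norm_num), zero_add, zero_add]
  exact (((wt_cmp 0 W).up le_rfl).add ((wt_cmp 1 W).up zero_le_one)).add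
    ((wt_cmp 2 W).up zero_le_two)

/-- the nilradical -/
def nn (h : R1 ρ w) : Submodule ℝ (Mat n) where
  carrier := {U | Lie ρ U ∧ SUp w U}
  add_mem' := fun hX hY => ⟨h.lie_add' hX.1 hY.1, hX.2.add hY.2⟩
  zero_mem' := ⟨lie_zero, sup_zero⟩
  smul_mem' := fun c _ hX => ⟨lie_smul c hX.1, hX.2.smul c⟩

/-- the Iwasawa decomposition -/
theorem iwa (g : G) : ∃ κ ∈ h.K, ∃ s : ℝ, ∃ u ∈ h.N, g = κ * h.a s * u := by
  obtain ⟨_, ⟨U, hU, rfl⟩, h1⟩ := exists_proj (h.nn.map (AdL ρ g)) (Ad ρ g (diagonal w))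
  obtain ⟨u, hu, e⟩ := h.exists_N (lie_neg hU.1) hU.2.neg
  obtain ⟨g', hg'⟩ : ∃ g', g' = g * u := ⟨_, rfl⟩
  obtain ⟨Y, hY⟩ : ∃ Y, Y = Ad ρ g' (diagonal w) := ⟨_, rfl⟩
  have h2 : Ad ρ g (diagonal w) - AdL ρ g U = Y := by
    rw [hY, hg', Ad_mul, e, Ad_add, Ad_neg, sub_eq_add_neg]; rfl
  rw [h2] at h1
  have hYl : Lie ρ Y := hY ▸ lie_Ad g' h.lie
  have h3 : Up w (Ad ρ g'⁻¹ Yᵀ) := by
    refine h.up_of_perp (lie_Ad _ (h.lie_tr hYl)) fun V hV hs => ?_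
    have h4 : Ad ρ u V ∈ h.nn := ⟨lie_Ad u hV, by
      unfold Ad
      exact (Up.mul_sup (h.N_le_P hu) hs).mul_up (up_inv (h.N_le_P hu))⟩
    have h5 := h1 _ ⟨_, h4, rfl⟩
    rw [← Ad_trace (ρ := ρ) g', Ad_mm, Ad_Ad_inv, hg', Ad_mul]
    exact h5
  have h4 : Y * Yᵀ = Yᵀ * Y := by
    have h5 := h3.br_H
    have h6 : Ad ρ g' (Ad ρ g'⁻¹ Yᵀ * diagonal w - diagonal w * Ad ρ g'⁻¹ Yᵀ) =
        Yᵀ * Y - Y * Yᵀ := by rw [Ad_sub, Ad_mm, Ad_mm, Ad_Ad_inv, ← hY]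
    have h7 := (h5.mul_up h5.up).trace
    rw [← Ad_trace (ρ := ρ) g', Ad_mm, h6, trace_mul_eq_ip] at h7
    simp only [transpose_sub, transpose_mul, transpose_transpose] at h7
    exact (sub_eq_zero.1 (eq_zero_of_ip h7)).symm
  have h5 : Yᵀ = Y := by
    have h6 : Y * (ρ g').1 = (ρ g').1 * diagonal w := by rw [hY, Ad_mul_val]
    have h7 : ∀ μ : ℝ, Yᵀ * ((ρ g').1 * pj w μ) = μ • ((ρ g').1 * pj w μ) := by
      intro μ
      obtain ⟨C, hC⟩ : ∃ C, C = (ρ g').1 * pj w μ := ⟨_, rfl⟩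
      have h8 : Y * C = μ • C := by
        rw [hC, ← Matrix.mul_assoc, h6, Matrix.mul_assoc, H_mul_pj, Matrix.mul_smul]
      rw [← hC, ← sub_eq_zero]
      refine eq_zero_of_ip ?_
      have h9 : ip (Yᵀ * C) (Yᵀ * C) = μ * (μ * ip C C) := by
        rw [ip_mul_left, transpose_transpose, ← Matrix.mul_assoc, h4, Matrix.mul_assoc,
          ← ip_mul_left, h8, ip_smul_left, ip_smul_right]
      have h10 : ip (Yᵀ * C) C = μ * ip C C := by
        rw [ip_mul_left, transpose_transpose, h8, ip_smul_right]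
      rw [ip_sub_left, ip_sub_right, ip_sub_right, ip_smul_right, ip_smul_left, ip_smul_left,
        ip_smul_right, ip_comm C (Yᵀ * C), h9, h10]
      ring
    have h8 : Yᵀ * (ρ g').1 = Y * (ρ g').1 := by
      rw [h6]
      ext a b
      have := congrFun (congrFun (h7 (w b)) a) b
      rw [← Matrix.mul_assoc, mul_pj_apply, if_pos rfl, Matrix.smul_apply, mul_pj_apply,
        if_pos rfl] at this
      rw [this, mul_diagonal, smul_eq_mul, mul_comm]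
    have := congrArg (fun M => M * (ρ g'⁻¹).1) h8
    simpa only [Matrix.mul_assoc, coe_mul_inv, Matrix.mul_one] using this
  obtain ⟨κ, hκ, c, hc, e'⟩ := h.sph hYl h5
  have h6 : c = 1 := by
    have h7 : ip Y Y = ip (diagonal w) (diagonal w) := by
      unfold ip
      rw [h5, diagonal_transpose, hY, ← Ad_mm, Ad_trace]
    rw [e', ip_smul_left, ip_smul_right, ip_ort (h.K_tr_mul hκ)] at h7
    have h8 : (c * c - 1) * ip (diagonal w) (diagonal w) = 0 := by linarith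
    rcases mul_eq_zero.1 h8 with h4 | h4
    · nlinarith
    · exact absurd h4 h.h2_pos.ne'
  rw [h6, one_smul, ← h.Ad_K hκ] at e'
  obtain ⟨m, hm, s, e''⟩ := h.L_decomp (g := κ⁻¹ * g')
    (by rw [h.mem_L', Ad_mul, ← hY, e', Ad_inv_Ad])
  refine ⟨κ * m, h.K.mul_mem hκ hm.1, s, u⁻¹, h.N.inv_mem hu, ?_⟩
  rw [mul_assoc κ, ← e'', hg']
  group

end R1

end Vale.Agent.P092RG
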