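import Vale.Agent.P092RG.Cell
import Vale.Agent.P092RG.QuoM

/-!
P092, rank one (helper76): the position of a group element in the cone.
-/

set_option linter.all false

open MeasureTheory Measure Filter Topology
open scoped ENNReal NNReal Pointwise

namespace Vale.Agent.P092RG

open Vale.Agent.P092.H793.Re

variable {n : ℕ} {G : Type} [Group G] [TopologicalSpace G]
variable {ρ : G →* SLn n} {w : Fin n → ℝ}

namespace R1

variable (h : R1 ρ w)
include h

theorem mem_L_of_comm {g : G} {s : ℝ} (hs : s ≠ 0) (e : g * h.a s = h.a s * g) : g ∈ h.L := by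
  intro a b h0
  have h1 := congrFun (congrFun (congrArg (fun x => (ρ x).1) e) a) b
  simp only [vmul, h.a_val, Matrix.mul_diagonal, Matrix.diagonal_mul] at h1
  rw [mul_comm] at h1
  have h2 := Real.exp_injective (mul_right_cancel₀ h0 h1)
  have h3 := mul_left_cancel₀ hs h2
  linarith

theorem kak_unique {κ κ' k k' : G} (hκ : κ ∈ h.K) (hκ' : κ' ∈ h.K) (hk : k ∈ h.K) (hk' : k' ∈ h.K)
    {s : ℝ} (hs : s ≠ 0) (e : κ * h.a s * κ' = k * h.a s * k') : κ⁻¹ * k ∈ h.M := by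
  have h1 := h.K.mul_mem (h.K.inv_mem hκ) hk
  have h2 := h.K.mul_mem hκ' (h.K.inv_mem hk')
  set x := κ⁻¹ * k with hx
  set y := κ' * k'⁻¹ with hy
  have h3 : x * h.a s = h.a s * y := by
    rw [hx, hy]
    calc κ⁻¹ * k * h.a s = κ⁻¹ * (k * h.a s * k') * k'⁻¹ := by group
      _ = _ := by rw [← e]; group
  refine ⟨h1, h.mem_L_of_comm (s := s + s) (by intro h0; exact hs (by linarith)) (h.inj ?_)⟩
  have h4 := congrArg (fun g => (ρ g).1) h3
  simp only [vmul] at h4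
  have h5 := congrArg (fun A => A * A.transpose) h4
  simp only [Matrix.transpose_mul, h.a_tr] at h5
  rw [h.a_add]
  simp only [vmul]
  calc (ρ x).1 * ((ρ (h.a s)).1 * (ρ (h.a s)).1)
      = (ρ x).1 * (ρ (h.a s)).1 * ((ρ (h.a s)).1 * (ρ x).1.transpose) * (ρ x).1 := by
        simp only [Matrix.mul_assoc, h.K_tr_mul h1, Matrix.mul_one]
    _ = (ρ (h.a s)).1 * ((ρ y).1 * (ρ y).1.transpose) * (ρ (h.a s)).1 * (ρ x).1 := by
        rw [h5]; simp only [Matrix.mul_assoc]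
    _ = _ := by rw [h.K_mul_tr h2, Matrix.mul_one]

/-- the direction of a group element -/
noncomputable def pd (x : G) : h.Y := by
  classical
  exact if x ∈ h.K then h.y0 else ((h.kak_rr x).choose : h.Y)

/-- the position of a group element -/
noncomputable def pos (x : G) : h.Z := h.dl (h.rr x) (h.sec (h.pd x))

theorem pd_K {κ : G} (hκ : κ ∈ h.K) : h.pd κ = h.y0 := by
  unfold pd; rw [if_pos hκ]

theorem pd_kak {κ κ' : G} (hκ : κ ∈ h.K) (hκ' : κ' ∈ h.K) {s : ℝ} (hs : 0 < s) :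
    h.pd (κ * h.a s * κ') = (κ : h.Y) := by
  have h1 := h.rr_kak hκ hκ' hs.le
  unfold pd
  rw [if_neg fun h0 => hs.ne' (h1.symm.trans (h.rr_K h0))]
  obtain ⟨hk, k', hk', e⟩ := (h.kak_rr (κ * h.a s * κ')).choose_spec
  set k := (h.kak_rr (κ * h.a s * κ')).choose
  rw [h1] at e
  exact (QuotientGroup.eq.2 (h.M_le_P (h.kak_unique hκ hκ' hk hk' hs.ne' e))).symm

theorem rr_pos {x : G} (hx : x ∉ h.K) : 0 < h.rr x :=
  lt_of_le_of_ne (h.rr_nonneg x) fun h0 => hx (h.rr_eq_zero.1 h0.symm)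

theorem not_mem_K {x : G} (hx : 0 < h.rr x) : x ∉ h.K := fun h0 => hx.ne' (h.rr_K h0)

/-- Cartan decomposition adapted to the direction -/
theorem kak_pd (x : G) : ∃ κ ∈ h.K, ∃ κ' ∈ h.K, x = κ * h.a (h.rr x) * κ' ∧ h.pd x = (κ : h.Y) := by
  by_cases hx : x ∈ h.K
  · exact ⟨1, h.K.one_mem, x, hx, by rw [h.rr_K hx, h.a_zero, one_mul, one_mul], h.pd_K hx⟩
  · obtain ⟨κ, hκ, κ', hκ', e⟩ := h.kak_rr x
    exact ⟨κ, hκ, κ', hκ', e, by rw [e, h.pd_kak hκ hκ' (h.rr_pos hx)]⟩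

theorem ht_pos (x : G) : h.ht (h.pos x) = h.rr x := by
  unfold pos; rw [h.ht_dl, h.ht_sec, zero_add]

theorem dir_pos (x : G) : h.dir (h.pos x) = h.pd x := by
  unfold pos; rw [h.dir_dl, h.dir_sec]

theorem pos_kak {κ κ' : G} (hκ : κ ∈ h.K) (hκ' : κ' ∈ h.K) {s : ℝ} (hs : 0 < s) :
    h.pos (κ * h.a s * κ') = ((κ * h.a s : G) : h.Z) := by
  unfold pos
  rw [h.pd_kak hκ hκ' hs, h.rr_kak hκ hκ' hs.le, h.sec_K hκ, h.dl_mk]

theorem pd_mul_K (x : G) {κ : G} (hκ : κ ∈ h.K) : h.pd (x * κ) = h.pd x := by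
  by_cases hx : x ∈ h.K
  · rw [h.pd_K hx, h.pd_K (h.K.mul_mem hx hκ)]
  · obtain ⟨k, hk, k', hk', e, e'⟩ := h.kak_pd x
    rw [e', e, mul_assoc, h.pd_kak hk (h.K.mul_mem hk' hκ) (h.rr_pos hx)]

theorem pd_K_mul {κ : G} (hκ : κ ∈ h.K) {x : G} (hx : x ∉ h.K) : h.pd (κ * x) = κ • h.pd x := by
  obtain ⟨k, hk, k', hk', e, e'⟩ := h.kak_pd x
  rw [e', e, ← mul_assoc, ← mul_assoc, h.pd_kak (h.K.mul_mem hκ hk) hk' (h.rr_pos hx), h.smul_mkY]

theorem pos_mul_K (x : G) {κ : G} (hκ : κ ∈ h.K) : h.pos (x * κ) = h.pos x := by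
  unfold pos; rw [h.pd_mul_K x hκ, h.rr_mul_K x hκ]

theorem pos_K_mul {κ : G} (hκ : κ ∈ h.K) {x : G} (hx : x ∉ h.K) :
    h.pos (κ * x) = κ • h.pos x := by
  unfold pos; rw [h.pd_K_mul hκ hx, h.rr_K_mul hκ, h.smul_dl, h.K_smul_sec hκ]

theorem isClosedEmbedding_a : IsClosedEmbedding h.a :=
  haveI := t2 h.rs.emb
  Function.LeftInverse.isClosedEmbedding h.hs_a h.continuous_hs h.continuous_a

theorem continuousOn_pd : ContinuousOn h.pd (h.K : Set G)ᶜ := by
  haveI := topGroup h.rs.emb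
  haveI := t2 h.rs.emb
  refine continuousOn_iff_isClosed.2 fun C hC => ?_
  have h1 : IsCompact ((h.K : Set G) ∩ {k | (k : h.Y) ∈ C}) :=
    h.isCompact_K.inter_right (hC.preimage QuotientGroup.continuous_mk)
  have h2 : IsClosed (h.a '' Set.Ici 0) := h.isClosedEmbedding_a.isClosedMap _ isClosed_Ici
  refine ⟨_, (h2.mul_left_of_isCompact h1).mul_right_of_isCompact h.isCompact_K, ?_⟩
  ext x
  refine and_congr_left fun hx => ⟨fun h3 => ?_, ?_⟩
  · obtain ⟨k, hk, k', hk', e, e'⟩ := h.kak_pd x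
    exact ⟨_, ⟨k, ⟨hk, by rw [Set.mem_setOf_eq, ← e']; exact h3⟩, _,
      ⟨_, h.rr_nonneg x, rfl⟩, rfl⟩, k', hk', e.symm⟩
  · rintro ⟨_, ⟨k, ⟨hk, hkC⟩, _, ⟨s, hs, rfl⟩, rfl⟩, k', hk', rfl⟩
    have h3 := h.rr_pos hx
    simp only at h3 ⊢
    rw [h.rr_kak hk hk' hs] at h3
    rw [Set.mem_preimage, h.pd_kak hk hk' h3]
    exact hkC

theorem continuousOn_pos : ContinuousOn h.pos (h.K : Set G)ᶜ :=
  h.continuous_dl.comp_continuousOn (f := fun x => (h.rr x, h.sec (h.pd x)))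
    (h.continuous_rr.continuousOn.prodMk (h.continuous_sec.comp_continuousOn h.continuousOn_pd))

theorem measurable_pd [MeasurableSpace G] [BorelSpace G] : Measurable h.pd := by
  classical
  haveI := t2 h.rs.emb
  have h1 := h.isCompact_K.isClosed.measurableSet
  have h2 := (continuousOn_const (c := h.y0) (s := (h.K : Set G))).measurable_piecewise
    h.continuousOn_pd h1
  refine (funext fun x => ?_ : _ = h.pd) ▸ h2
  by_cases hx : x ∈ h.K
  · rw [Set.piecewise_eq_of_mem _ _ _ hx, h.pd_K hx]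
  · rw [Set.piecewise_eq_of_notMem _ _ _ hx]

theorem measurable_pos [MeasurableSpace G] [BorelSpace G] : Measurable h.pos :=
  h.continuous_dl.measurable.comp (f := fun x => (h.rr x, h.sec (h.pd x)))
    (h.continuous_rr.measurable.prodMk (h.continuous_sec.measurable.comp h.measurable_pd))

/-- **The direction attracts the boundary.** -/
theorem dv_pd (g : G) (y : h.Y) : h.dv (h.pd g) (g • y) ≤ Real.exp (-(h.rr g + h.co g y)) := by
  obtain ⟨k, hk, k', hk', e, e'⟩ := h.kak_pd g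
  have h1 : h.pd g = g • (k'⁻¹ • h.y0) := by
    rw [e', ← mul_smul, h.smul_y0]
    conv_rhs => rw [e, mul_inv_cancel_right, h.mkY_mul (h.a_mem_P _)]
  have h2 : h.co g (k'⁻¹ • h.y0) = h.rr g := by
    conv_lhs => rw [e, h.co_kak hk hk', smul_inv_smul, h.co_a_y0]
  rw [h1, h.dv_smul, h2]
  exact mul_le_of_le_one_right (Real.exp_pos _).le (h.dv_le_one _ _)

theorem exists_pd (x : G) : ∃ y, x • y = h.pd x ∧ h.co x y = h.rr x := by
  obtain ⟨k, hk, k', hk', e, e'⟩ := h.kak_pd x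
  refine ⟨k'⁻¹ • h.y0, ?_, ?_⟩
  · rw [e', ← mul_smul, h.smul_y0]
    conv_lhs => rw [e, mul_inv_cancel_right, h.mkY_mul (h.a_mem_P _)]
  · conv_lhs => rw [e, h.co_kak hk hk', smul_inv_smul, h.co_a_y0]

theorem co_inv_pd (x : G) : h.co x⁻¹ (h.pd x) = -h.rr x := by
  obtain ⟨y, e, e'⟩ := h.exists_pd x
  rw [← e, h.co_inv, e']

/-- **Covariance of the direction.** -/
theorem dv_pd_mul (g x : G) :
    h.dv (h.pd (g * x)) (g • h.pd x) ≤ Real.exp (-(2 * (h.rr x - h.rr g))) := by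
  obtain ⟨y, e, e'⟩ := h.exists_pd x
  have h1 := h.dv_pd (g * x) y
  rw [mul_smul, e, h.co_mul, e, e'] at h1
  refine h1.trans (Real.exp_le_exp.2 ?_)
  have h2 := (abs_le.1 (h.abs_co_le g (h.pd x))).1
  have h3 := (abs_le.1 (h.abs_rr_mul_sub g x)).1
  linarith

theorem co_pd_le (g x : G) : h.co g (h.pd x) + h.rr x ≤ h.rr (g * x) := by
  obtain ⟨y, e, e'⟩ := h.exists_pd x
  have h1 := (abs_le.1 (h.abs_co_le (g * x) y)).2
  rwa [h.co_mul, e, e'] at h1

theorem rr_nE_small {ε : ℝ} (hε : 0 < ε) : ∃ δ : ℝ, 0 < δ ∧ ∀ p, h.gau p ≤ δ →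
    h.rr (h.nE p) ≤ ε := by
  have h1 : IsCompact ({p : h.EN | h.gau p ≤ 1} ∩ {p | ε ≤ h.rr (h.nE p)}) :=
    (h.isCompact_gau 1).inter_right
      (isClosed_le continuous_const (h.continuous_rr.comp h.continuous_nE))
  obtain ⟨δ, hδ, h2⟩ := h1.exists_forall_le' (a := (0 : ℝ)) h.continuous_gau.continuousOn
    fun p hp => lt_of_le_of_ne (h.gau_nonneg p) fun h0 => by
      have h3 := hp.2
      rw [Set.mem_setOf_eq, h.gau_eq_zero.1 h0.symm, h.nE_zero, h.rr_one] at h3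
      linarith
  refine ⟨min (δ / 2) 1, lt_min (by linarith) one_pos, fun p hp => ?_⟩
  by_contra h3
  have h4 := h2 p ⟨hp.trans (min_le_right _ _), (not_le.1 h3).le⟩
  have h5 := hp.trans (min_le_left _ _)
  linarith

theorem gau_iu (R : ℝ) : ∃ C : ℝ, ∀ g, h.rr g ≤ R → h.gau (h.nC (h.iu g)) ≤ C := by
  obtain ⟨C, hC⟩ := ((h.isCompact_ball R).image
    (h.continuous_gau.comp (h.continuous_nC.comp h.continuous_iu))).bddAbove
  exact ⟨C, fun g hg => hC ⟨g, hg, rfl⟩⟩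

/-- **Covariance of the height.** -/
theorem rr_mul_le_co (R : ℝ) {ε : ℝ} (hε : 0 < ε) : ∃ S : ℝ, ∀ g x, h.rr g ≤ R → S ≤ h.rr x →
    h.rr (g * x) ≤ h.co g (h.pd x) + h.rr x + ε := by
  obtain ⟨δ, hδ, h1⟩ := h.rr_nE_small hε
  obtain ⟨C, h2⟩ := h.gau_iu R
  obtain ⟨S, hS⟩ := eventually_atTop.1 ((tendsto_order.1 ((Real.tendsto_exp_neg_atTop_nhds_zero
    ).mul_const C)).2 δ (by rwa [zero_mul]))
  refine ⟨max S R, fun g x hg hx => ?_⟩
  obtain ⟨k, hk, k', hk', e, e'⟩ := h.kak_pd x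
  set s := h.rr x with hs
  have h3 := h2 (g * k) (by rwa [h.rr_mul_K _ hk])
  set p := h.nC (h.iu (g * k)) with hp
  have h4 : g * x = h.ik (g * k) * h.a (h.hs (g * k) + s) * (h.nE (h.dil (-s) p) * k') := by
    rw [h.a_add, mul_assoc (h.ik _), mul_assoc (h.a _), ← mul_assoc (h.a s),
      ← h.nE_mul_a, hp, h.nE_nC (h.iu_mem _), ← mul_assoc, ← mul_assoc, ← mul_assoc, h.iwa_eq]
    conv_lhs => rw [e]
    simp only [mul_assoc]
  have h5 : h.rr (h.nE (h.dil (-s) p)) ≤ ε := h1 _ (by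
    rw [h.gau_dil]
    exact (mul_le_mul_of_nonneg_left h3 (Real.exp_pos _).le).trans
      (hS s ((le_max_left _ _).trans hx)).le)
  have h6 := (abs_le.1 (h.abs_hs_le (g * k))).1
  rw [h.rr_mul_K _ hk] at h6
  have h7 := h.rr_mul_le (h.ik (g * k) * h.a (h.hs (g * k) + s)) (h.nE (h.dil (-s) p) * k')
  rw [← h4, h.rr_mul_K _ hk', h.rr_K_mul (h.ik_mem _), h.rr_a,
    abs_of_nonneg (by linarith [(le_max_right _ _).trans hx])] at h7
  rw [e', h.co_K g hk]
  linarith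

theorem exists_ht {E : Type*} [Zero E] [TopologicalSpace E] {F : h.Z → E}
    (hc : HasCompactSupport F) : ∃ A : ℝ, 0 ≤ A ∧ ∀ z, A < |h.ht z| → F z = 0 := by
  obtain ⟨A, hA⟩ := (hc.isCompact.image (continuous_abs.comp h.continuous_ht)).bddAbove
  refine ⟨max A 0, le_max_right _ _, fun z hz => ?_⟩
  by_contra h0
  exact absurd (hA ⟨z, subset_tsupport _ h0, rfl⟩) (not_le.2 ((le_max_left _ _).trans_lt hz))

/-- uniform continuity on the cone -/
theorem unif_cone {E : Type*} [Zero E] [PseudoMetricSpace E] {F : h.Z → E} (hF : Continuous F)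
    (hc : HasCompactSupport F) {ε : ℝ} (hε : 0 < ε) : ∃ δ : ℝ, 0 < δ ∧ ∀ z z',
      h.dv (h.dir z) (h.dir z') ≤ δ → |h.ht z - h.ht z'| ≤ δ → dist (F z) (F z') ≤ ε := by
  obtain ⟨A, -, hA⟩ := h.exists_ht hc
  have h1 : IsCompact (({z : h.Z | |h.ht z| ≤ A + 1} ×ˢ {z : h.Z | |h.ht z| ≤ A + 1}) ∩
      {q | ε ≤ dist (F q.1) (F q.2)}) :=
    ((h.isCompact_ht _).prod (h.isCompact_ht _)).inter_right
      (isClosed_le continuous_const (by fun_prop))
  have h2 : Continuous fun q : h.Z × h.Z =>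
      h.dv (h.dir q.1) (h.dir q.2) + |h.ht q.1 - h.ht q.2| :=
    (h.continuous_dv.comp (f := fun q : h.Z × h.Z => (h.dir q.1, h.dir q.2))
      ((h.continuous_dir.comp continuous_fst).prodMk (h.continuous_dir.comp continuous_snd))).add
      ((h.continuous_ht.comp continuous_fst).sub (h.continuous_ht.comp continuous_snd)).abs
  obtain ⟨δ, hδ, h3⟩ := h1.exists_forall_le' (a := (0 : ℝ)) h2.continuousOn fun q hq => by
    have h4 := h.dv_nonneg (h.dir q.1) (h.dir q.2)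
    have h5 := abs_nonneg (h.ht q.1 - h.ht q.2)
    by_contra h6
    have h7 : q.1 = q.2 := h.Z_ext (h.dv_eq_zero.1 (by linarith))
      (sub_eq_zero.1 (abs_eq_zero.1 (by linarith)))
    have h8 := hq.2
    rw [Set.mem_setOf_eq, h7, dist_self] at h8
    linarith
  refine ⟨min (δ / 3) 1, lt_min (by linarith) one_pos, fun z z' h4 h5 => ?_⟩
  by_contra h6
  push Not at h6
  have h7 := h5.trans (min_le_right _ _)
  have h8 := abs_sub_abs_le_abs_sub (h.ht z) (h.ht z')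
  have h9 := abs_sub_abs_le_abs_sub (h.ht z') (h.ht z)
  rw [abs_sub_comm] at h9
  have h10 : |h.ht z| ≤ A ∨ |h.ht z'| ≤ A := by
    by_contra h0
    push Not at h0
    rw [hA z h0.1, hA z' h0.2, dist_self] at h6
    linarith
  have h11 := h3 (z, z') ⟨⟨show |h.ht z| ≤ A + 1 by rcases h10 with e | e <;> linarith,
    show |h.ht z'| ≤ A + 1 by rcases h10 with e | e <;> linarith⟩, h6.le⟩
  have h12 := h4.trans (min_le_left _ _)
  have h13 := h5.trans (min_le_left _ _)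
  simp only at h11
  linarith

/-- **The windows are asymptotically covariant.** -/
theorem pos_cov {E : Type*} [Zero E] [PseudoMetricSpace E] {F : h.Z → E} (hF : Continuous F)
    (hc : HasCompactSupport F) (R : ℝ) {ε : ℝ} (hε : 0 < ε) : ∀ᶠ l : ℝ in atTop,
      ∀ g x, h.rr g ≤ R →
        dist (F (h.dl (-l) (h.pos (g * x)))) (F (g • h.dl (-l) (h.pos x))) ≤ ε := by
  obtain ⟨A, -, hA⟩ := h.exists_ht hc
  obtain ⟨δ, hδ, h1⟩ := h.unif_cone hF hc hε
  obtain ⟨S, hS⟩ := h.rr_mul_le_co R hδ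
  obtain ⟨T, hT⟩ := eventually_atTop.1 ((tendsto_order.1 Real.tendsto_exp_neg_atTop_nhds_zero).2
    δ hδ)
  filter_upwards [eventually_ge_atTop (A + R + max S (R + T / 2))] with l hl g x hg
  have h2 : h.ht (h.dl (-l) (h.pos (g * x))) = h.rr (g * x) - l := by
    rw [h.ht_dl, h.ht_pos]; ring
  have h3 : h.ht (g • h.dl (-l) (h.pos x)) = h.co g (h.pd x) + h.rr x - l := by
    rw [h.ht_smul, h.dir_dl, h.dir_pos, h.ht_dl, h.ht_pos]; ring
  have h4 := h.co_pd_le g x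
  by_cases hx : h.rr x < max S (R + T / 2)
  · have h5 := h.rr_mul_le g x
    rw [hA _ (lt_of_lt_of_le (by rw [h2]; linarith) (neg_le_abs _)),
      hA _ (lt_of_lt_of_le (by rw [h3]; linarith) (neg_le_abs _)), dist_self]
    exact hε.le
  · push Not at hx
    have h5 := hS g x hg ((le_max_left _ _).trans hx)
    have h6 := (le_max_right _ _).trans hx
    refine h1 _ _ ?_ ?_
    · rw [h.dir_dl, h.dir_pos, h.dir_smul, h.dir_dl, h.dir_pos]
      exact (h.dv_pd_mul g x).trans (hT _ (by show _ ≤ _; linarith)).le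
    · rw [h2, h3, abs_le]
      constructor <;> linarith

/-- the windows are continuous -/
theorem continuous_win {E : Type*} [Zero E] [TopologicalSpace E] {F : h.Z → E} (hF : Continuous F)
    {A l : ℝ} (hA : ∀ z, A < |h.ht z| → F z = 0) (hl : A < l) :
    Continuous fun x => F (h.dl (-l) (h.pos x)) := by
  haveI := t2 h.rs.emb
  refine continuous_iff_continuousAt.2 fun x => ?_
  by_cases hx : x ∈ h.K
  · have h1 : ∀ᶠ y in 𝓝 x, h.rr y < l - A :=
      h.continuous_rr.continuousAt.eventually_lt continuousAt_const (by rw [h.rr_K hx]; linarith)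
    refine (continuousAt_const (y := (0 : E))).congr ?_
    filter_upwards [h1] with y hy
    exact (hA _ (lt_of_lt_of_le (by rw [h.ht_dl, h.ht_pos]; linarith) (neg_le_abs _))).symm
  · exact (hF.comp (h.continuous_dl' (-l))).continuousAt.comp
      (h.continuousOn_pos.continuousAt (h.isCompact_K.isClosed.isOpen_compl.mem_nhds hx))

theorem win_eq_zero {E : Type*} [Zero E] {F : h.Z → E} {A l : ℝ}
    (hA : ∀ z, A < |h.ht z| → F z = 0) {x : G} (hx : A < |h.rr x - l|) :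
    F (h.dl (-l) (h.pos x)) = 0 := hA _ (by rwa [h.ht_dl, h.ht_pos])

variable [IsTopologicalGroup G] [SecondCountableTopology G] [MeasurableSpace G] [BorelSpace G]
  [LocallyCompactSpace G] (μ : Measure G) [μ.IsHaarMeasure]

theorem haar_hs (t : ℝ) : μ {g | h.hs g = t} = 0 := by
  obtain ⟨c, -, e⟩ := h.haar_kan μ
  have hm : MeasurableSet {g | h.hs g = t} := h.measurable_hs (measurableSet_singleton t)
  rw [← lintegral_indicator_one hm, e _ (measurable_one.indicator hm),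
    lintegral_congr_ae (g := fun _ => 0), lintegral_zero, mul_zero]
  filter_upwards [h.hpK.ae] with k hk
  rw [lintegral_congr_ae (g := fun _ => 0), lintegral_zero]
  filter_upwards [measure_eq_zero_iff_ae_notMem.1 (Real.volume_singleton (a := t))] with s hs
  rw [lintegral_congr (g := fun _ => 0), lintegral_zero, zero_mul]
  intro p
  refine Set.indicator_of_notMem (fun h0 => hs ?_) _
  rw [Set.mem_setOf_eq, ← mul_assoc, h.hs_kan hk s (h.nE_mem p)] at h0
  exact h0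

theorem haar_K : μ (h.K : Set G) = 0 :=
  measure_mono_null (fun _ hk => h.hs_K hk) (h.haar_hs μ 0)

/-- the Haar measure in polar coordinates -/
theorem lintegral_pos {F : h.Z → ℝ≥0∞} (hF : Measurable F) : ∫⁻ x, F (h.pos x) ∂μ =
    ∫⁻ r, ∫⁻ y, F (h.dl r (h.sec y)) ∂h.νY ∂(map h.rr μ) := by
  rw [h.haar_kak μ (F := fun x => F (h.pos x)) (hF.comp h.measurable_pos)]
  refine lintegral_congr_ae ?_
  have h1 : ∀ᵐ r ∂(map h.rr μ), 0 < r := by
    refine (ae_map_iff h.measurable_rr.aemeasurable measurableSet_Ioi).2 ?_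
    filter_upwards [measure_eq_zero_iff_ae_notMem.1 (h.haar_K μ)] with x hx using h.rr_pos hx
  filter_upwards [h1] with r hr
  rw [h.lintegral_νY (F := fun y => F (h.dl r (h.sec y)))
    (hF.comp ((h.continuous_dl' r).comp h.continuous_sec).measurable)]
  refine lintegral_congr_ae ?_
  filter_upwards [h.hpK.ae] with k hk
  rw [lintegral_congr_ae (g := fun _ => F (h.dl r (h.sec (k : h.Y)))), lintegral_const,
    measure_univ, mul_one]
  filter_upwards [h.hpK.ae] with k' hk'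
  rw [h.pos_kak hk hk' hr, h.sec_K hk, h.dl_mk]

end R1

end Vale.Agent.P092RG
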